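import Vale.Agent.P148.R2.H184.PC3
import Vale.Agent.P148.R2.H566.World
import Vale.Agent.P148.R2.H664.Conf

/-!
# P148, row PC, part 4: the row in terms of the worlds of helper566

`A = (-1/2, 1/2)²`, `Q' = (-4, 4)²` divided into `16²` squares of side `1/2`.
-/

open MeasureTheory Set Metric Function ProbabilityTheory
open scoped ENNReal NNReal

namespace Vale.Agent.P148.R2.H184

open H592 H203 H995 H990 _root_.P148 _root_.P148.H729

universe u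

/-- The unit square of the row OMEGA. -/
noncomputable def A0 : Set ℂ := sqr ⟨-(1 / 2), -(1 / 2)⟩ 1

/-- The big square. -/
def Q0 : Set ℂ := sqr ⟨-4, -4⟩ 8

/-- The squares of side `1/2`. -/
noncomputable def Qs (ij : Fin 16 × Fin 16) : Set ℂ := sub ⟨-4, -4⟩ (8 / (16 : ℕ)) ij.1 ij.2

theorem Qs_sub (ij : Fin 16 × Fin 16) : Qs ij ⊆ Q0 := by
  refine sub_subset (n := 16) (by norm_num) ?_ ij.1.2 ij.2.2
  norm_num

theorem mem_Qs {ij : Fin 16 × Fin 16} {z : ℂ} (hz : z ∈ Qs ij) :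
    (-4 + (ij.1 : ℕ) / 2 < z.re ∧ z.re < -4 + ((ij.1 : ℕ) + 1) / 2) ∧
      (-4 + (ij.2 : ℕ) / 2 < z.im ∧ z.im < -4 + ((ij.2 : ℕ) + 1) / 2) := by
  have h1 : z ∈ sqr (⟨-4, -4⟩ + ⟨((ij.1 : ℕ) : ℝ) * (8 / (16 : ℕ)),
    ((ij.2 : ℕ) : ℝ) * (8 / (16 : ℕ))⟩) (8 / (16 : ℕ)) := hz
  obtain ⟨⟨h2, h3⟩, h4, h5⟩ := h1
  simp only [Complex.add_re, Complex.add_im] at h2 h3 h4 h5
  norm_num at h2 h3 h4 h5
  refine ⟨⟨by linarith, by linarith⟩, by linarith, by linarith⟩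

theorem Qs_A0 (ij : Fin 16 × Fin 16) : Qs ij ⊆ A0 ∨ Disjoint (Qs ij) A0 := by
  by_cases h : ((ij.1 : ℕ) = 7 ∨ (ij.1 : ℕ) = 8) ∧ ((ij.2 : ℕ) = 7 ∨ (ij.2 : ℕ) = 8)
  · left
    intro z hz
    obtain ⟨⟨h2, h3⟩, h4, h5⟩ := mem_Qs hz
    show (-(1 / 2 : ℝ) < z.re ∧ z.re < -(1 / 2 : ℝ) + 1) ∧
      (-(1 / 2 : ℝ) < z.im ∧ z.im < -(1 / 2 : ℝ) + 1)
    obtain ⟨h6 | h6, h7 | h7⟩ := h <;> rw [h6] at h2 h3 <;> rw [h7] at h4 h5 <;>
      norm_num at h2 h3 h4 h5 ⊢ <;> refine ⟨⟨by linarith, by linarith⟩, by linarith, by linarith⟩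
  · right
    rw [Set.disjoint_left]
    intro z hz hA
    obtain ⟨⟨h2, h3⟩, h4, h5⟩ := mem_Qs hz
    have hA' : (-(1 / 2 : ℝ) < z.re ∧ z.re < -(1 / 2 : ℝ) + 1) ∧
      (-(1 / 2 : ℝ) < z.im ∧ z.im < -(1 / 2 : ℝ) + 1) := hA
    obtain ⟨⟨a1, a2⟩, a3, a4⟩ := hA'
    apply h
    have key : ∀ (k : ℕ) (y : ℝ), -4 + (k : ℝ) / 2 < y → y < -4 + ((k : ℝ) + 1) / 2 →
        -(1 / 2 : ℝ) < y → y < -(1 / 2 : ℝ) + 1 → k = 7 ∨ k = 8 := by
      intro k y b1 b2 b3 b4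
      have c1 : (k : ℝ) < 9 := by linarith
      have c2 : (6 : ℝ) < k := by linarith
      have d1 : k < 9 := by exact_mod_cast c1
      have d2 : 6 < k := by exact_mod_cast c2
      omega
    exact ⟨key _ _ h2 h3 a1 a2, key _ _ h4 h5 a3 a4⟩

section world

variable (w : H566.W0)

theorem pi_ne_O {x : ℂ} (hx : x ∈ w.X) : w.π x ≠ w.O ↔ x ∉ w.B := by
  constructor
  · intro h hB
    apply h
    exact cmap_of_mem (j := ()) (fun i j hij => absurd (Subsingleton.elim i j) hij) hB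
  · intro h he
    have h1 : w.π x = Sum.inr ⟨x, hx, fun _ => h⟩ := cmap_of_free hx fun _ => h
    rw [h1] at he
    exact absurd he (by simp [H566.W0.O])

/-- The plane classes of world 0 which meet `A` and are not local in `A`. -/
def PW (A : Set ℂ) (σ : w.V → Bool) (d : w.D) : Prop :=
  (∃ r, w.T.Rel σ d r ∧ w.Lo A r ∧ ¬ w.Lc A σ r) ∧ ¬ H910.Thr w.T w.O σ d

theorem pw_sat (A : Set ℂ) (σ : w.V → Bool) : Sat w.T σ (PW w A σ) := by
  rintro d e hr ⟨⟨r, h1, h2⟩, h3⟩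
  exact ⟨⟨r, w.T.rel_trans (w.T.rel_symm hr) h1, h2⟩, (H910.thr_sat w.T w.O σ).not d e hr h3⟩

/-- What the row PC needs of the world `w` of the configuration `T`. -/
structure PCW (T : Set Pt) (w : H566.W0) : Prop where
  /-- free sites are points of the configuration -/
  sub : ∀ x, w.Free x → x ∈ pts T
  /-- they are in `(-3/2, 3/2)²` -/
  near : ∀ x, w.Free x → nsup x < 3 / 2
  /-- the frozen neighbours of free sites are black -/
  bdry : ∀ x y, nbr w.X x y → w.Free x → y ∈ w.B → H184.col T y = true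
  /-- `X` is the configuration in the big square -/
  win : w.X ∩ Q0 = pts T ∩ Q0
  /-- the sites in the small square are free -/
  inner : ∀ x ∈ w.X, x ∈ A0 → x ∉ w.B
  /-- no large empty disc near the big square -/
  net : Net w.X (closedBall 0 5) 1
  /-- the corners of the hull are far -/
  far : ∀ j, 3 / 2 ≤ nsup (w.b j)

variable {w}

theorem PCW.loc {T : Set Pt} (hW : PCW T w) (q : Fc w.X w.b × ZMod 3)
    (hq : w.π (dt q).1 ≠ w.O ∨ w.π (dt q).2.1 ≠ w.O) : LF w.X Q0 (dt q) := by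
  have hm := H664.dt_mem w.hull q
  have h1 : nsup ((dt q).1 - 0) < 3 * (1 / 2) ∨ nsup ((dt q).2.1 - 0) < 3 * (1 / 2) := by
    rw [sub_zero, sub_zero]
    rcases hq with hq | hq
    · left
      have := hW.near _ ⟨hm.1, (pi_ne_O w hm.1).1 hq⟩
      linarith
    · right
      have := hW.near _ ⟨hm.2.1, (pi_ne_O w hm.2.1).1 hq⟩
      linarith
  refine H664.lf_of_near (p := 0) (r := 1 / 2) (ρ := 1) one_pos ?_ ?_ ?_ q h1
  · norm_num
    exact hW.net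
  · intro z hz
    rw [sub_zero] at hz
    have h2 : |z.re| ≤ nsup z := le_max_left _ _
    have h3 : |z.im| ≤ nsup z := le_max_right _ _
    have h4 := abs_le.1 h2
    have h5 := abs_le.1 h3
    refine ⟨⟨?_, ?_⟩, ?_, ?_⟩ <;> norm_num at hz ⊢ <;> linarith [h4.1, h4.2, h5.1, h5.2]
  · intro j
    rw [sub_zero]
    have := hW.far j
    linarith

theorem PCW.w0 {T : Set Pt} (hW : PCW T w) : W0 T w.X w.π w.O where
  surj v hv := by
    rcases v with u | f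
    · exact absurd rfl hv
    · exact ⟨f.1, f.2.1, cmap_free f⟩
  inj x hx hxO y hy hxy := by
    have hxB := (pi_ne_O w hx).1 hxO
    have h1 : w.π x = Sum.inr ⟨x, hx, fun _ => hxB⟩ := cmap_of_free hx fun _ => hxB
    rw [h1] at hxy
    exact (eq_of_cmap hxy.symm).symm
  sub x hx hxO := hW.sub x ⟨hx, (pi_ne_O w hx).1 hxO⟩
  bdry x y hxy hx hy := by
    refine hW.bdry x y hxy ⟨hxy.1, (pi_ne_O w hxy.1).1 hx⟩ ?_
    by_contra hyB
    exact (pi_ne_O w hxy.2.1).2 hyB hy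

theorem fr_eq : Fr w.X w.π w.O = {x | w.Free x} := by
  ext x
  exact ⟨fun h => ⟨h.1, (pi_ne_O w h.1).1 h.2⟩, fun h => ⟨h.1, (pi_ne_O w h.1).2 h.2⟩⟩

/-- **PC, quenched**, in the world of a configuration. `Ψ` is any weight which is `Θ` on the good
faces with free tail. -/
theorem PCW.En_le {T : Set Pt} (hW : PCW T w) (hT : OneCol T) (Θ : Dt → ℂ) {Ψ : w.D → ℂ}
    (hΨ : ∀ q, w.T.Good q → w.Free (dt q).1 → Ψ q = Θ (dt q)) :
    w.En (PW w A0) Ψ ≤ avg {x | w.Free x} (fun T' => MQ (pts T') Q0 Qs (H184.col T') Θ) T := by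
  classical
  have h1 := hW.w0.En_le w.hull w.fib hT hW.loc hW.win
    (A := A0) (fun x hx => (pi_ne_O w hx.1).2 (hW.inner x hx.1 hx.2)) (Qi := Qs) Qs_sub Qs_A0 Θ
    (Ψ := Ψ) (fun q hg hq => by
      have hm := H664.dt_mem w.hull q
      exact hΨ q hg ⟨hm.1, (pi_ne_O w hm.1).1 hq⟩)
  rw [← fr_eq]
  refine le_trans (le_of_eq ?_) h1
  unfold H566.W0.En H910.En
  congr 1
  exact Finset.sum_congr (by ext; simp) fun σ _ => rfl

theorem th_eq (Θ : Dt → ℂ) (q : w.D) (hg : w.T.Good q) : w.th Θ q = Θ (dt q) := by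
  unfold H566.W0.th wt
  exact if_pos hg

end world

/-- **Row PC.** For a density `D ≤ Dm` which, as well as the world `w`, does not depend on the
colours of the free sites of the world, the mean energy of the plane classes of world 0 which
meet `A` and are not local in `A` tends to `0`. -/
theorem pc_row {τ : ℂ} {κ : ℝ} {Θ : Dt → ℂ} (hΘ : Wt τ κ Θ) {Dm : ℝ≥0∞} (hDm : Dm ≠ ⊤)
    {η : ℝ} (hη : 0 < η) :
    ∃ K : ℝ, 0 < K ∧ ∀ (Ω : Type u) [MeasurableSpace Ω] (P : Measure Ω)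
      [IsProbabilityMeasure P] (S : Ω → Set Pt) (lam : ℝ≥0), IsColouredPoisson P S lam →
      K ≤ lam → ∀ (W : Set ℂ), MeasurableSet W → Bornology.IsBounded W →
      ∀ (D : Set Pt → ℝ≥0∞) (w : Set Pt → H566.W0) (Ψ : ∀ T, (w T).D → ℂ),
      (∀ᵐ ω ∂P, ∀ V, V ⊆ pts (S ω) ∩ W → ∀ T, T = flipOn V '' (S ω) → D T ≠ 0 →
        D T ≤ Dm ∧ {x | (w T).Free x} ⊆ W ∧
        (∀ V', V' ⊆ {x | (w T).Free x} → D (flipOn V' '' T) = D T ∧ w (flipOn V' '' T) = w T) ∧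
        PCW T (w T) ∧
        ∀ q, (w T).T.Good q → (w T).Free (dt q).1 → Ψ T q = Θ (dt q)) →
      ∃ g : Ω → ℝ≥0∞, Measurable g ∧
        (∀ᵐ ω ∂P, avg W (fun T => D T * (w T).En (PW (w T) A0) (Ψ T)) (S ω) ≤ g ω) ∧
        ∫⁻ ω, g ω ∂P ≤ ENNReal.ofReal η := by
  obtain ⟨K, hK0, hK⟩ := ub_of_avg.{u} hΘ (m := 16) (by norm_num) ⟨-4, -4⟩
    (L := 8) (by norm_num) hDm hη
  refine ⟨K, hK0, fun Ω _ P _ S lam hS hlam W hWm hWb D w Ψ hall => ?_⟩
  refine hK Ω P S lam hS hlam W hWm hWb D _ (fun T => {x | (w T).Free x}) ?_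
  filter_upwards [hall] with ω hω V hV T hT hD
  obtain ⟨h1, h2, h3, h4, h5⟩ := hω V hV T hT hD
  refine ⟨h1, h2, fun V' hV' => ⟨(h3 V' hV').1, ?_⟩, ?_⟩
  · show {x | (w (flipOn V' '' T)).Free x} = {x | (w T).Free x}
    rw [(h3 V' hV').2]
  · exact h4.En_le (by rw [hT]; exact oneCol_flipOn (hS.oneColour ω) V) Θ h5

end Vale.Agent.P148.R2.H184
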