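import Vale.Agent.P148.R2.H184.L5
import Vale.Agent.P148.R2.H729.Q4

/-!
# The energy of the local loops as a measurable function of the configuration (P148, module L1)
-/

open MeasureTheory Set Metric Topology Filter ProbabilityTheory
open scoped ENNReal NNReal

namespace Vale.Agent.P148.R2.H184

open H592 _root_.P148 _root_.P148.H729

open Classical in
/-- The colours of a configuration (`true` is black). -/
noncomputable def col (T : Set Pt) (z : ℂ) : Bool := decide ((z, true) ∈ T)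

/-- The energy of the local loops of a configuration. -/
noncomputable def SG (Q : Set ℂ) (Θ : Dt → ℂ) (T : Set Pt) : ℝ≥0∞ := SQ (pts T) Q (col T) Θ

open Classical in
/-- The same, `0` if there are infinitely many points in the window. -/
noncomputable def SC (Q : Set ℂ) (Θ : Dt → ℂ) (T : Set Pt) : ℝ≥0∞ :=
  if (T ∩ Q ×ˢ univ).Finite then SG Q Θ (T ∩ Q ×ˢ univ) else 0

theorem pts_window (T : Set Pt) (Q : Set ℂ) : pts (T ∩ Q ×ˢ univ) = pts T ∩ Q := by
  ext z
  constructor
  · rintro ⟨q, ⟨hq, hq'⟩, rfl⟩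
    exact ⟨⟨q, hq, rfl⟩, hq'.1⟩
  · rintro ⟨⟨q, hq, rfl⟩, hz⟩
    exact ⟨q, ⟨hq, hz, mem_univ _⟩, rfl⟩

theorem SG_window (Q : Set ℂ) (Θ : Dt → ℂ) (T : Set Pt) : SG Q Θ (T ∩ Q ×ˢ univ) = SG Q Θ T := by
  unfold SG
  rw [pts_window]
  refine SQ_congr (by rw [inter_assoc, inter_self]) ?_ Θ
  rintro x ⟨⟨-, hx⟩, -⟩
  unfold col
  congr 1
  simp [hx]

theorem SC_eq {Q : Set ℂ} (Θ : Dt → ℂ) {T : Set Pt} (hT : (T ∩ Q ×ˢ univ).Finite) :
    SC Q Θ T = SG Q Θ T := by
  unfold SC
  rw [if_pos hT, SG_window]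

/-! ### measurability by types -/

theorem measurable_of_types {α β T : Type*} [MeasurableSpace α] [MeasurableSpace β] [Countable T]
    (τ : α → T) (hτ : ∀ t, MeasurableSet {x | τ x = t}) {f : α → β}
    (h : ∀ x₀, ∃ g : α → β, Measurable g ∧ ∀ x, τ x = τ x₀ → f x = g x) : Measurable f := by
  intro B hB
  have : f ⁻¹' B = ⋃ t : T, {x | τ x = t} ∩ f ⁻¹' B := by
    ext x
    simp
  rw [this]
  refine MeasurableSet.iUnion fun t => ?_
  by_cases ht : ∃ x₀, τ x₀ = t
  · obtain ⟨x₀, rfl⟩ := ht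
    obtain ⟨g, hg, hfg⟩ := h x₀
    have e : {x | τ x = τ x₀} ∩ f ⁻¹' B = {x | τ x = τ x₀} ∩ g ⁻¹' B := by
      ext x
      constructor
      · rintro ⟨h1, h2⟩
        refine ⟨h1, ?_⟩
        show g x ∈ B
        rw [← hfg x h1]; exact h2
      · rintro ⟨h1, h2⟩
        refine ⟨h1, ?_⟩
        show f x ∈ B
        rw [hfg x h1]; exact h2
    rw [e]
    exact (hτ _).inter (hg hB)
  · have e : {x | τ x = t} ∩ f ⁻¹' B = ∅ := by
      ext x
      simp only [mem_inter_iff, mem_ofPred_eq, mem_preimage, mem_empty_iff_false, iff_false]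
      exact fun hx => ht ⟨x, hx.1⟩
    rw [e]
    exact MeasurableSet.empty

theorem measurableSet_eq_type {α ι : Type*} [MeasurableSpace α] [Countable ι] {A : α → Set ι}
    (hA : ∀ i, MeasurableSet {x | i ∈ A x}) (a : Set ι) : MeasurableSet {x | A x = a} := by
  classical
  have : {x | A x = a} = ⋂ i : ι, if i ∈ a then {x | i ∈ A x} else {x | i ∈ A x}ᶜ := by
    ext x
    simp only [mem_ofPred_eq, mem_iInter]
    constructor
    · rintro rfl i
      split_ifs with h
      · exact h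
      · exact h
    · intro h
      ext i
      have := h i
      split_ifs at this with hi
      · exact ⟨fun _ => hi, fun _ => this⟩
      · exact ⟨fun h' => absurd h' this, fun h' => absurd h' hi⟩
  rw [this]
  refine MeasurableSet.iInter fun i => ?_
  split_ifs
  · exact hA i
  · exact (hA i).compl

/-! ### the type of a finite configuration -/

section
variable {n : ℕ}

/-- The dart with indices `t`. -/
def dx (x : Fin n → Pt) (t : Fin n × Fin n × Fin n) : Dt :=
  ((x t.1).1, (x t.2.1).1, (x t.2.2).1)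

/-- The local faces. -/
def tyA (Q : Set ℂ) (x : Fin n → Pt) : Set (Fin n × Fin n × Fin n) :=
  {t | LF (pts (range x)) Q (dx x t)}

/-- The coincidences. -/
def tyE (x : Fin n → Pt) : Set (Fin n × Fin n) := {p | (x p.1).1 = (x p.2).1}

/-- The black points. -/
def tyC (x : Fin n → Pt) : Set (Fin n) := {i | col (range x) (x i).1 = true}

/-- The map of positions. -/
noncomputable def ph (x₀ x : Fin n → Pt) (z : ℂ) : ℂ := by
  classical exact if h : ∃ i, (x₀ i).1 = z then (x h.choose).1 else z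

theorem ph_apply {x₀ x : Fin n → Pt} (hE : tyE x = tyE x₀) (i : Fin n) :
    ph x₀ x (x₀ i).1 = (x i).1 := by
  have h : ∃ j, (x₀ j).1 = (x₀ i).1 := ⟨i, rfl⟩
  unfold ph
  rw [dif_pos h]
  have h1 : (h.choose, i) ∈ tyE x₀ := h.choose_spec
  rw [← hE] at h1
  exact h1

theorem mem_pts_range {x : Fin n → Pt} {z : ℂ} : z ∈ pts (range x) ↔ ∃ i, (x i).1 = z := by
  constructor
  · rintro ⟨q, ⟨i, rfl⟩, rfl⟩
    exact ⟨i, rfl⟩
  · rintro ⟨i, rfl⟩
    exact ⟨x i, ⟨i, rfl⟩, rfl⟩

theorem mp_ph {x₀ x : Fin n → Pt} (hE : tyE x = tyE x₀) (t : Fin n × Fin n × Fin n) :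
    mp (ph x₀ x) (dx x₀ t) = dx x t :=
  Prod.ext (ph_apply hE _) (Prod.ext (ph_apply hE _) (ph_apply hE _))

theorem exists_dx {Q : Set ℂ} {x : Fin n → Pt} {d : Dt} (hd : LF (pts (range x)) Q d) :
    ∃ t, dx x t = d := by
  obtain ⟨i, hi⟩ := mem_pts_range.1 hd.1.1
  obtain ⟨j, hj⟩ := mem_pts_range.1 hd.1.2.1
  obtain ⟨k, hk⟩ := mem_pts_range.1 hd.1.2.2
  exact ⟨(i, j, k), Prod.ext hi (Prod.ext hj hk)⟩

theorem lf_of_ty {Q : Set ℂ} {x₀ x : Fin n → Pt} (hA : tyA Q x = tyA Q x₀) (hE : tyE x = tyE x₀)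
    {d : Dt} (hd : LF (pts (range x₀)) Q d) : LF (pts (range x)) Q (mp (ph x₀ x) d) := by
  obtain ⟨t, rfl⟩ := exists_dx hd
  rw [mp_ph hE]
  have h1 : t ∈ tyA Q x₀ := hd
  rw [← hA] at h1
  exact h1

theorem col_of_ty {x₀ x : Fin n → Pt} (hC : tyC x = tyC x₀) (i : Fin n) :
    col (range x) (x i).1 = col (range x₀) (x₀ i).1 := by
  have h1 : (i ∈ tyC x) ↔ (i ∈ tyC x₀) := by rw [hC]
  exact Bool.eq_iff_iff.2 h1

theorem tr_of_ty {Q : Set ℂ} {x₀ x : Fin n → Pt} (hA : tyA Q x = tyA Q x₀)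
    (hE : tyE x = tyE x₀) (hC : tyC x = tyC x₀) :
    Tr (ph x₀ x) (ph x x₀) (pts (range x₀)) Q (pts (range x)) Q (col (range x₀))
      (col (range x)) where
  lf _ hd := lf_of_ty hA hE hd
  lf' _ hd := lf_of_ty hA.symm hE.symm hd
  l z hz := by
    obtain ⟨i, rfl⟩ := mem_pts_range.1 hz.1
    rw [ph_apply hE, ph_apply hE.symm]
  r z hz := by
    obtain ⟨i, rfl⟩ := mem_pts_range.1 hz.1
    rw [ph_apply hE.symm, ph_apply hE]
  col z hz := by
    obtain ⟨i, rfl⟩ := mem_pts_range.1 hz.1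
    rw [ph_apply hE, col_of_ty hC]
  col' z hz := by
    obtain ⟨i, rfl⟩ := mem_pts_range.1 hz.1
    rw [ph_apply hE.symm, col_of_ty hC]

theorem finite_LF {X : Set ℂ} (hX : X.Finite) (Q : Set ℂ) : {d : Dt | LF X Q d}.Finite := by
  refine (hX.prod (hX.prod hX)).subset ?_
  intro d hd
  exact ⟨hd.1.1, hd.1.2.1, hd.1.2.2⟩

theorem finite_pts_range (x : Fin n → Pt) : (pts (range x)).Finite :=
  (finite_range x).image _

theorem measurable_ph (x₀ : Fin n → Pt) (z : ℂ) : Measurable fun x : Fin n → Pt => ph x₀ x z := by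
  classical
  unfold ph
  by_cases h : ∃ i, (x₀ i).1 = z
  · simp only [dif_pos h]
    exact measurable_fst.comp (measurable_pi_apply _)
  · simp only [dif_neg h]
    exact measurable_const

theorem measurable_mp_ph (x₀ : Fin n → Pt) (d : Dt) :
    Measurable fun x : Fin n → Pt => mp (ph x₀ x) d :=
  (measurable_ph x₀ d.1).prodMk ((measurable_ph x₀ d.2.1).prodMk (measurable_ph x₀ d.2.2))

theorem measurable_SQ_ph {X Q : Set ℂ} (hX : X.Finite) (c : ℂ → Bool) {Θ : Dt → ℂ}
    (hΘ : Measurable Θ) (x₀ : Fin n → Pt) :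
    Measurable fun x : Fin n → Pt => SQ X Q c (fun e => Θ (mp (ph x₀ x) e)) := by
  classical
  have hfin := finite_LF hX Q
  have hcl : ∀ d, (cl X Q c d).Finite := fun d => hfin.subset fun e he => cl_lf he
  have h1 : ∀ x : Fin n → Pt, SQ X Q c (fun e => Θ (mp (ph x₀ x) e)) =
      ∑ d ∈ hfin.toFinset, ENNReal.ofReal (gg X Q c (fun e => Θ (mp (ph x₀ x) e)) d) := by
    intro x
    unfold SQ
    refine tsum_eq_sum fun d hd => ?_
    by_contra hne
    exact hd (hfin.mem_toFinset.2 (gg_ne_zero hne).lf)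
  simp_rw [h1]
  refine Finset.measurable_sum _ fun d _ => ?_
  refine ENNReal.measurable_ofReal.comp ?_
  unfold gg W
  refine Measurable.div_const ?_ _
  refine Measurable.pow_const (Measurable.norm ?_) 2
  have h2 : ∀ x : Fin n → Pt, (∑ᶠ e ∈ cl X Q c d, Θ (mp (ph x₀ x) e)) =
      ∑ e ∈ (hcl d).toFinset, Θ (mp (ph x₀ x) e) := fun x => finsum_mem_eq_finite_toFinset_sum _ _
  simp_rw [h2]
  exact Finset.measurable_sum _ fun e _ => hΘ.comp (measurable_mp_ph x₀ e)

theorem measurable_mk {α : Type*} [MeasurableSpace α] {f g : α → ℝ} (hf : Measurable f)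
    (hg : Measurable g) : Measurable fun a => (⟨f a, g a⟩ : ℂ) := by
  have : (fun a => (⟨f a, g a⟩ : ℂ)) = fun a => (f a : ℂ) + (g a : ℂ) * Complex.I := by
    funext a
    exact (Complex.mk_eq_add_mul_I _ _)
  rw [this]
  exact (Complex.measurable_ofReal.comp hf).add ((Complex.measurable_ofReal.comp hg).mul_const _)

theorem measurable_cr : Measurable fun d : Dt => cr d.1 d.2.1 d.2.2 := by
  unfold cr
  fun_prop

theorem measurable_cc : Measurable cc := by
  have h := measurable_cr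
  have : cc = fun d : Dt => (⟨d.1.re + (((d.2.1.re - d.1.re) ^ 2 + (d.2.1.im - d.1.im) ^ 2) *
      (d.2.2.im - d.1.im) - ((d.2.2.re - d.1.re) ^ 2 + (d.2.2.im - d.1.im) ^ 2) *
      (d.2.1.im - d.1.im)) / (2 * cr d.1 d.2.1 d.2.2),
      d.1.im + ((d.2.1.re - d.1.re) * ((d.2.2.re - d.1.re) ^ 2 + (d.2.2.im - d.1.im) ^ 2) -
      (d.2.2.re - d.1.re) * ((d.2.1.re - d.1.re) ^ 2 + (d.2.1.im - d.1.im) ^ 2)) /
        (2 * cr d.1 d.2.1 d.2.2)⟩ : ℂ) := rfl
  rw [this]
  refine measurable_mk ?_ ?_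
  · refine Measurable.add (by fun_prop) (Measurable.div (by fun_prop) (h.const_mul 2))
  · refine Measurable.add (by fun_prop) (Measurable.div (by fun_prop) (h.const_mul 2))

theorem closedBall_subset_iff {Q : Set ℂ} (hQ : IsOpen Q) (hne : Q ≠ univ) (z : ℂ) (r : ℝ) :
    closedBall z r ⊆ Q ↔ r < infDist z Qᶜ := by
  have hne' : (Qᶜ).Nonempty := by
    rw [Set.nonempty_compl]; exact hne
  constructor
  · intro h
    by_contra hle
    push Not at hle
    obtain ⟨y, hy, hyd⟩ := hQ.isClosed_compl.exists_infDist_eq_dist hne' z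
    apply hy
    apply h
    rw [mem_closedBall, dist_comm, ← hyd]
    exact hle
  · intro h y hy
    by_contra hyQ
    have := infDist_le_dist_of_mem (x := z) (show y ∈ Qᶜ from hyQ)
    rw [mem_closedBall, dist_comm] at hy
    linarith

theorem measurable_dx (t : Fin n × Fin n × Fin n) : Measurable fun x : Fin n → Pt => dx x t := by
  unfold dx
  fun_prop

theorem measurableSet_tyA {Q : Set ℂ} (hQ : IsOpen Q) (hne : Q ≠ univ)
    (t : Fin n × Fin n × Fin n) : MeasurableSet {x : Fin n → Pt | t ∈ tyA Q x} := by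
  have hc : Measurable fun x : Fin n → Pt => cc (dx x t) := measurable_cc.comp (measurable_dx t)
  have h1 : Measurable fun x : Fin n → Pt => (dx x t).1 := measurable_fst.comp (measurable_dx t)
  have hr : Measurable fun x : Fin n → Pt => dist (cc (dx x t)) (dx x t).1 := hc.dist h1
  have e : {x : Fin n → Pt | t ∈ tyA Q x} = {x | 0 < cr (dx x t).1 (dx x t).2.1 (dx x t).2.2} ∩
      {x | dist (cc (dx x t)) (dx x t).1 < infDist (cc (dx x t)) Qᶜ} ∩
      ⋂ l : Fin n, {x | dist (cc (dx x t)) (dx x t).1 ≤ dist (cc (dx x t)) (x l).1} := by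
    ext x
    simp only [mem_inter_iff, mem_ofPred_eq, mem_iInter]
    constructor
    · intro h
      refine ⟨⟨h.2.1, (closedBall_subset_iff hQ hne _ _).1 h.2.2.1⟩, fun l => ?_⟩
      exact h.2.2.2 _ (mem_pts_range.2 ⟨l, rfl⟩)
    · rintro ⟨⟨h1, h2⟩, h3⟩
      refine ⟨⟨mem_pts_range.2 ⟨_, rfl⟩, mem_pts_range.2 ⟨_, rfl⟩, mem_pts_range.2 ⟨_, rfl⟩⟩, h1,
        (closedBall_subset_iff hQ hne _ _).2 h2, ?_⟩
      intro y hy
      obtain ⟨l, rfl⟩ := mem_pts_range.1 hy
      exact h3 l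
  rw [e]
  refine ((measurableSet_lt measurable_const (measurable_cr.comp (measurable_dx t))).inter
    (measurableSet_lt hr ((continuous_infDist_pt _).measurable.comp hc))).inter
    (MeasurableSet.iInter fun l => measurableSet_le hr ?_)
  exact hc.dist (measurable_fst.comp (measurable_pi_apply l))

theorem measurableSet_tyE (p : Fin n × Fin n) :
    MeasurableSet {x : Fin n → Pt | p ∈ tyE x} :=
  measurableSet_eq_fun (measurable_fst.comp (measurable_pi_apply p.1))
    (measurable_fst.comp (measurable_pi_apply p.2))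

theorem measurableSet_tyC (i : Fin n) : MeasurableSet {x : Fin n → Pt | i ∈ tyC x} := by
  have e : {x : Fin n → Pt | i ∈ tyC x} = ⋃ l : Fin n, {x | (x l).1 = (x i).1} ∩ {x | (x l).2 = true} := by
    ext x
    simp only [mem_iUnion, mem_inter_iff, mem_ofPred_eq, tyC, col, decide_eq_true_eq, mem_range]
    refine exists_congr fun l => ?_
    rw [Prod.ext_iff]
  rw [e]
  refine MeasurableSet.iUnion fun l => MeasurableSet.inter ?_ ?_
  · exact measurableSet_eq_fun (measurable_fst.comp (measurable_pi_apply l))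
      (measurable_fst.comp (measurable_pi_apply i))
  · exact measurableSet_eq_fun (measurable_snd.comp (measurable_pi_apply l)) measurable_const

/-- The energy is measurable in the points. -/
theorem measurable_SG_range {Q : Set ℂ} (hQ : IsOpen Q) (hne : Q ≠ univ) {Θ : Dt → ℂ}
    (hΘ : Measurable Θ) (n : ℕ) : Measurable fun x : Fin n → Pt => SG Q Θ (range x) := by
  refine measurable_of_types (T := Set (Fin n × Fin n × Fin n) × Set (Fin n × Fin n) × Set (Fin n))
    (fun x => (tyA Q x, tyE x, tyC x)) ?_ ?_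
  · rintro ⟨a, b, c⟩
    have e : {x : Fin n → Pt | (tyA Q x, tyE x, tyC x) = (a, b, c)} =
        {x | tyA Q x = a} ∩ {x | tyE x = b} ∩ {x | tyC x = c} := by
      ext x
      simp only [Prod.mk.injEq, mem_ofPred_eq, mem_inter_iff]
      tauto
    rw [e]
    exact ((measurableSet_eq_type (measurableSet_tyA hQ hne) a).inter
      (measurableSet_eq_type measurableSet_tyE b)).inter
      (measurableSet_eq_type measurableSet_tyC c)
  · intro x₀
    refine ⟨_, measurable_SQ_ph (Q := Q) (finite_pts_range x₀) (col (range x₀)) hΘ x₀,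
      fun x hx => ?_⟩
    simp only [Prod.mk.injEq] at hx
    exact (tr_of_ty hx.1 hx.2.1 hx.2.2).SQ_eq Θ

end

/-- **Measurability** of the energy of the local loops. -/
theorem measurable_SC {Q : Set ℂ} (hQ : IsOpen Q) (hb : Bornology.IsBounded Q) {Θ : Dt → ℂ}
    (hΘ : Measurable Θ) : @Measurable _ _ voidSigma _ (SC Q Θ) := by
  have hne : Q ≠ univ := by
    rintro rfl
    exact NormedSpace.unbounded_univ ℝ ℂ hb
  have hm : MeasurableSet (Q ×ˢ (univ : Set Bool)) := hQ.measurableSet.prod MeasurableSet.univ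
  have hB : Bdd (Q ×ˢ (univ : Set Bool)) := by
    obtain ⟨r, hr⟩ := hb.subset_ball 0
    exact ⟨r, prod_mono hr subset_rfl⟩
  exact measurable_window' hm hB (fun n => measurable_SG_range hQ hne hΘ n) 0

end Vale.Agent.P148.R2.H184
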