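import Vale.Agent.P148.R2.H184.L9
import Vale.Agent.P148.R2.H15.Fek

/-!
# Loops which are local in a square but in none of its subsquares carry little energy
(P148, module L1)
-/

open MeasureTheory Set Metric Topology Filter ProbabilityTheory
open scoped ENNReal NNReal

namespace Vale.Agent.P148.R2.H184

open H592 _root_.P148 _root_.P148.H729

universe u

section
variable {Ω : Type u} [MeasurableSpace Ω] {P : Measure Ω} {S : Ω → Set Pt} {lam : ℝ≥0}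

theorem finite_window (h : IsColouredPoisson P S lam) {Q : Set ℂ} (hb : Bornology.IsBounded Q)
    (ω : Ω) : (S ω ∩ Q ×ˢ univ).Finite := by
  obtain ⟨r, hr⟩ := hb.subset_ball 0
  exact (h.locFin ω r).subset (inter_subset_inter_right _ (prod_mono hr subset_rfl))

theorem measurable_SC_comp (h : IsColouredPoisson P S lam) {Q : Set ℂ} (hQ : IsOpen Q)
    (hb : Bornology.IsBounded Q) {Θ : Dt → ℂ} (hΘ : Measurable Θ) :
    Measurable fun ω => SC Q Θ (S ω) :=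
  @Measurable.comp _ _ _ _ voidSigma _ _ _ (measurable_SC hQ hb hΘ) h.measurable_self

/-- Similarities as an isometry after a scaling. -/
theorem simP_image (r : ℝ) (v : ℂ) (T : Set Pt) :
    simP r v '' T = isoP (IsometryEquiv.addRight v) (Equiv.refl Bool) '' (scaleP r '' T) := by
  rw [image_image]
  rfl

theorem sim_poisson (h : IsColouredPoisson P S lam) (hl : lam ≠ 0) (v : ℂ) :
    IsColouredPoisson P (fun ω => simP (NNReal.sqrt lam) v '' S ω) 1 := by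
  have hr : NNReal.sqrt lam ≠ 0 := by simpa using hl
  have h1 := scale_poisson h hr
  rw [NNReal.sq_sqrt, div_self hl] at h1
  have h2 := iso_poisson h1 (IsometryEquiv.addRight v) (Equiv.refl Bool)
  simp_rw [simP_image]
  exact h2

/-- **Scaling.** -/
theorem lintegral_SC_eq [IsProbabilityMeasure P] (h : IsColouredPoisson P S lam) (hl : lam ≠ 0)
    {Ω₀ : Type u} [MeasurableSpace Ω₀] {P₀ : Measure Ω₀} [IsProbabilityMeasure P₀]
    {S₀ : Ω₀ → Set Pt} (h₀ : IsColouredPoisson P₀ S₀ 1) {τ : ℂ} {κ : ℝ} {Θ : Dt → ℂ}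
    (hΘ : Wt τ κ Θ) (x : ℂ) (t : ℝ) :
    (lam : ℝ≥0∞) * ∫⁻ ω, SC (sqr x t) Θ (S ω) ∂P =
      ∫⁻ ω, SC (sqr 0 (NNReal.sqrt lam * t)) Θ (S₀ ω) ∂P₀ := by
  have hr : (0 : ℝ) < NNReal.sqrt lam := by
    have : 0 < NNReal.sqrt lam := NNReal.sqrt_pos.2 (pos_iff_ne_zero.2 hl)
    exact_mod_cast this
  set r : ℝ := ((NNReal.sqrt lam : ℝ≥0) : ℝ) with hr'
  set v : ℂ := -((r : ℂ) * x) with hv
  have h1 := sim_poisson h hl v
  rw [← lintegral_law_eq h₀ h1 (measurable_SC (isOpen_sqr 0 (r * t)) (isBounded_sqr 0 (r * t))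
    hΘ.meas)]
  have e0 : sim r v x = 0 := by
    unfold sim
    rw [hv]
    ring
  have e1 : ∀ ω, SC (sqr 0 (r * t)) Θ (simP r v '' S ω) = (lam : ℝ≥0∞) * SC (sqr x t) Θ (S ω) := by
    intro ω
    have e2 := sim_image_sqr hr v x t
    rw [e0] at e2
    rw [← e2, SC_sim hr v _ hΘ (finite_window h (isBounded_sqr x t) ω)]
    congr 1
    have : r ^ 2 = (lam : ℝ) := by
      rw [hr', ← NNReal.coe_pow, NNReal.sq_sqrt]
    rw [this, ENNReal.ofReal_coe_nnreal]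
  rw [lintegral_congr e1, lintegral_const_mul' _ _ ENNReal.coe_ne_top]

/-- The mean energy for a reference process. -/
noncomputable def GG {Ω₀ : Type u} [MeasurableSpace Ω₀] (P₀ : Measure Ω₀) (S₀ : Ω₀ → Set Pt)
    (Θ : Dt → ℂ) (t : ℝ) : ℝ≥0∞ := ∫⁻ ω, SC (sqr 0 t) Θ (S₀ ω) ∂P₀

theorem GG_shift [IsProbabilityMeasure P] (h : IsColouredPoisson P S 1) {τ : ℂ} {κ : ℝ}
    {Θ : Dt → ℂ} (hΘ : Wt τ κ Θ) (x : ℂ) (t : ℝ) :
    ∫⁻ ω, SC (sqr x t) Θ (S ω) ∂P = GG P S Θ t := by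
  have := lintegral_SC_eq h one_ne_zero h hΘ x t
  rw [NNReal.sqrt_one, NNReal.coe_one, one_mul, ENNReal.coe_one, one_mul] at this
  exact this

theorem GG_le_aux [IsProbabilityMeasure P] (h : IsColouredPoisson P S 1) {τ : ℂ} {κ : ℝ}
    {Θ : Dt → ℂ} (hΘ : Wt τ κ Θ) {t : ℝ} (ht : 1 ≤ t) :
    GG P S Θ t ≤ ENNReal.ofReal (KK κ * t ^ 2) := by
  have h1 := lintegral_SC_le h (isOpen_sqr 0 t) (isBounded_sqr 0 t) hΘ.tau hΘ.rot hΘ.meas
  have h2 := lintegral_EQ_le h (a := 1) one_pos (by simp) (r := 2 * t) (by linarith)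
    (sqr_subset_closedBall 0 t) hΘ
  have hK := KK_nonneg κ
  calc GG P S Θ t ≤ 4⁻¹ * ∫⁻ ω, EQ (pts (S ω)) (sqr 0 t) Θ ∂P := h1
    _ ≤ 4⁻¹ * ENNReal.ofReal (KK κ * (2 * t) ^ 2) := by gcongr
    _ = ENNReal.ofReal (KK κ * t ^ 2) := by
        have : KK κ * (2 * t) ^ 2 = 4 * (KK κ * t ^ 2) := by ring
        rw [this, ENNReal.ofReal_mul (by norm_num), ← mul_assoc]
        have h4 : ENNReal.ofReal 4 = 4 := by norm_num
        rw [h4, ENNReal.inv_mul_cancel (by norm_num) (by norm_num), one_mul]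

/-- The energy of a square and of its subsquares. -/
theorem SC_split (h : IsColouredPoisson P S lam) (Θ : Dt → ℂ) (x : ℂ) {s t : ℝ} (hs : 0 < s)
    {n : ℕ} (hn : n * s ≤ t) (ω : Ω) (h3 : Three (pts (S ω))) :
    SC (sqr x t) Θ (S ω) = MQ (pts (S ω)) (sqr x t)
      (fun ij : Fin n × Fin n => sub x s ij.1 ij.2) (col (S ω)) Θ +
      ∑ ij : Fin n × Fin n, SC (sub x s ij.1 ij.2) Θ (S ω) := by
  rw [SC_eq Θ (finite_window h (isBounded_sqr x t) ω)]
  unfold SG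
  rw [SQ_eq h3 (fun ij : Fin n × Fin n => sub x s ij.1 ij.2)
    (fun ij => sub_subset hs hn ij.1.2 ij.2.2) ?_ Θ, tsum_fintype]
  · congr 1
    refine Finset.sum_congr rfl fun ij _ => ?_
    rw [SC_eq (Q := sub x s ij.1 ij.2) Θ (finite_window h (isBounded_sqr _ _) ω)]
    rfl
  · rintro ⟨i, j⟩ ⟨i', j'⟩ hne
    refine sub_disjoint hs ?_
    intro he
    apply hne
    rw [Prod.mk.injEq] at he
    exact Prod.ext (Fin.ext he.1) (Fin.ext he.2)

theorem lintegral_split [IsProbabilityMeasure P] (h : IsColouredPoisson P S lam) {Θ : Dt → ℂ}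
    (hΘ : Measurable Θ) (x : ℂ) {s t : ℝ} (hs : 0 < s) {n : ℕ} (hn : n * s ≤ t) :
    ∫⁻ ω, SC (sqr x t) Θ (S ω) ∂P = ∫⁻ ω, MQ (pts (S ω)) (sqr x t)
      (fun ij : Fin n × Fin n => sub x s ij.1 ij.2) (col (S ω)) Θ ∂P +
      ∑ ij : Fin n × Fin n, ∫⁻ ω, SC (sub x s ij.1 ij.2) Θ (S ω) ∂P := by
  have hm : ∀ ij : Fin n × Fin n, Measurable fun ω => SC (sub x s ij.1 ij.2) Θ (S ω) :=
    fun ij => measurable_SC_comp h (isOpen_sqr _ _) (isBounded_sqr _ _) hΘ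
  have e : ∀ᵐ ω ∂P, SC (sqr x t) Θ (S ω) = MQ (pts (S ω)) (sqr x t)
      (fun ij : Fin n × Fin n => sub x s ij.1 ij.2) (col (S ω)) Θ +
      ∑ ij : Fin n × Fin n, SC (sub x s ij.1 ij.2) Θ (S ω) := by
    filter_upwards [ae_three h] with ω h3
    exact SC_split h Θ x hs hn ω h3
  rw [lintegral_congr_ae e, lintegral_add_right _ (Finset.measurable_fun_sum _ fun ij _ => hm ij),
    lintegral_finsetSum _ fun ij _ => hm ij]

theorem GG_super [IsProbabilityMeasure P] (h : IsColouredPoisson P S 1) {τ : ℂ} {κ : ℝ}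
    {Θ : Dt → ℂ} (hΘ : Wt τ κ Θ) {s t : ℝ} {n : ℕ} (hs : 0 < s) (hn : n * s ≤ t) :
    (n : ℝ≥0∞) ^ 2 * GG P S Θ s ≤ GG P S Θ t := by
  have h1 := lintegral_split h hΘ.meas 0 hs hn
  have h2 : ∀ ij : Fin n × Fin n, ∫⁻ ω, SC (sub 0 s ij.1 ij.2) Θ (S ω) ∂P = GG P S Θ s :=
    fun ij => GG_shift h hΘ _ s
  simp_rw [h2] at h1
  rw [Finset.sum_const, Finset.card_univ, Fintype.card_prod, Fintype.card_fin,
    nsmul_eq_mul] at h1
  have h3 : GG P S Θ t = _ := h1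
  rw [h3]
  push_cast
  rw [_root_.sq]
  exact le_add_self

theorem GG_le [IsProbabilityMeasure P] (h : IsColouredPoisson P S 1) {τ : ℂ} {κ : ℝ}
    {Θ : Dt → ℂ} (hΘ : Wt τ κ Θ) {t : ℝ} (ht : 0 < t) :
    GG P S Θ t ≤ ENNReal.ofReal (4 * KK κ * t ^ 2) := by
  have hK := KK_nonneg κ
  by_cases h1 : 1 ≤ t
  · refine (GG_le_aux h hΘ h1).trans (ENNReal.ofReal_le_ofReal ?_)
    nlinarith [mul_nonneg hK (sq_nonneg t)]
  · push Not at h1
    set n : ℕ := ⌊1 / t⌋₊ with hn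
    have ht1 : 1 ≤ 1 / t := by rw [le_div_iff₀ ht]; linarith
    have hn1 : (n : ℝ) * t ≤ 1 := by
      have := Nat.floor_le (show 0 ≤ 1 / t by positivity)
      rwa [← hn, le_div_iff₀ ht] at this
    have hnpos : 1 ≤ n := by
      rw [hn]
      exact Nat.one_le_floor_iff _ |>.2 ht1
    have hn2 : 1 ≤ 2 * (n * t) := by
      have h2 := Nat.lt_floor_add_one (1 / t)
      rw [← hn, div_lt_iff₀ ht] at h2
      have : (1 : ℝ) ≤ n := by exact_mod_cast hnpos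
      nlinarith
    have hsup := GG_super h hΘ ht hn1
    have hone := GG_le_aux h hΘ (le_refl (1 : ℝ))
    have hne : ((n : ℝ≥0∞) ^ 2) ≠ 0 := by
      have : n ≠ 0 := by omega
      simp [this]
    have hnt : ((n : ℝ≥0∞) ^ 2) ≠ ⊤ := by simp
    have h4 : GG P S Θ t ≤ ((n : ℝ≥0∞) ^ 2)⁻¹ * ENNReal.ofReal (KK κ * 1 ^ 2) := by
      calc GG P S Θ t = ((n : ℝ≥0∞) ^ 2)⁻¹ * ((n : ℝ≥0∞) ^ 2 * GG P S Θ t) := by
            rw [← mul_assoc, ENNReal.inv_mul_cancel hne hnt, one_mul]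
        _ ≤ _ := by
            gcongr
            exact hsup.trans hone
    refine h4.trans ?_
    have h5 : ((n : ℝ≥0∞) ^ 2)⁻¹ = ENNReal.ofReal (((n : ℝ) ^ 2)⁻¹) := by
      rw [ENNReal.ofReal_inv_of_pos (by positivity), ENNReal.ofReal_pow (by positivity),
        ENNReal.ofReal_natCast]
    rw [h5, ← ENNReal.ofReal_mul (by positivity)]
    refine ENNReal.ofReal_le_ofReal ?_
    have h6 : ((n : ℝ) ^ 2)⁻¹ ≤ 4 * t ^ 2 := by
      rw [inv_le_iff_one_le_mul₀ (by positivity)]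
      nlinarith
    nlinarith

theorem GG_fek [IsProbabilityMeasure P] (h : IsColouredPoisson P S 1) {τ : ℂ} {κ : ℝ}
    {Θ : Dt → ℂ} (hΘ : Wt τ κ Θ) {m : ℕ} (hm : 0 < m) {η : ℝ} (hη : 0 < η) :
    ∃ K, 0 < K ∧ ∀ t, K ≤ t → GG P S Θ t ≤ m ^ 2 * GG P S Θ (t / m) + ENNReal.ofReal (η * t ^ 2) :=
  H15.fek_diff (C := 4 * KK κ) (fun _ ht => GG_le h hΘ ht) (fun _ _ _ hs hn => GG_super h hΘ hs hn)
    hm hη

end

/-- **Module L1.** For every subdivision into `m²` subsquares and every `η` there is `K`: if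
`lam L² ≥ K`, the expected energy of the loops which are local in the square of side `L` but in
none of the subsquares is at most `η L²`. -/
theorem main {τ : ℂ} {κ : ℝ} {Θ : Dt → ℂ} (hΘ : Wt τ κ Θ) {m : ℕ} (hm : 0 < m) {η : ℝ}
    (hη : 0 < η) : ∃ K : ℝ, 0 < K ∧ ∀ (Ω : Type u) [MeasurableSpace Ω] (P : Measure Ω)
      [IsProbabilityMeasure P] (S : Ω → Set Pt) (lam : ℝ≥0), IsColouredPoisson P S lam →
      ∀ (x : ℂ) (L : ℝ), 0 < L → K ≤ lam * L ^ 2 →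
      ∫⁻ ω, MQ (pts (S ω)) (sqr x L) (fun ij : Fin m × Fin m => sub x (L / m) ij.1 ij.2)
        (col (S ω)) Θ ∂P ≤ ENNReal.ofReal (η * L ^ 2) := by
  by_cases hex : ∃ (Ω₀ : Type u) (_ : MeasurableSpace Ω₀) (P₀ : Measure Ω₀)
      (_ : IsProbabilityMeasure P₀) (S₀ : Ω₀ → Set Pt), IsColouredPoisson P₀ S₀ 1
  · obtain ⟨Ω₀, i1, P₀, i2, S₀, h₀⟩ := hex
    obtain ⟨K, hK0, hK⟩ := GG_fek h₀ hΘ hm hη
    refine ⟨K ^ 2, by positivity, ?_⟩
    intro Ω _ P _ S lam h x L hL hKL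
    have hlam : lam ≠ 0 := by
      rintro rfl
      have : (0 : ℝ) < K ^ 2 := by positivity
      simp only [NNReal.coe_zero, zero_mul] at hKL
      linarith
    have hm' : (0 : ℝ) < m := by exact_mod_cast hm
    have hs : 0 < L / m := by positivity
    have hn : (m : ℝ) * (L / m) ≤ L := by
      rw [mul_div_cancel₀]
      exact hm'.ne'
    have hr : K ≤ NNReal.sqrt lam * L := by
      have h1 : K ^ 2 ≤ (NNReal.sqrt lam * L) ^ 2 := by
        rw [mul_pow, ← NNReal.coe_pow, NNReal.sq_sqrt]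
        exact hKL
      exact (pow_le_pow_iff_left₀ hK0.le (by positivity) two_ne_zero).1 h1
    have hsplit := lintegral_split h hΘ.meas x hs hn
    have hbig := lintegral_SC_eq h hlam h₀ hΘ x L
    have hsmall : ∀ ij : Fin m × Fin m,
        (lam : ℝ≥0∞) * ∫⁻ ω, SC (sub x (L / m) ij.1 ij.2) Θ (S ω) ∂P =
          GG P₀ S₀ Θ (NNReal.sqrt lam * L / m) := by
      intro ij
      have := lintegral_SC_eq h hlam h₀ hΘ (x + ⟨ij.1 * (L / m), ij.2 * (L / m)⟩) (L / m)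
      rw [mul_div_assoc]
      exact this
    have hfek := hK _ hr
    set M := ∫⁻ ω, MQ (pts (S ω)) (sqr x L) (fun ij : Fin m × Fin m => sub x (L / m) ij.1 ij.2)
        (col (S ω)) Θ ∂P with hM
    have e1 : (lam : ℝ≥0∞) * M + m ^ 2 * GG P₀ S₀ Θ (NNReal.sqrt lam * L / m) =
        GG P₀ S₀ Θ (NNReal.sqrt lam * L) := by
      have : (lam : ℝ≥0∞) * ∫⁻ ω, SC (sqr x L) Θ (S ω) ∂P = (lam : ℝ≥0∞) * M +
          ∑ ij : Fin m × Fin m, (lam : ℝ≥0∞) * ∫⁻ ω, SC (sub x (L / m) ij.1 ij.2) Θ (S ω) ∂P := by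
        rw [hsplit, mul_add, Finset.mul_sum]
      rw [hbig] at this
      simp_rw [hsmall] at this
      rw [Finset.sum_const, Finset.card_univ, Fintype.card_prod, Fintype.card_fin,
        nsmul_eq_mul] at this
      show _ = ∫⁻ ω, SC (sqr 0 (NNReal.sqrt lam * L)) Θ (S₀ ω) ∂P₀
      rw [this]
      push_cast
      rw [_root_.sq]
    have hrt : 0 < (NNReal.sqrt lam : ℝ) * L := lt_of_lt_of_le hK0 hr
    have hfin : (m : ℝ≥0∞) ^ 2 * GG P₀ S₀ Θ (NNReal.sqrt lam * L / m) ≠ ⊤ := by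
      refine ENNReal.mul_ne_top (by simp) ?_
      exact ne_top_of_le_ne_top ENNReal.ofReal_ne_top (GG_le h₀ hΘ (by positivity))
    have e2 : (lam : ℝ≥0∞) * M ≤ ENNReal.ofReal (η * (NNReal.sqrt lam * L) ^ 2) := by
      rw [← e1, add_comm] at hfek
      exact (ENNReal.add_le_add_iff_left hfin).1 hfek
    have e3 : η * (NNReal.sqrt lam * L) ^ 2 = lam * (η * L ^ 2) := by
      rw [mul_pow, ← NNReal.coe_pow, NNReal.sq_sqrt]
      ring
    rw [e3, ENNReal.ofReal_mul (by positivity), ENNReal.ofReal_coe_nnreal] at e2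
    exact (ENNReal.mul_le_mul_iff_right (by exact_mod_cast hlam) ENNReal.coe_ne_top).1 e2
  · refine ⟨1, one_pos, ?_⟩
    intro Ω i P i' S lam h x L hL hKL
    have hlam : lam ≠ 0 := by
      rintro rfl
      simp only [NNReal.coe_zero, zero_mul] at hKL
      linarith
    exact absurd ⟨Ω, i, P, i', _, sim_poisson h hlam 0⟩ hex

end Vale.Agent.P148.R2.H184
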