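import Vale.Agent.P148.R2.H184.PC7
import Vale.Agent.P148.R2.H251.W3h
import Vale.Agent.P148.R2.H320.DoorP
import Vale.Agent.P148.R2.H400.Flip7
import Vale.Agent.P148.R2.H910.Ann

/-!
# P148, row CAL, item (E1): the closed plane class of one world

* `class_TP_le` : one class of the plane world, local in `Q` and not in the subsquares.
* `confine_ring` : a ring of one colour in the annulus `8/5 ≤ |z| ≤ 21/10` makes every strand which
  starts in `|z| ≤ 5/4` local in the big square.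
* `world_MQ` : the value of the closed class of a mark, off the bad event, has a second moment which is
  at most `1/c` times the mean of `MQ`.
-/

set_option linter.unusedSectionVars false

open Set Metric Function
open scoped ENNReal NNReal

namespace Vale.Agent.P148.R2.H184

open Vale.Agent.P148.R2.H258 Vale.Agent.P148.R2.H258.Tri
open H592 H203 H995 H990 H953 _root_.P148 _root_.P148.H729
open Vale.Agent.P148.R2.H320 (KEv whX)
open Vale.Agent.P148.R2.H400 (TP src_TP tgt_TP cls_wt faith_id)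
open Vale.Agent.P148.R2.H251 (thP)

section one

variable {X : Set ℂ} {b : ZMod 3 → ℂ} (h : HullTri X b) (x₀ : X) {Q : Set ℂ} {ι : Type*}
  (Qi : ι → Set ℂ)

/-- **One class** of the plane world. -/
theorem class_TP_le [Finite X] [Fintype (Fc X b × ZMod 3)] (Θ : Dt → ℂ) {τ : X → Bool}
    {q : Fc X b × ZMod 3} (hin : InL X Q (pc (idmap X x₀) τ) (dt q))
    (hno : ∀ i, ¬ InL X (Qi i) (pc (idmap X x₀) τ) (dt q)) :
    ENNReal.ofReal (‖(TP h x₀).cls τ q (thP h x₀ Θ)‖ ^ 2) ≤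
      MQ X Q Qi (pc (idmap X x₀) τ) Θ := by
  have e := cls_wt h (idmap X x₀) (fib_id X x₀) (faith_id x₀ Q) Θ hin
  refine le_trans (le_of_eq ?_) (class_le_MQ h.three Qi Θ hno)
  rw [← e]

/-- Two related darts which are far apart are not local in a small set. -/
theorem not_inL_of_far [Finite X] {τ : X → Bool} {q r : Fc X b × ZMod 3}
    (hr : (TP h x₀).Rel τ q r) {Q' : Set ℂ} {δ : ℝ} (hQ : ∀ z ∈ Q', ∀ w ∈ Q', dist z w < δ)
    (hd : δ ≤ dist (dt q).1 (dt r).2.2) : ¬ InL X Q' (pc (idmap X x₀) τ) (dt q) := by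
  intro hi
  have h1 := (H184.rel_iff h (idmap X x₀) (fib_id X x₀) (faith_id x₀ Q') hi).1 hr
  have h2 := (Rl.inL_right h.three h1).lf
  exact absurd (hQ _ hi.lf.mem.1 _ h2.mem.2.2) (not_lt.2 hd)

theorem dist_sub_lt {x : ℂ} {L : ℝ} {δ : ℝ} (hL : 2 * L ≤ δ) {z w : ℂ} (hz : z ∈ sqr x L)
    (hw : w ∈ sqr x L) : dist z w < δ := by
  obtain ⟨⟨a1, a2⟩, a3, a4⟩ := hz
  obtain ⟨⟨b1, b2⟩, b3, b4⟩ := hw
  have h5 : dist z w ≤ |(z - w).re| + |(z - w).im| := by
    rw [Complex.dist_eq]; exact Complex.norm_le_abs_re_add_abs_im _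
  have h6 : |(z - w).re| < L := by
    rw [Complex.sub_re, abs_lt]
    constructor <;> linarith
  have h7 : |(z - w).im| < L := by
    rw [Complex.sub_im, abs_lt]
    constructor <;> linarith
  linarith

end one

section ring

variable {X : Set ℂ} {b : ZMod 3 → ℂ} (h : HullTri X b) (x₀ : X)

theorem mem_sqr4 {z : ℂ} (hz : nsup z < 4) : z ∈ sqr ⟨-4, -4⟩ 8 := by
  have h2 : |z.re| ≤ nsup z := le_max_left _ _
  have h3 : |z.im| ≤ nsup z := le_max_right _ _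
  have h4 := abs_le.1 h2
  have h5 := abs_le.1 h3
  refine ⟨⟨?_, ?_⟩, ?_, ?_⟩ <;> norm_num <;> linarith [h4.1, h4.2, h5.1, h5.2]

/-- **Confinement.** -/
theorem confine_ring [Finite X] {ρ : ℝ} (hρ : 0 < ρ) (hρ8 : ρ ≤ 1 / 8)
    (hnet : Net X (closedBall 0 (15 / 2 + 2 * ρ)) ρ) (hb : ∀ j, 15 / 4 ≤ nsup (b j))
    {s τ : X → Bool} (hτ : ∀ v : X, 8 / 5 ≤ nsup v.1 → τ v = s v)
    (hring : KEv X (whX X s)) {q : Fc X b × ZMod 3} (hq : (TP h x₀).Bi τ q)
    (h0 : nsup (dt q).1 ≤ 5 / 4) (h1 : nsup (dt q).2.1 ≤ 5 / 4) :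
    InL X (sqr ⟨-4, -4⟩ 8) (pc (idmap X x₀) τ) (dt q) := by
  have hno : ¬ SqArm (nbr X) (H664.colS X (idmap X x₀) τ true) 0 (5 / 4) (3 * (5 / 4)) := by
    rintro ⟨n, v, g1, g2, g3, g4⟩
    obtain ⟨K, k1, -, -, k2, -, k4⟩ := circ_of_tcr h.three (p := 0)
      (show (0 : ℝ) < 8 / 5 by norm_num) (show (8 : ℝ) / 5 < 2 by norm_num)
      (show (0 : ℝ) ≤ 1 / 10 by norm_num) hring
    obtain ⟨i, hi, hiK⟩ := k4 n v g1 (by linarith) (by linarith)
    have h5 := (k2 _ hiK).1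
    rw [sub_zero] at h5
    obtain ⟨hz, hs⟩ := k1 hiK
    obtain ⟨-, hc⟩ := g2 i hi
    unfold pc at hc
    rw [idmap_eq hz, hτ ⟨v i, hz⟩ h5, hs] at hc
    exact absurd hc (by decide)
  refine (H664.confine' h (idmap X x₀) (fib_id X x₀) (p := 0) (r := 5 / 4) hρ ?_ ?_ ?_ hno hq
    ?_ ?_).2
  · rw [show (6 : ℝ) * (5 / 4) + 2 * ρ = 15 / 2 + 2 * ρ by ring]
    exact hnet
  · intro z hz
    rw [sub_zero] at hz
    exact mem_sqr4 (by linarith)
  · intro j
    rw [sub_zero]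
    have := hb j
    linarith
  · rw [sub_zero]; exact h0
  · rw [sub_zero]; exact h1

end ring

section world

variable {X : Set ℂ} {b : ZMod 3 → ℂ} (h : HullTri X b) (x₀ : X)

theorem on_whX_KEv : On {v : X | 8 / 5 ≤ nsup v.1} (fun s : X → Bool => KEv X (whX X s)) := by
  intro s s' hs
  have key : ∀ s s' : X → Bool, (∀ v : X, 8 / 5 ≤ nsup v.1 → s v = s' v) →
      KEv X (whX X s) → KEv X (whX X s') := by
    intro s s' hs hk
    refine hk.mono ?_
    rintro z ⟨⟨hz, hz1⟩, hz2⟩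
    refine ⟨hz, ?_⟩
    rw [← hs ⟨z, hz⟩ hz2]
    exact hz1
  refine propext ⟨key _ _ fun v hv => ?_, key _ _ fun v hv => ?_⟩
  · exact hs v hv
  · exact (hs v hv).symm

open Classical in
/-- **(E1), one world.** The value `U` of the closed plane class of a mark, off the bad event. -/
theorem world_MQ [Fintype X] [Fintype (Fc X b × ZMod 3)] {ρ : ℝ} (hρ : 0 < ρ) (hρ8 : ρ ≤ 1 / 8)
    (hnet : Net X (closedBall 0 (15 / 2 + 2 * ρ)) ρ) (hb : ∀ j, 15 / 4 ≤ nsup (b j))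
    {τ : (X → Bool) → X → Bool} (hτ : ∀ s (v : X), 8 / 5 ≤ nsup v.1 → τ s v = s v)
    {Bad : (X → Bool) → Prop} {U : (X → Bool) → ℂ}
    (hBad : On {v : X | nsup v.1 < 8 / 5} Bad) (hUo : On {v : X | nsup v.1 < 8 / 5} U)
    {Θ : Dt → ℂ} {m : ℕ} (hm : 0 < m) {δ : ℝ} (hδ : 16 / m ≤ δ)
    (hU : ∀ s, ¬ Bad s → ∃ q r, (TP h x₀).Rel (τ s) q r ∧ nsup (dt q).1 ≤ 5 / 4 ∧
      nsup (dt q).2.1 ≤ 5 / 4 ∧ δ ≤ dist (dt q).1 (dt r).2.2 ∧
      (TP h x₀).cls (τ s) q (thP h x₀ Θ) = U s)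
    {c : ℝ} (hc : c ≤ pr (fun s : X → Bool => KEv X (whX X s))) :
    ENNReal.ofReal (c * ex (fun s => if Bad s then 0 else ‖U s‖ ^ 2)) ≤
      H910.exE fun s => MQ X (sqr ⟨-4, -4⟩ 8)
        (fun ij : Fin m × Fin m => sub ⟨-4, -4⟩ (8 / m) ij.1 ij.2)
        (pc (idmap X x₀) (τ s)) Θ := by
  have hf : On {v : X | nsup v.1 < 8 / 5} (fun s => if Bad s then (0 : ℝ) else ‖U s‖ ^ 2) := by
    intro s s' hs
    have e1 := hBad s s' hs
    have e2 := hUo s s' hs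
    show (if Bad s' then (0 : ℝ) else ‖U s'‖ ^ 2) = if Bad s then (0 : ℝ) else ‖U s‖ ^ 2
    rw [e2]
    by_cases hB : Bad s
    · rw [if_pos hB, if_pos (by rw [e1]; exact hB)]
    · rw [if_neg hB, if_neg (by rw [e1]; exact hB)]
  have hg := (on_whX_KEv (X := X)).ind
  have hdj : Disjoint {v : X | nsup v.1 < 8 / 5} {v : X | 8 / 5 ≤ nsup v.1} :=
    Set.disjoint_left.2 fun v hv hv' => not_lt.2 (show 8 / 5 ≤ nsup v.1 from hv') hv
  have h0 : 0 ≤ ex (fun s => if Bad s then (0 : ℝ) else ‖U s‖ ^ 2) :=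
    ex_nonneg fun s => by split_ifs <;> positivity
  have h1 : c * ex (fun s => if Bad s then (0 : ℝ) else ‖U s‖ ^ 2) ≤
      ex (fun s => (if Bad s then (0 : ℝ) else ‖U s‖ ^ 2) *
        if KEv X (whX X s) then (1 : ℝ) else 0) := by
    rw [ex_mul_of_disjoint hdj hf hg, mul_comm]
    exact mul_le_mul_of_nonneg_left hc h0
  refine (ENNReal.ofReal_le_ofReal h1).trans ?_
  rw [← H910.exE_ofReal fun s => mul_nonneg (by split_ifs <;> positivity)
    (by split_ifs <;> norm_num)]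
  refine H910.exE_mono fun s => ?_
  by_cases hB : Bad s
  · rw [if_pos hB, zero_mul, ENNReal.ofReal_zero]
    exact zero_le
  · rw [if_neg hB]
    by_cases hk : KEv X (whX X s)
    · rw [if_pos hk, mul_one]
      obtain ⟨q, r, g1, g2, g3, g4, g5⟩ := hU s hB
      have hin := confine_ring h x₀ hρ hρ8 hnet hb (hτ s) hk g1.1.bi g2 g3
      rw [← g5]
      refine class_TP_le h x₀ _ Θ hin fun ij => ?_
      refine not_inL_of_far h x₀ g1 (δ := δ) (fun z hz w hw => ?_) g4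
      have e : sub (⟨-4, -4⟩ : ℂ) (8 / m) ij.1 ij.2 = sqr (⟨-4, -4⟩ +
        ⟨((ij.1 : ℕ) : ℝ) * (8 / m), ((ij.2 : ℕ) : ℝ) * (8 / m)⟩) (8 / m) := rfl
      rw [e] at hz hw
      refine dist_sub_lt ?_ hz hw
      have : (2 : ℝ) * (8 / m) = 16 / m := by ring
      rw [this]; exact hδ
    · rw [if_neg hk, mul_zero, ENNReal.ofReal_zero]
      exact zero_le

end world

end Vale.Agent.P148.R2.H184
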