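import Vale.Agent.P148.R2.H184.CalA1
import Vale.Agent.P148.R2.H897.CalFair
import Vale.Agent.P148.R2.H910.RowC

/-!
# P148, row CAL, item (E2): the annealed comparison for the composites of the marks

* `kEv_ev` : the ring of `CalA1` has probability at least `c`.
* `cal_unif`, `CombSc.ann_cal` : the composites of helper897 are fair; annealed comparison.
* `evZero_cal` : the mean of `MQ` over the fresh colours of the worlds of the marks tends to zero.
-/

set_option linter.unusedSectionVars false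

open MeasureTheory Set Metric Topology Filter ProbabilityTheory
open scoped ENNReal NNReal

namespace Vale.Agent.P148.R2.H184

open H592 H995 H953 H598 H566 H291 H172 H678 H910 _root_.P148.H729
open Vale.Agent.P148.R2.N (nc)
open Vale.Agent.P148.R2.F (whp)
open Vale.Agent.P148.R2.H320 (KEv whX Win6 kEv_whp loc_of_win cp_sites tcr_window pr_whX)
open Vale.Agent.P148.R2.H897 (cal cal_fair flip2)
open _root_.P148 hiding col

universe u

/-- **The ring**: probability at least `c`. -/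
theorem kEv_ev : ∃ c > 0, c ≤ 1 ∧ Ev.{u} fun T => ∀ (X : Set ℂ) [Fintype X], Win6 X (pts T) →
    c ≤ pr (fun s : X → Bool => KEv X (whX X s)) := by
  obtain ⟨c, hc, h⟩ := kEv_whp.{u}
  refine ⟨min c 1, lt_min hc one_pos, min_le_right _ _, ev_of_whp ?_⟩
  filter_upwards [h, H847.whp_net.{u} 6 (show (0 : ℝ) < 1 / 10 by norm_num)] with m a2 a3 X _ hw
  have hX : X.Finite := X.toFinite
  have hL := loc_of_win hw a3
  refine (min_le_left _ _).trans ?_
  have b2 : c ≤ H938.cp X (fun W => KEv X W) := by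
    refine cp_sites (Q := fun W => KEv (pts m.2) W) hX hw
      (fun W W' hWW' H => H.mono fun z hz => hWW' hz.1) (fun W H u hu => ?_) a2
    refine tcr_window hL (fun z hz => ?_) (H u hu)
    have h := (nsup_of_box (p := 0) hu (by norm_num) hz (by norm_num)).2
    rw [sub_zero] at h
    exact h.trans (by norm_num)
  have e := pr_whX X (fun W => KEv X W)
  refine b2.trans (le_of_eq (e.symm.trans ?_))
  rw [H838.pr_eq_sum]
  unfold H953.pr H953.ex
  congr 1

theorem win6_site {T : Set Pt} {R s : ℝ} (h : SiteOK T R s) (hR : 6 ≤ R) :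
    Win6 (site T R) (pts T) := by
  intro z hz
  have h1 := h.agree (D := ball 0 6) (ball_subset_ball hR)
  have hz' : z ∈ ball (0 : ℂ) 6 := by rw [mem_ball_zero_iff]; exact hz
  constructor
  · intro h2
    have h3 : z ∈ site T R ∩ ball 0 6 := ⟨h2, hz'⟩
    rw [h1] at h3
    exact h3.1
  · intro h2
    have h3 : z ∈ pts T ∩ ball 0 6 := ⟨h2, hz'⟩
    rw [← h1] at h3
    exact h3.1

section comp

variable {N : Type*} [Fintype N]

theorem cal_unif {H P E : (N → Bool) → Set N} (hH : IsStop H) (hP : IsStop P) (hE : IsStop E)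
    (hPE : ∀ s, P s ⊆ E s) (S1 S2 : N → Prop) : Unif3 (cal H P E S1 S2) :=
  fun g => cal_fair hH hP hE hPE S1 S2 g

end comp

/-- The mean of `MQ` over the fresh colours as a quenched average. -/
theorem exE_MQ {T : Set Pt} {X W Q : Set ℂ} {ι : Type*} {Qi : ι → Set ℂ} [Fintype X]
    (hQi : ∀ i, Qi i ⊆ Q) (hXQ : X ∩ Q = pts T ∩ Q) (hX : pts T ∩ X = pts T ∩ W) (x₀ : X)
    (E : Set X) (u : X → Bool) (Θ : Dt → ℂ) :
    exE (fun s => MQ X Q Qi (H184.pc (idmap X x₀) (glue E u s)) Θ) =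
      avg (W \ (Subtype.val '' E)) (fun T' => MQ (pts T') Q Qi (H184.col T') Θ) (rcT T X u) := by
  rw [avg_off hX]
  congr 1
  funext s
  rw [pts_rcT]
  have hE : {v : X | (v : ℂ) ∈ Subtype.val '' E} = E := by
    ext v
    constructor
    · rintro ⟨w, hw, hwv⟩
      rwa [← Subtype.ext hwv]
    · exact fun hv => ⟨v, hv, rfl⟩
  rw [hE]
  refine MQ_congr hQi hXQ ?_ Θ
  intro x hx
  have hxT : x ∈ pts T := (hXQ.subset hx).1
  rw [col_rcT _ hxT hx.1]
  unfold H184.pc
  rw [idmap_eq hx.1]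

/-- The composite colouring of the world of a mark. -/
noncomputable def calM (M : ℕ) (X : Set ℂ) (P E : (X → Bool) → Set X) (S1 S2 : X → Prop)
    (c : (X → Bool) × (X → Bool)) (s : X → Bool) : X → Bool :=
  cal (HubV M X) P E S1 S2 c.1 c.2 s

/-- **The annealed comparison** for the composite of a mark. -/
theorem CombSc.ann_cal {R : ℝ} {M : ℕ} {c : ℝ} {T : Set Pt} {s : Scene}
    {e : s.ι → (site T R → Bool) × (site T R → Bool)} (h : CombSc R M c T s e) (hc : 0 < c)
    (hT : OneCol T) {P E : (site T R → Bool) → Set (site T R)} (hP : IsStop P) (hE : IsStop E)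
    (hPE : ∀ s, P s ⊆ E s) (S1 S2 : site T R → Prop) :
    Ann s T (fun i => Wn R \ (Subtype.val '' E (cmb M (site T R) (e i))))
      (fun i => rcT T (site T R) (flip2 P S1 S2 (cmb M (site T R) (e i))))
      (Wn R) (ENNReal.ofReal (c ^ (2 * nc M))⁻¹) := by
  obtain ⟨hM, i1, hH, hC, hp⟩ := h.law
  have hHub : IsStop (HubV M (site T R)) :=
    (combLaw hM (site T R) (Subtype.val : site T R → ℂ)).stop_hubs (le_refl _)
  refine ann_unif hT (pts_inter_site T R) h.inj (fun i => ?_) (cal_unif hHub hP hE hPE S1 S2)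
    (E := fun i => E (cmb M (site T R) (e i)))
    (u := fun i => flip2 P S1 S2 (cmb M (site T R) (e i))) (fun i _ c₃ => rfl) (fun i _ => rfl)
    (fun i _ v => ?_)
  · refine le_trans ?_ (wq_le (combLaw hM (site T R) (Subtype.val : site T R → ℂ)) hc hH hC (e i))
    gcongr
    refine (hp i).trans (le_of_eq ?_)
    unfold H172.pw
    rw [wq_eq_gw]
  · constructor
    · rintro ⟨w, hw, hwv⟩
      rwa [← Subtype.ext hwv]
    · exact fun hv => ⟨v, hv, rfl⟩

/-- **(E2).** -/
theorem evZero_cal {κ₁ : Type} [Fintype κ₁] {τ : ℂ} {κ : ℝ} {Θ : Dt → ℂ} (hΘ : Wt τ κ Θ)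
    {R : ℝ} {m : ℕ} (hm : 0 < m) (x : ℂ) {L : ℝ} (hL : 0 < L) (hball : sqr x L ⊆ ball 0 R)
    {M : ℕ} {c : ℝ} (hc : 0 < c) (G : Set Pt → Prop) (sc : Set Pt → Scene)
    (x₀ : ∀ T, (sc T).ι → site T R)
    (e : ∀ T, (sc T).ι → (site T R → Bool) × (site T R → Bool))
    (he : ∀ T, G T → CombSc R M c T (sc T) (e T))
    (P E : ∀ T, κ₁ → (site T R → Bool) → Set (site T R)) (S1 S2 : ∀ T, κ₁ → site T R → Prop)
    (hP : ∀ T, G T → ∀ γ, IsStop (P T γ)) (hE : ∀ T, G T → ∀ γ, IsStop (E T γ))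
    (hPE : ∀ T, G T → ∀ γ s, P T γ s ⊆ E T γ s)
    (F : ∀ T, (sc T).ι → ℝ≥0∞)
    (hF : ∀ T, G T → ∀ i, (sc T).p i ≠ 0 → ∃ _ : Fintype (site T R),
      F T i ≤ ∑ γ : κ₁, exE fun s => MQ (site T R) (sqr x L)
        (fun ij : Fin m × Fin m => sub x (L / m) ij.1 ij.2)
        (H184.pc (idmap (site T R) (x₀ T i))
          (calM M (site T R) (P T γ) (E T γ) (S1 T γ) (S2 T γ) (e T i) s)) Θ) :
    EvZero.{u} (fun T => ⨆ _ : G T, ∑ i, (sc T).p i * F T i) := by
  classical
  have hm' : (0 : ℝ) < m := by exact_mod_cast hm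
  have hs : 0 < L / m := by positivity
  have hn : (m : ℝ) * (L / m) ≤ L := by
    rw [mul_div_cancel₀]
    exact hm'.ne'
  have hQi : ∀ ij : Fin m × Fin m, sub x (L / m) ij.1 ij.2 ⊆ sqr x L := fun ij =>
    sub_subset hs hn ij.1.2 ij.2.2
  set Y : ∀ T, κ₁ → (sc T).ι → ℝ≥0∞ := fun T γ i => 1 *
    avg (Wn R \ (Subtype.val '' E T γ (cmb M (site T R) (e T i))))
    (fun T' => MQ (pts T') (sqr x L)
      (fun ij : Fin m × Fin m => sub x (L / m) ij.1 ij.2) (H184.col T') Θ)
      (rcT T (site T R) (flip2 (P T γ) (S1 T γ) (S2 T γ) (cmb M (site T R) (e T i)))) with hY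
  have h1 : ∀ γ, EvZero.{u} (fun T => ⨆ _ : G T, ∑ i, (sc T).p i * Y T γ i) := by
    intro γ
    exact evZero_of_ann hΘ hm x hL (measurableSet_Wn R) (isBounded_Wn R) ENNReal.one_ne_top
      (C := ENNReal.ofReal (c ^ (2 * nc M))⁻¹) ENNReal.ofReal_ne_top G sc
      (fun T i => Wn R \ (Subtype.val '' E T γ (cmb M (site T R) (e T i))))
      (fun T i => rcT T (site T R)
        (flip2 (P T γ) (S1 T γ) (S2 T γ) (cmb M (site T R) (e T i))))
      (fun T hG hT => CombSc.ann_cal (he T hG) hc hT (hP T hG γ) (hE T hG γ) (hPE T hG γ) _ _)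
      (fun T => Y T γ) (fun T _ _ i _ => le_rfl)
  have h2 : EvZero.{u} (fun T => ∑ γ, ⨆ _ : G T, ∑ i, (sc T).p i * Y T γ i) := by
    have key : ∀ s : Finset κ₁,
        EvZero.{u} (fun T => ∑ γ ∈ s, ⨆ _ : G T, ∑ i, (sc T).p i * Y T γ i) := by
      intro s
      induction s using Finset.induction_on with
      | empty =>
        intro ε hε
        exact EvMean.const fun T => by simp
      | insert γ s hγ ih =>
        refine ((h1 γ).add ih).mono fun T => ?_
        rw [Finset.sum_insert hγ]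
    exact key Finset.univ
  intro ε hε
  refine evMean_mono_col (h2 ε hε) (fun T hT => iSup_le fun hG => ?_) le_rfl
  simp only [iSup_pos hG]
  rw [Finset.sum_comm]
  refine Finset.sum_le_sum fun i _ => ?_
  by_cases hp : (sc T).p i = 0
  · rw [hp, zero_mul]; exact zero_le
  · obtain ⟨i1, hle⟩ := hF T hG i hp
    rw [← Finset.mul_sum]
    gcongr
    refine hle.trans (Finset.sum_le_sum fun γ _ => ?_)
    obtain ⟨σ, hso⟩ := (he T hG).ok
    have hXQ : site T R ∩ sqr x L = pts T ∩ sqr x L := hso.agree hball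
    rw [hY]
    simp only [one_mul]
    exact (exE_MQ hQi hXQ (pts_inter_site T R) (x₀ T i)
      (E T γ (cmb M (site T R) (e T i)))
      (flip2 (P T γ) (S1 T γ) (S2 T γ) (cmb M (site T R) (e T i))) Θ).le

end Vale.Agent.P148.R2.H184
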