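import Vale.Agent.P148.R2.H184.CalA1

/-!
# P148, row CAL, item (E1): the value of the closed class of a mark as a function of the pattern

* `Path3.unique` : the data of helper251's `Path3` are unique.
* `Uval` : the value of the closed class, a function of the colouring of the world.
* `mark_MQ` : `world_MQ` for the three-class world.
-/

set_option linter.unusedSectionVars false

open Set Metric Function
open scoped ENNReal NNReal

namespace Vale.Agent.P148.R2.H184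

open Vale.Agent.P148.R2.H258 Vale.Agent.P148.R2.H258.Tri Vale.Agent.P148.R2.H251
open Vale.Agent.P148.R2.H659 (Ring)

section uniq

variable {V V1 V3 D : Type*}
variable {T : Tri V D} {T3 : Tri V3 D} {π : V → V1} {O : V1} {w : V → Bool} {c : ℕ → D}
  {n s₁ s₂ : ℕ} {σ : V3 → Bool} {q : D} {α β : Fin 3}

theorem path3_eq {m m' j₁ i₁ j₁' i₁' : ℕ} {f f' : ℕ → D}
    (h : Path3 T T3 π O c n s₁ s₂ σ q α β m f j₁ i₁)
    (h' : Path3 T T3 π O c n s₁ s₂ σ q α β m' f' j₁' i₁') (i : ℕ) (hi : i < m) (hi' : i < m') :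
    f i = f' i := by
  induction i with
  | zero => rw [h.zero, h'.zero]
  | succ i ih =>
    have e := ih (by omega) (by omega)
    obtain ⟨k, hk, hfk⟩ := (h'.rel (f (i + 1))).1 ((h.rel _).2 ⟨i + 1, hi, rfl⟩)
    have e1 : T3.src (f' k) = T3.src (f' (i + 1)) := by
      rw [← hfk, h.next3 i (by omega), e, h'.next3 i (by omega)]
    rw [hfk, h'.inj3 k hk (i + 1) hi' e1]

theorem path3_le {m m' j₁ i₁ j₁' i₁' : ℕ} {f f' : ℕ → D}
    (h : Path3 T T3 π O c n s₁ s₂ σ q α β m f j₁ i₁)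
    (h' : Path3 T T3 π O c n s₁ s₂ σ q α β m' f' j₁' i₁') : m' ≤ m := by
  by_contra hcon
  push Not at hcon
  have h2 := h.two
  have e := path3_eq h h' (m - 1) (by omega) (by omega)
  have e1 : T3.src (f' m) = T3.src (f' 0) := by
    have a1 := h'.next3 (m - 1) (by omega)
    have a2 := h.next3 (m - 1) (by omega)
    rw [Nat.sub_add_cancel (by omega)] at a1 a2
    rw [a1, ← e, ← a2, h.last3, h'.zero]
  have := h'.inj3 m hcon 0 (by omega) e1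
  omega

/-- **Uniqueness** of the data of the class. -/
theorem path3_unique (hR : Ring T π O w c n) {m m' j₁ i₁ j₁' i₁' : ℕ} {f f' : ℕ → D}
    (h : Path3 T T3 π O c n s₁ s₂ σ q α β m f j₁ i₁)
    (h' : Path3 T T3 π O c n s₁ s₂ σ q α β m' f' j₁' i₁') :
    m = m' ∧ (∀ i < m, f i = f' i) ∧ j₁ = j₁' ∧ i₁ = i₁' := by
  have hm : m = m' := le_antisymm (path3_le h' h) (path3_le h h')
  subst hm
  have e := fun i hi => path3_eq h h' i hi hi
  have h2 := h.two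
  refine ⟨rfl, e, ?_, ?_⟩
  · refine hR.inj _ h.hj _ h'.hj ?_
    rw [← h.stop, ← h'.stop, e (m - 1) (by omega)]
  · refine hR.inj _ h.hi _ h'.hi ?_
    rw [← h.start, ← h'.start, e 1 (by omega)]

open Classical in
/-- The value of the closed class. -/
noncomputable def Uval (T : Tri V D) (T3 : Tri V3 D) (π : V → V1) (O : V1) (c : ℕ → D)
    (n s₁ s₂ : ℕ) (q : D) (α β : Fin 3) (Θ : D → ℂ) (σ : V3 → Bool) : ℂ :=
  if hx : ∃ p : ℕ × (ℕ → D) × ℕ × ℕ,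
      Path3 T T3 π O c n s₁ s₂ σ q α β p.1 p.2.1 p.2.2.1 p.2.2.2 then
    ∑ i ∈ Finset.Ico 1 hx.choose.1, Θ (hx.choose.2.1 i) +
      ∑ k ∈ Finset.range (gapL n hx.choose.2.2.1 hx.choose.2.2.2),
        Θ (cy c n (hx.choose.2.2.1 + k))
  else 0

theorem Uval_eq (hR : Ring T π O w c n) {m j₁ i₁ : ℕ} {f : ℕ → D}
    (h : Path3 T T3 π O c n s₁ s₂ σ q α β m f j₁ i₁) (Θ : D → ℂ) :
    Uval T T3 π O c n s₁ s₂ q α β Θ σ = ∑ i ∈ Finset.Ico 1 m, Θ (f i) +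
      ∑ k ∈ Finset.range (gapL n j₁ i₁), Θ (cy c n (j₁ + k)) := by
  have hx : ∃ p : ℕ × (ℕ → D) × ℕ × ℕ,
      Path3 T T3 π O c n s₁ s₂ σ q α β p.1 p.2.1 p.2.2.1 p.2.2.2 := ⟨(m, f, j₁, i₁), h⟩
  have hs := hx.choose_spec
  unfold Uval
  rw [dif_pos hx]
  obtain ⟨e1, e2, e3, e4⟩ := path3_unique hR hs h
  rw [e3, e4, e1]
  congr 1
  refine Finset.sum_congr rfl fun i hi => ?_
  rw [Finset.mem_Ico] at hi
  rw [e2 i (by rw [e1]; exact hi.2)]

end uniq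

open H592 H203 H995 H990 H953 _root_.P148 _root_.P148.H729
open Vale.Agent.P148.R2.H320 (KEv whX)
open Vale.Agent.P148.R2.H400 (TP piB src_TP tgt_TP)

section mark

variable {X : Set ℂ} {b : ZMod 3 → ℂ} (h : HullTri X b) (x₀ : X) {B : Set ℂ} {O3 : Fin 3 → Set ℂ}
  (h3 : Three3 X B O3)

theorem apex_TP (q : Fc X b × ZMod 3) : (((TP h x₀).apex q : X) : ℂ) = (dt q).2.2 :=
  H184.apex_idmap h x₀ q

include h3 in
/-- A function of the pattern is a function of the colours in `|z| < 8/5`. -/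
theorem on_patt {β : Sort*} (hfree : ∀ x ∈ X, x ∉ B → nsup x < 8 / 5) (γ : Fin 3)
    (F : (CV X O3 → Bool) → β) :
    On {v : X | nsup v.1 < 8 / 5} (fun s : X → Bool => F (patt X O3 γ s)) := by
  intro s s' hs
  have e : patt X O3 γ s' = patt X O3 γ s := by
    funext v
    rcases v with j | v
    · rfl
    · have hv : nsup (frI X O3 v).1 < 8 / 5 := by
        refine hfree _ v.2.1 fun hB => ?_
        obtain ⟨j, hj⟩ := h3.exists hB
        exact v.2.2 j hj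
      exact hs (frI X O3 v) hv
  show F (patt X O3 γ s') = F (patt X O3 γ s)
  rw [e]

open Classical in
/-- **(E1)** for the three-class world. -/
theorem mark_MQ [Fintype X] [Fintype (Fc X b × ZMod 3)] {ρ : ℝ} (hρ : 0 < ρ) (hρ8 : ρ ≤ 1 / 8)
    (hnet : Net X (closedBall 0 (15 / 2 + 2 * ρ)) ρ) (hb : ∀ j, 15 / 4 ≤ nsup (b j))
    (hfree : ∀ x ∈ X, x ∉ B → nsup x < 8 / 5)
    {w : X → Bool} {cc : ℕ → Fc X b × ZMod 3} {n s₁ s₂ : ℕ}
    (hR : Ring (TP h x₀) (piB X B) (Sum.inl ()) w cc n)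
    {τ : (X → Bool) → X → Bool} (hτ : ∀ s (v : X), 8 / 5 ≤ nsup v.1 → τ s v = s v)
    {q : Fc X b × ZMod 3} {α β : Fin 3} (γ : Fin 3) (Bad : (CV X O3 → Bool) → Prop)
    {Θ : Dt → ℂ} {m₀ : ℕ} (hm₀ : 0 < m₀) {δ : ℝ} (hδ : 16 / m₀ ≤ δ)
    (hU : ∀ s, ¬ Bad (patt X O3 γ s) → ∃ m f j₁ i₁,
      Path3 (TP h x₀) (TC h h3) (piB X B) (Sum.inl ()) cc n s₁ s₂ (patt X O3 γ s) q α β m f j₁ i₁ ∧
      (TP h x₀).Rel (τ s) (f 1) (f (m - 1)) ∧ nsup ((TP h x₀).src (f 1)).1 ≤ 5 / 4 ∧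
      nsup ((TP h x₀).tgt (f 1)).1 ≤ 5 / 4 ∧
      δ ≤ dist ((TP h x₀).src (f 1)).1 ((TP h x₀).apex (f (m - 1))).1 ∧
      (TP h x₀).cls (τ s) (f 1) (thP h x₀ Θ) = ∑ i ∈ Finset.Ico 1 m, thP h x₀ Θ (f i) +
        ∑ k ∈ Finset.range (gapL n j₁ i₁), thP h x₀ Θ (cy cc n (j₁ + k)))
    {c : ℝ} (hc : c ≤ pr (fun s : X → Bool => KEv X (whX X s))) :
    ENNReal.ofReal (c * ex (fun s => if Bad (patt X O3 γ s) then 0 else
      ‖Uval (TP h x₀) (TC h h3) (piB X B) (Sum.inl ()) cc n s₁ s₂ q α β (thP h x₀ Θ)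
        (patt X O3 γ s)‖ ^ 2)) ≤
      H910.exE fun s => MQ X (sqr ⟨-4, -4⟩ 8)
        (fun ij : Fin m₀ × Fin m₀ => sub ⟨-4, -4⟩ (8 / m₀) ij.1 ij.2)
        (pc (idmap X x₀) (τ s)) Θ := by
  refine world_MQ h x₀ hρ hρ8 hnet hb hτ (Bad := fun s => Bad (patt X O3 γ s))
    (U := fun s => Uval (TP h x₀) (TC h h3) (piB X B) (Sum.inl ()) cc n s₁ s₂ q α β (thP h x₀ Θ)
        (patt X O3 γ s)) (on_patt h3 hfree γ Bad) (on_patt h3 hfree γ _) hm₀ hδ ?_ hc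
  intro s hs
  obtain ⟨m, f, j₁, i₁, hp, g1, g2, g3, g4, g5⟩ := hU s hs
  refine ⟨f 1, f (m - 1), g1, ?_, ?_, ?_, ?_⟩
  · rw [src_TP] at g2; exact g2
  · rw [tgt_TP] at g3; exact g3
  · rw [src_TP, apex_TP] at g4; exact g4
  · rw [g5, Uval_eq hR hp]

end mark

end Vale.Agent.P148.R2.H184
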