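import Vale.Agent.P148.R2.H184.CalA3
import Vale.Agent.P148.R2.H953.CalEv
import Vale.Agent.P148.R2.H291.Site

/-!
# P148, row CAL, item (E1) in the form of helper953's `one_world`

`plane_mark` : the bound of the closed plane class of a mark, off the bad alternatives, on
`X = site T 9`.
-/

set_option linter.unusedSectionVars false

open Set Metric Function
open scoped ENNReal NNReal

namespace Vale.Agent.P148.R2.H184

open Vale.Agent.P148.R2.H258 Vale.Agent.P148.R2.H258.Tri Vale.Agent.P148.R2.H251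
open H592 H203 H995 H990 H953 H897 _root_.P148 _root_.P148.H729
open Vale.Agent.P148.R2.H320 (KEv whX)
open Vale.Agent.P148.R2.H400 (TP piB src_TP tgt_TP)
open Vale.Agent.P148.R2.H291 (SiteOK site bR)

theorem nsup_le_add_dist (z w : ℂ) : nsup w ≤ nsup z + dist z w := by
  have h1 : |(w - z).re| ≤ dist z w := by
    rw [dist_comm, Complex.dist_eq]; exact Complex.abs_re_le_norm _
  have h2 : |(w - z).im| ≤ dist z w := by
    rw [dist_comm, Complex.dist_eq]; exact Complex.abs_im_le_norm _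
  have h3 : |z.re| ≤ nsup z := le_max_left _ _
  have h4 : |z.im| ≤ nsup z := le_max_right _ _
  refine max_le ?_ ?_
  · have h5 : |w.re| ≤ |z.re| + |(w - z).re| := by
      have h6 := abs_add_le z.re (w - z).re
      rwa [Complex.sub_re, add_sub_cancel] at h6
    linarith
  · have h5 : |w.im| ≤ |z.im| + |(w - z).im| := by
      have h6 := abs_add_le z.im (w - z).im
      rwa [Complex.sub_im, add_sub_cancel] at h6
    linarith

open Classical in
/-- **(E1)**, for `one_world`. -/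
theorem plane_mark {T : Set Pt} {s₀ : ℝ} (hs : SiteOK T 9 s₀) [Fintype (site T 9)]
    [Fintype (Fc (site T 9) (bR 9) × ZMod 3)] (h : HullTri (site T 9) (bR 9)) (x₀ : site T 9)
    {B : Set ℂ} {O3 : Fin 3 → Set ℂ} (h3 : Three3 (site T 9) B O3) {w : site T 9 → Bool}
    {c : ℕ → Fc (site T 9) (bR 9) × ZMod 3} {n s₁ s₂ : ℕ}
    (hW : W3 (TP h x₀) (TC h h3) (piB (site T 9) B) (Sum.inl ()) w c n s₁ s₂
      (fun j => {v : site T 9 | v.1 ∈ O3 j}) (pi3 (site T 9) O3) Sum.inl)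
    (hfree : ∀ x ∈ site T 9, x ∉ B → nsup x < 8 / 5)
    (hcyc : ∀ i < n, nsup ((TP h x₀).src (c i)).1 ≤ 6 / 5)
    {τ : (site T 9 → Bool) → site T 9 → Bool}
    (hτ : ∀ s (v : site T 9), 8 / 5 ≤ nsup v.1 → τ s v = s v) (γ : Fin 3)
    {Z Z' : Set (site T 9)} {ρ : ℝ} {nr : site T 9 → site T 9 → Prop}
    (hnr : ∀ u v, ¬ nr u v → ρ ≤ dist u.1 v.1)
    {Θ : Dt → ℂ} {m₀ : ℕ} (hm₀ : 0 < m₀) (hρ : 16 / m₀ ≤ ρ) {a : ℝ} (ha : 0 < a)
    (hk : a ≤ pr (fun s : site T 9 → Bool => KEv (site T 9) (whX (site T 9) s)))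
    (F : (site T 9 → Bool) → Fc (site T 9) (bR 9) × ZMod 3)
    (hF : ∀ s, ¬ AltW h x₀ h3 c n s₁ s₂ γ Z Z' nr s → ∃ m f j₁ i₁ N,
        CloW h x₀ h3 c n s₁ s₂ γ Z Z' nr τ s m f j₁ i₁ N ∧ f 1 = F s) :
    ENNReal.ofReal (ex fun s => if AltW h x₀ h3 c n s₁ s₂ γ Z Z' nr s then 0 else
        ‖(TP h x₀).cls (τ s) (F s) (thP h x₀ Θ)‖ ^ 2) ≤ (ENNReal.ofReal a)⁻¹ *
        H910.exE fun s => MQ (site T 9) (sqr ⟨-4, -4⟩ 8)
          (fun ij : Fin m₀ × Fin m₀ => sub ⟨-4, -4⟩ (8 / m₀) ij.1 ij.2)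
          (pc (idmap (site T 9) x₀) (τ s)) Θ := by
  have hmain := mark_MQ h x₀ h3 (ρ := 1 / 8) (by norm_num) le_rfl (by
      have h1 : Net (site T 9) (closedBall 0 (9 - 1)) (1 / 8) :=
        hs.net (by linarith [hs.hs1])
      exact h1.mono (closedBall_subset_closedBall (by norm_num)) le_rfl)
    (fun j => by have := hs.far j; linarith) hfree hW.ring hτ
    (q := qd (TC h h3) (c (s₁ - 1)) γ) (α := γ + 1) (β := γ + 2) γ
    (fun σ => Alt (TP h x₀) (TC h h3) (piB (site T 9) B) (Sum.inl ()) c n s₁ s₂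
      (pi3 (site T 9) O3) Sum.inl σ (qd (TC h h3) (c (s₁ - 1)) γ) (γ + 1) (γ + 2) γ Z Z' nr)
    (Θ := Θ) hm₀ hρ
    (by
      intro s hs'
      obtain ⟨m, f, j₁, i₁, N, hC, -⟩ := hF s hs'
      have h2 := hC.path.two
      have e1 : nsup ((TP h x₀).src (f 1)).1 ≤ 6 / 5 := by
        rw [hC.path.start]; exact hcyc _ hC.path.hi
      refine ⟨m, f, j₁, i₁, hC.path, (hC.rel _).2 (Or.inl ⟨m - 1, by omega, by omega, rfl⟩),
        by linarith, ?_, ?_, hC.cls _⟩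
      · have hn : nbr (site T 9) ((TP h x₀).src (f 1)).1 ((TP h x₀).tgt (f 1)).1 :=
          Vale.Agent.P148.R2.H400.nbr_dt h x₀ (f 1)
        have hb : ((TP h x₀).src (f 1)).1 ∈ closedBall (0 : ℂ) (9 - 1) := by
          rw [mem_closedBall_zero_iff]
          have := Vale.Agent.P148.R2.H291.norm_le_nsup ((TP h x₀).src (f 1)).1
          linarith
        have h4 := hs.edge hb hn
        have h5 := nsup_le_add_dist ((TP h x₀).src (f 1)).1 ((TP h x₀).tgt (f 1)).1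
        have h6 := hs.hs1
        linarith
      · rw [hC.path.start, hC.path.stop]
        exact hnr _ _ hC.far) hk
  have e : (ex fun s => if AltW h x₀ h3 c n s₁ s₂ γ Z Z' nr s then (0 : ℝ) else
        ‖(TP h x₀).cls (τ s) (F s) (thP h x₀ Θ)‖ ^ 2) =
      ex (fun s => if Alt (TP h x₀) (TC h h3) (piB (site T 9) B) (Sum.inl ()) c n s₁ s₂
        (pi3 (site T 9) O3) Sum.inl (patt (site T 9) O3 γ s) (qd (TC h h3) (c (s₁ - 1)) γ)
          (γ + 1) (γ + 2) γ Z Z' nr then (0 : ℝ) else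
      ‖Uval (TP h x₀) (TC h h3) (piB (site T 9) B) (Sum.inl ()) c n s₁ s₂
        (qd (TC h h3) (c (s₁ - 1)) γ) (γ + 1) (γ + 2) (thP h x₀ Θ)
        (patt (site T 9) O3 γ s)‖ ^ 2) := by
    congr 1
    funext s
    by_cases hb : AltW h x₀ h3 c n s₁ s₂ γ Z Z' nr s
    · rw [if_pos hb, if_pos hb]
    · rw [if_neg hb, if_neg hb]
      obtain ⟨m, f, j₁, i₁, N, hC, hf1⟩ := hF s hb
      rw [← hf1, hC.cls, Uval_eq hW.ring hC.path]
  rw [e]
  rw [ENNReal.ofReal_mul ha.le] at hmain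
  have h0 : ENNReal.ofReal a ≠ 0 := (ENNReal.ofReal_pos.2 ha).ne'
  rw [← ENNReal.mul_le_mul_iff_right h0 ENNReal.ofReal_ne_top, ← mul_assoc,
    ENNReal.mul_inv_cancel h0 ENNReal.ofReal_ne_top, one_mul]
  exact hmain

end Vale.Agent.P148.R2.H184
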