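import Vale.Agent.P148.R2.H184.CalA4
import Vale.Agent.P148.R2.H184.CalA2
import Vale.Agent.P148.R2.H910.RowPc
import Vale.Agent.P148.R2.H172.Sc6
import Vale.Agent.P148.R2.H995.CalSc
import Vale.Agent.P148.R2.H959.CalPos2
import Vale.Agent.P148.R2.H659.Hz

/-!
# P148, row CAL, item (E) on the scene of the comb

* `mqA M ρ a Θ γ T i` : the bound for the closed plane class of the mark `γ` in the world `i`;
* `exists_Kr` : the constant `a` and the event `Kr a`;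
* `evZero_mqA` : the upper mean of `mqA` tends to zero;
* `hU_scene` : the hypothesis `hU` of helper953's `one_world`.
-/

set_option linter.unusedSectionVars false

open MeasureTheory Set Metric Topology Filter ProbabilityTheory
open scoped ENNReal NNReal

namespace Vale.Agent.P148.R2.H184

open Vale.Agent.P148.R2.H258 Vale.Agent.P148.R2.H258.Tri Vale.Agent.P148.R2.H251
open H592 H203 H995 H990 H953 H897 H566 H291 H910 _root_.P148.H729
open Vale.Agent.P148.R2.N (ms nc ms_pos)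
open Vale.Agent.P148.R2.H172 (Frame GoodT fscOf fsc fsc_eq combLaw mc xb fX)
open Vale.Agent.P148.R2.H678 (cw wd mB mW Ex outHub EJ)
open Vale.Agent.P148.R2.H419 (Col)
open Vale.Agent.P148.R2.H959 (Mrk ag bg mk0 mk1 mk2 CalB)
open Vale.Agent.P148.R2.H320 (KEv whX)
open Vale.Agent.P148.R2.H400 (TP piB src_TP tgt_TP)
open _root_.P148 hiding col

universe u

/-! ### the explored set of the world of a mark is near the square -/

section far

variable {M p q : ℕ} {X : Set ℂ} {b : ZMod 3 → ℂ}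

theorem EC_nsup {Bl₁ Wh₁ Bl₂ Wh₂ : Set ℂ} {s : ℂ → Bool} (hC : Col M X b Bl₁ Wh₁ Bl₂ Wh₂ s) {z : ℂ}
    (hz : z ∈ EC M X p q (mB M X Bl₁ Wh₁ Bl₂) (mW M X Bl₁ Wh₁ Wh₂)) :
    nsup z < 1 + 2 * ms M := by
  have hM := hC.hM
  have h0 := ms_pos hM
  have hJ : ∀ {K : Set ℕ} {J : Set ℂ}, z ∈ EJ M X K J (mB M X Bl₁ Wh₁ Bl₂) (mW M X Bl₁ Wh₁ Wh₂) →
      nsup z < 1 + 2 * ms M := fun {K J} h => H678.EJ_nsup hM (fun k _ => by
        rw [H678.outHub_mix]; exact H995.Col.outHub_sub hC k) h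
  rcases EC_cases hz with h | h | h | h | h | h
  · rw [Pm_mix] at h
    obtain ⟨i, hi, h⟩ := H995.Col.Pm_gbox hC h
    have := (H678.gbox_nsup hM h).2
    linarith
  · rw [H678.outHub_mix] at h
    have := (H678.gbox_nsup hM (H995.hbox_pout_sub hM _ (H995.Col.outHub_sub hC _ h))).2
    linarith
  · have := (H678.gbox_nsup hM (tooth_sub hM p h.2)).2
    linarith
  · obtain ⟨-, i, hi, h⟩ := mem_Lm.1 h
    have := (H678.cell_nsup hM (rail_in_sub hM _ h)).2
    linarith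
  · exact hJ h
  · exact hJ h

theorem calT_far [Fintype X] (hM : 0 < M) (h8 : 8 ≤ M) (h : HullTri X b)
    (hfar : ∀ j, 1 + 2 * ms M ≤ nsup (b j)) {c₁ c₂ : X → Bool}
    (hA : (combLaw hM X (Subtype.val : X → ℂ)).A0 c₁ c₂) (p q : ℕ) (c₃ : X → Bool) (v : X)
    (hv : 8 / 5 ≤ nsup v.1) : calT M X p q c₁ c₂ c₃ v = c₃ v :=
  cal_third c₁ c₂ c₃ fun hz => by
    have h1 := EC_nsup (H678.col_of_A0 hM h hfar hA) hz
    have h2 := H659.ms_le_eighth h8
    linarith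

end far

/-! ### the bound -/

/-- The pair of colourings of a world. -/
noncomputable def prT (T : Set Pt) {α : Type} (i : α) :
    (site T 9 → Bool) × (site T 9 → Bool) := by
  classical
  exact if h : α = ((site T 9 → Bool) × (site T 9 → Bool)) then cast h i
    else (fun _ => true, fun _ => true)

theorem prT_self (T : Set Pt) (i : (site T 9 → Bool) × (site T 9 → Bool)) : prT T i = i := by
  unfold prT
  rw [dif_pos rfl]
  rfl

/-- The base vertex. -/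
noncomputable def xs (T : Set Pt) : site T 9 := ⟨bR 9 0, Or.inr ⟨0, rfl⟩⟩

/-- The number of subsquares. -/
noncomputable def m0 (ρ : ℝ) : ℕ := ⌈16 / ρ⌉₊ + 1

theorem m0_pos (ρ : ℝ) : 0 < m0 ρ := Nat.succ_pos _

theorem le_m0 {ρ : ℝ} (hρ : 0 < ρ) : 16 / (m0 ρ : ℝ) ≤ ρ := by
  have h1 : 16 / ρ ≤ (m0 ρ : ℝ) := by
    unfold m0
    push_cast
    have := Nat.le_ceil (16 / ρ)
    linarith
  have h2 : (0 : ℝ) < m0 ρ := by exact_mod_cast m0_pos ρ
  rw [div_le_iff₀ h2]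
  rw [div_le_iff₀ hρ] at h1
  linarith

/-- The mean of the plane classes which are local in the big square and in no small subsquare, for
the colourings of the mark `p`, `q`. -/
noncomputable def mqO (M : ℕ) (ρ : ℝ) (Θ : Dt → ℂ) (p q : ℕ) (T : Set Pt)
    (i : (site T 9 → Bool) × (site T 9 → Bool)) : ℝ≥0∞ := by
  classical
  exact if hf : (site T 9).Finite then
      letI := hf.fintype
      exE fun s => MQ (site T 9) (sqr ⟨-4, -4⟩ 8)
        (fun ij : Fin (m0 ρ) × Fin (m0 ρ) => sub ⟨-4, -4⟩ (8 / (m0 ρ : ℕ)) ij.1 ij.2)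
        (H184.pc (idmap (site T 9) (xs T)) (calT M (site T 9) p q i.1 i.2 s)) Θ
    else 0

theorem mqO_eq (M : ℕ) (ρ : ℝ) (Θ : Dt → ℂ) (p q : ℕ) (T : Set Pt) [inst : Fintype (site T 9)]
    (i : (site T 9 → Bool) × (site T 9 → Bool)) : mqO M ρ Θ p q T i =
      exE fun s => MQ (site T 9) (sqr ⟨-4, -4⟩ 8)
        (fun ij : Fin (m0 ρ) × Fin (m0 ρ) => sub ⟨-4, -4⟩ (8 / (m0 ρ : ℕ)) ij.1 ij.2)
        (H184.pc (idmap (site T 9) (xs T)) (calT M (site T 9) p q i.1 i.2 s)) Θ := by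
  have hf : (site T 9).Finite := Set.toFinite _
  obtain rfl : inst = hf.fintype := Subsingleton.elim _ _
  unfold mqO
  rw [dif_pos hf]

/-- **The bound for the closed plane class** of the mark `γ` in the world `i`. -/
noncomputable def mqA (M : ℕ) (ρ a : ℝ) (Θ : Dt → ℂ) (γ : Fin 3) (T : Set Pt) {α : Type}
    (i : α) : ℝ≥0∞ :=
  (ENNReal.ofReal a)⁻¹ * mqO M ρ Θ (ag (mk0 M 5) (mk1 M 5) (mk2 M 5) γ)
    (bg M (mk0 M 5) (mk1 M 5) (mk2 M 5) γ) T (prT T i)

/-! ### the ring -/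

/-- The ring has probability at least `a`. -/
def Kr (a : ℝ) (T : Set Pt) : Prop := ∀ [Fintype (site T 9)],
  a ≤ H953.pr (fun s : site T 9 → Bool => KEv (site T 9) (whX (site T 9) s))

/-- **The constant of the ring.** -/
theorem exists_Kr : ∃ a > 0, Ev.{u} (Kr a) := by
  obtain ⟨c, hc, -, h⟩ := kEv_ev.{u}
  refine ⟨c, hc, (h.and (ev_siteOK.{u} (R := 9) (s := 1 / 10) (by norm_num) (by norm_num)
    (by norm_num))).mono ?_⟩
  rintro T ⟨h1, h2⟩ inst
  exact h1 (site T 9) (win6_site h2 (by norm_num))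

/-! ### the upper mean -/

/-- **The upper mean of the bound tends to zero.** -/
theorem evZero_mqA {τ : ℂ} {κ : ℝ} {Θ : Dt → ℂ} (hΘ : Wt τ κ Θ) {M : ℕ} (hM : 0 < M) {c : ℝ}
    (hc : 0 < c) {a : ℝ} (ha : 0 < a) (ρ : ℝ) (γ : Fin 3) :
    EvZero.{u} (fun T => ⨆ _ : GoodT c M T, ∑ i, (fsc M T).p i * mqA M ρ a Θ γ T i) := by
  set p := ag (mk0 M 5) (mk1 M 5) (mk2 M 5) γ with hp
  set q := bg M (mk0 M 5) (mk1 M 5) (mk2 M 5) γ with hq
  have h1 : EvZero.{u} (fun T => ⨆ _ : GoodT c M T, ∑ i, (fsc M T).toScene.p i *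
      mqO M ρ Θ p q T (prT T i)) := by
    refine evZero_cal (κ₁ := Unit) hΘ (R := 9) (m0_pos ρ) ⟨-4, -4⟩ (L := 8) (by norm_num)
      (Q0_sub_ball (by norm_num)) (M := M) hc (GoodT c M) (fun T => (fsc M T).toScene)
      (fun T _ => xs T) (fun T i => prT T i) ?_ (fun T _ => PmV M (site T 9) p)
      (fun T _ => ECV M (site T 9) p q) (fun T _ _ => True) (fun T _ v => v.1 ∈ H995.SC M (site T 9) p q)
      (fun T _ _ => isStop_PmV M _ p) (fun T _ _ => isStop_ECV M _ p q)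
      (fun T _ _ s => PmV_sub_ECV s) _ ?_
    · intro T hT
      rw [fsc_eq hM hT.site]
      have e : (fun i : (fscOf hM hT.site.hull).toScene.ι => prT T i) = fun i => i :=
        funext fun i => prT_self T i
      rw [e]
      exact combSc_fscOf hM hT
    · intro T hT i _
      refine ⟨fX hT.site.hull, ?_⟩
      let := fX hT.site.hull
      rw [mqO_eq, Finset.univ_unique, Finset.sum_singleton]
      exact le_rfl
  refine (h1.const_mul (k := (ENNReal.ofReal a)⁻¹) ?_).mono fun T => iSup_le fun hG => ?_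
  · rw [Ne, ENNReal.inv_eq_top]
    exact (ENNReal.ofReal_pos.2 ha).ne'
  · rw [iSup_pos hG, Finset.mul_sum]
    refine Finset.sum_le_sum fun i _ => ?_
    unfold mqA
    rw [mul_left_comm]

/-! ### the worlds -/

section scene

variable {c : ℝ} {M : ℕ} {T : Set Pt} (h : GoodT c M T) (hM : 0 < M)
  {i : (site T 9 → Bool) × (site T 9 → Bool)} (hi : (fscOf hM h.site.hull).p i ≠ 0)
include hi

open Classical in
/-- **The hypothesis `hU` of `one_world`**, on the scene of the comb. -/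
theorem hU_scene [Fintype (site T 9)] (h8 : 8 ≤ M)
    {F : Frame M ((fscOf hM h.site.hull).w i) ((fscOf hM h.site.hull).x₀ i)
      ((fscOf hM h.site.hull).col i)} {s₁ s₂ : ℕ} {O3 : Fin 3 → Set ℂ}
    {h3 : Three3 ((fscOf hM h.site.hull).w i).X ((fscOf hM h.site.hull).w i).B O3}
    (hB : CalB F 5 s₁ s₂ O3 h3) {Θ : Dt → ℂ} {a ρ : ℝ} (ha : 0 < a) (hK : Kr a T) (hρ : 0 < ρ)
    {t : ℝ} (ht : 0 ≤ t) {γ : Fin 3} {Z Z' : Set (site T 9)} {nr : site T 9 → site T 9 → Prop}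
    (hnr : ∀ u v, ¬ nr u v → ρ ≤ dist u.1 v.1)
    (hmq : mqA M ρ a Θ γ T i ≤ ENNReal.ofReal t)
    (f₁ : (site T 9 → Bool) → ((fscOf hM h.site.hull).w i).D)
    (hf : ∀ s : site T 9 → Bool, ¬ AltW ((fscOf hM h.site.hull).w i).hull
        ((fscOf hM h.site.hull).x₀ i) h3 (F.bc (mk0 M 5)) (F.bn (mk0 M 5)) s₁ s₂ γ Z Z' nr s →
        ∃ m f j₁ i₁ N, CloW ((fscOf hM h.site.hull).w i).hull ((fscOf hM h.site.hull).x₀ i) h3
          (F.bc (mk0 M 5)) (F.bn (mk0 M 5)) s₁ s₂ γ Z Z' nr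
          (calT M (site T 9) (ag (mk0 M 5) (mk1 M 5) (mk2 M 5) γ)
            (bg M (mk0 M 5) (mk1 M 5) (mk2 M 5) γ) i.1 i.2) s m f j₁ i₁ N ∧ f 1 = f₁ s) :
    (H953.ex (V := site T 9) fun s => if AltW ((fscOf hM h.site.hull).w i).hull
        ((fscOf hM h.site.hull).x₀ i) h3 (F.bc (mk0 M 5)) (F.bn (mk0 M 5)) s₁ s₂ γ Z Z' nr s
        then 0 else
        ‖(H609.TP ((fscOf hM h.site.hull).w i) ((fscOf hM h.site.hull).x₀ i)).cls
          (calT M (site T 9) (ag (mk0 M 5) (mk1 M 5) (mk2 M 5) γ)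
            (bg M (mk0 M 5) (mk1 M 5) (mk2 M 5) γ) i.1 i.2 s) (f₁ s)
          (thP ((fscOf hM h.site.hull).w i).hull ((fscOf hM h.site.hull).x₀ i) Θ)‖ ^ 2) ≤ t := by
  have hA : (combLaw hM (site T 9) (Subtype.val : site T 9 → ℂ)).A0 i.1 i.2 := h.A0 hM hi
  have hms : ms M ≤ 1 / 8 := H659.ms_le_eighth h8
  let inst2 : Fintype (Fc (site T 9) (bR 9) × ZMod 3) :=
    (inferInstance : Fintype ((fscOf hM h.site.hull).w i).D)
  have key := plane_mark (T := T) h.site h.site.hull (xb h.site.hull)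
    (B := ((fscOf hM h.site.hull).w i).B) h3 (w := mc M (site T 9) i)
    (c := F.bc (mk0 M 5)) (n := F.bn (mk0 M 5)) (s₁ := s₁) (s₂ := s₂) hB.w3
    (fun x hx hxB => ((h.wdD hM hi).free_nsup x hx hxB).trans (by linarith))
    (fun j hj => (hB.mrk.nsup_le hM hj).2.le.trans (by linarith))
    (τ := calT M (site T 9) (ag (mk0 M 5) (mk1 M 5) (mk2 M 5) γ)
            (bg M (mk0 M 5) (mk1 M 5) (mk2 M 5) γ) i.1 i.2)
    (fun s v hv => calT_far hM h8 h.site.hull (H678.far_site h.site (by norm_num)) hA _ _ s v hv)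
    γ (Z := Z) (Z' := Z') hnr (Θ := Θ) (m0_pos ρ) (le_m0 hρ) ha hK f₁ hf
  have e : mqA M ρ a Θ γ T i = (ENNReal.ofReal a)⁻¹ *
      exE fun s => MQ (site T 9) (sqr ⟨-4, -4⟩ 8)
        (fun ij : Fin (m0 ρ) × Fin (m0 ρ) => sub ⟨-4, -4⟩ (8 / (m0 ρ : ℕ)) ij.1 ij.2)
        (H184.pc (idmap (site T 9) (xs T)) (calT M (site T 9)
          (ag (mk0 M 5) (mk1 M 5) (mk2 M 5) γ) (bg M (mk0 M 5) (mk1 M 5) (mk2 M 5) γ)
          i.1 i.2 s)) Θ := by
    unfold mqA
    rw [mqO_eq, prT_self]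
  rw [e] at hmq
  exact (ENNReal.ofReal_le_ofReal_iff ht).1 (key.trans hmq)

end scene

end Vale.Agent.P148.R2.H184
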