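import Vale.Agent.P148.R2.H592.Del9
import Vale.Agent.P148.R2.H258.A4

/-!
# Local Delaunay faces (P148, module L1)
-/

open Set Metric Function ComplexConjugate

namespace Vale.Agent.P148.R2.H184

open H592

/-- Darts of the plane: tail, head, apex (of the face on the left). -/
abbrev Dt : Type := ℂ × ℂ × ℂ

/-- The next dart of the face. -/
def rt (d : Dt) : Dt := (d.2.1, d.2.2, d.1)

/-- The circumcentre of a triple. -/
noncomputable def cc (d : Dt) : ℂ :=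
  ⟨d.1.re + (((d.2.1.re - d.1.re) ^ 2 + (d.2.1.im - d.1.im) ^ 2) * (d.2.2.im - d.1.im) -
      ((d.2.2.re - d.1.re) ^ 2 + (d.2.2.im - d.1.im) ^ 2) * (d.2.1.im - d.1.im)) /
        (2 * cr d.1 d.2.1 d.2.2),
   d.1.im + ((d.2.1.re - d.1.re) * ((d.2.2.re - d.1.re) ^ 2 + (d.2.2.im - d.1.im) ^ 2) -
      (d.2.2.re - d.1.re) * ((d.2.1.re - d.1.re) ^ 2 + (d.2.1.im - d.1.im) ^ 2)) /
        (2 * cr d.1 d.2.1 d.2.2)⟩

theorem pw_cc1 {d : Dt} (h : cr d.1 d.2.1 d.2.2 ≠ 0) : pw d.1 d.2.1 (cc d) = 0 := by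
  rw [pw_eq]
  have h2 : (2 * cr d.1 d.2.1 d.2.2) ≠ 0 := mul_ne_zero two_ne_zero h
  simp only [cc, Complex.normSq_apply]
  field_simp
  unfold cr
  ring

theorem pw_cc2 {d : Dt} (h : cr d.1 d.2.1 d.2.2 ≠ 0) : pw d.1 d.2.2 (cc d) = 0 := by
  rw [pw_eq]
  have h2 : (2 * cr d.1 d.2.1 d.2.2) ≠ 0 := mul_ne_zero two_ne_zero h
  simp only [cc, Complex.normSq_apply]
  field_simp
  unfold cr
  ring

theorem dist_eq_iff_pw (v w z : ℂ) : dist z v = dist z w ↔ pw v w z = 0 := by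
  constructor
  · intro h
    have h1 := (dist_le_iff v w z).1 h.le
    have h2 := (dist_le_iff w v z).1 h.ge
    rw [pw_neg] at h2
    linarith
  · intro h
    apply le_antisymm
    · exact (dist_le_iff v w z).2 h.ge
    · refine (dist_le_iff w v z).2 ?_
      rw [pw_neg, h]; simp

theorem dist_cc1 {d : Dt} (h : cr d.1 d.2.1 d.2.2 ≠ 0) :
    dist (cc d) d.1 = dist (cc d) d.2.1 := (dist_eq_iff_pw _ _ _).2 (pw_cc1 h)

theorem dist_cc2 {d : Dt} (h : cr d.1 d.2.1 d.2.2 ≠ 0) :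
    dist (cc d) d.1 = dist (cc d) d.2.2 := (dist_eq_iff_pw _ _ _).2 (pw_cc2 h)

theorem cc_unique {d : Dt} (h : cr d.1 d.2.1 d.2.2 ≠ 0) {z : ℂ} (h1 : dist z d.1 = dist z d.2.1)
    (h2 : dist z d.1 = dist z d.2.2) : z = cc d := by
  rw [dist_eq_iff_pw, pw_eq] at h1 h2
  have a1 := pw_cc1 h
  have a2 := pw_cc2 h
  rw [pw_eq] at a1 a2
  have e1 : (z.re - (cc d).re) * (d.2.1.re - d.1.re) + (z.im - (cc d).im) * (d.2.1.im - d.1.im) = 0 := by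
    linarith
  have e2 : (z.re - (cc d).re) * (d.2.2.re - d.1.re) + (z.im - (cc d).im) * (d.2.2.im - d.1.im) = 0 := by
    linarith
  apply Complex.ext
  · have : (z.re - (cc d).re) * cr d.1 d.2.1 d.2.2 = 0 := by
      unfold cr
      linear_combination (d.2.2.im - d.1.im) * e1 - (d.2.1.im - d.1.im) * e2
    rcases mul_eq_zero.1 this with h3 | h3
    · linarith
    · exact absurd h3 h
  · have : (z.im - (cc d).im) * cr d.1 d.2.1 d.2.2 = 0 := by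
      unfold cr
      linear_combination (d.2.1.re - d.1.re) * e2 - (d.2.2.re - d.1.re) * e1
    rcases mul_eq_zero.1 this with h3 | h3
    · linarith
    · exact absurd h3 h

theorem cr_rt (d : Dt) : cr (rt d).1 (rt d).2.1 (rt d).2.2 = cr d.1 d.2.1 d.2.2 := cr_rot _ _ _

theorem cc_rt {d : Dt} (h : cr d.1 d.2.1 d.2.2 ≠ 0) : cc (rt d) = cc d := by
  apply cc_unique h
  · have h' : cr (rt d).1 (rt d).2.1 (rt d).2.2 ≠ 0 := by rw [cr_rt]; exact h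
    exact (dist_cc2 h').symm
  · have h' : cr (rt d).1 (rt d).2.1 (rt d).2.2 ≠ 0 := by rw [cr_rt]; exact h
    exact (dist_cc2 h').symm.trans (dist_cc1 h')

/-- A ccw Delaunay face of `X` whose closed circumdisc is in `Q`. -/
def LF (X Q : Set ℂ) (d : Dt) : Prop :=
  (d.1 ∈ X ∧ d.2.1 ∈ X ∧ d.2.2 ∈ X) ∧ 0 < cr d.1 d.2.1 d.2.2 ∧
    closedBall (cc d) (dist (cc d) d.1) ⊆ Q ∧ ∀ x ∈ X, dist (cc d) d.1 ≤ dist (cc d) x

theorem LF.mono {X Q Q' : Set ℂ} {d : Dt} (h : LF X Q d) (hQ : Q ⊆ Q') : LF X Q' d :=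
  ⟨h.1, h.2.1, h.2.2.1.trans hQ, h.2.2.2⟩

theorem LF.mem {X Q : Set ℂ} {d : Dt} (h : LF X Q d) : d.1 ∈ Q ∧ d.2.1 ∈ Q ∧ d.2.2 ∈ Q := by
  refine ⟨h.2.2.1 ?_, h.2.2.1 ?_, h.2.2.1 ?_⟩
  · rw [mem_closedBall, dist_comm]
  · rw [mem_closedBall, dist_comm, dist_cc1 h.2.1.ne']
  · rw [mem_closedBall, dist_comm, dist_cc2 h.2.1.ne']

/-- Locality. -/
theorem LF.congr {X X' Q : Set ℂ} (hX : X ∩ Q = X' ∩ Q) {d : Dt} (h : LF X Q d) : LF X' Q d := by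
  obtain ⟨m1, m2, m3⟩ := h.mem
  have hm : ∀ x, x ∈ X → x ∈ Q → x ∈ X' := fun x hx hq =>
    ((Set.ext_iff.1 hX x).1 ⟨hx, hq⟩).1
  refine ⟨⟨hm _ h.1.1 m1, hm _ h.1.2.1 m2, hm _ h.1.2.2 m3⟩, h.2.1, h.2.2.1, ?_⟩
  intro x hx
  by_cases hq : x ∈ Q
  · exact h.2.2.2 x ((Set.ext_iff.1 hX x).2 ⟨hx, hq⟩).1
  · by_contra hlt
    push Not at hlt
    apply hq
    apply h.2.2.1
    rw [mem_closedBall, dist_comm]
    exact hlt.le

theorem LF_inter {X Q : Set ℂ} {d : Dt} : LF (X ∩ Q) Q d ↔ LF X Q d :=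
  ⟨fun h => h.congr (by rw [inter_assoc, inter_self]),
    fun h => h.congr (by rw [inter_assoc, inter_self])⟩

theorem LF.rt {X Q : Set ℂ} {d : Dt} (h : LF X Q d) : LF X Q (rt d) := by
  have hc := cc_rt h.2.1.ne'
  have hd : dist (cc d) (H184.rt d).1 = dist (cc d) d.1 := (dist_cc1 h.2.1.ne').symm
  refine ⟨⟨h.1.2.1, h.1.2.2, h.1.1⟩, by rw [cr_rt]; exact h.2.1, ?_, ?_⟩
  · rw [hc, hd]; exact h.2.2.1
  · rw [hc, hd]; exact h.2.2.2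

theorem rt3 (d : Dt) : rt (rt (rt d)) = d := rfl

theorem LF_rt {X Q : Set ℂ} {d : Dt} : LF X Q (rt d) ↔ LF X Q d :=
  ⟨fun h => by have := h.rt.rt; rwa [rt3] at this, fun h => h.rt⟩

theorem LF.mem_vcell {X Q : Set ℂ} {d : Dt} (h : LF X Q d) :
    cc d ∈ vcell X d.1 ∧ cc d ∈ vcell X d.2.1 ∧ cc d ∈ vcell X d.2.2 := by
  refine ⟨h.2.2.2, ?_, ?_⟩
  · intro x hx
    rw [← dist_cc1 h.2.1.ne']; exact h.2.2.2 x hx
  · intro x hx
    rw [← dist_cc2 h.2.1.ne']; exact h.2.2.2 x hx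

theorem LF.ne {X Q : Set ℂ} {d : Dt} (h : LF X Q d) : d.1 ≠ d.2.1 ∧ d.2.1 ≠ d.2.2 ∧ d.2.2 ≠ d.1 := by
  have h0 := h.2.1
  refine ⟨?_, ?_, ?_⟩
  · intro he; rw [he] at h0; unfold cr at h0; linarith
  · intro he; rw [he] at h0; unfold cr at h0; linarith
  · intro he; rw [he] at h0; unfold cr at h0; linarith

theorem LF.face {X Q : Set ℂ} {d : Dt} (h : LF X Q d) : face X d.1 d.2.1 d.2.2 :=
  ⟨⟨h.1.1, h.1.2.1, h.1.2.2, h.ne.1, h.ne.2.1, h.ne.2.2,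
    cc d, ⟨h.mem_vcell.1, h.mem_vcell.2.1⟩, h.mem_vcell.2.2⟩, h.2.1⟩

theorem LF_univ {X : Set ℂ} {d : Dt} : LF X univ d ↔ H592.face X d.1 d.2.1 d.2.2 := by
  refine ⟨fun h => h.face, fun h => ?_⟩
  obtain ⟨⟨h1, h2, h3, -, -, -, z, ⟨z1, z2⟩, z3⟩, h0⟩ := h
  have e1 : dist z d.1 = dist z d.2.1 := le_antisymm (z1 _ h2) (z2 _ h1)
  have e2 : dist z d.1 = dist z d.2.2 := le_antisymm (z1 _ h3) (z3 _ h1)
  have hz := cc_unique h0.ne' e1 e2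
  subst hz
  exact ⟨⟨h1, h2, h3⟩, h0, subset_univ _, z1⟩

theorem LF.unique {X Q Q' : Set ℂ} (h3 : Three X) {d d' : Dt} (h : LF X Q d) (h' : LF X Q' d')
    (h1 : d.1 = d'.1) (h2 : d.2.1 = d'.2.1) : d = d' := by
  have e := h.face
  have e' := h'.face
  rw [← h1, ← h2] at e'
  have := face_unique h3 e e'
  exact Prod.ext h1 (Prod.ext h2 this)

end Vale.Agent.P148.R2.H184
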