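import Vale.Agent.P148.R2.H184.L10

/-!
# The energy density of the local loops (P148, module L1)
-/

open MeasureTheory Set Metric Topology Filter ProbabilityTheory
open scoped ENNReal NNReal

namespace Vale.Agent.P148.R2.H184

open H592 _root_.P148 _root_.P148.H729

universe u

/-- **The energy density.** The expected energy of the loops which are local in a square of side
`L` is at most `l L²`, and at least `(l - η) L²` if `lam L²` is large. -/
theorem density {τ : ℂ} {κ : ℝ} {Θ : Dt → ℂ} (hΘ : Wt τ κ Θ) : ∃ l : ℝ, 0 ≤ l ∧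
    (∀ (Ω : Type u) [MeasurableSpace Ω] (P : Measure Ω)
      [IsProbabilityMeasure P] (S : Ω → Set Pt) (lam : ℝ≥0), IsColouredPoisson P S lam →
      lam ≠ 0 → ∀ (x : ℂ) (L : ℝ), 0 < L →
      ∫⁻ ω, SC (sqr x L) Θ (S ω) ∂P ≤ ENNReal.ofReal (l * L ^ 2)) ∧
    ∀ η, 0 < η → ∃ K : ℝ, 0 < K ∧ ∀ (Ω : Type u) [MeasurableSpace Ω] (P : Measure Ω)
      [IsProbabilityMeasure P] (S : Ω → Set Pt) (lam : ℝ≥0), IsColouredPoisson P S lam →
      ∀ (x : ℂ) (L : ℝ), 0 < L → K ≤ lam * L ^ 2 →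
      ENNReal.ofReal ((l - η) * L ^ 2) ≤ ∫⁻ ω, SC (sqr x L) Θ (S ω) ∂P := by
  by_cases hex : ∃ (Ω₀ : Type u) (_ : MeasurableSpace Ω₀) (P₀ : Measure Ω₀)
      (_ : IsProbabilityMeasure P₀) (S₀ : Ω₀ → Set Pt), IsColouredPoisson P₀ S₀ 1
  · obtain ⟨Ω₀, i1, P₀, i2, S₀, h₀⟩ := hex
    have hK := KK_nonneg κ
    have hfin : ∀ t, 0 < t → GG P₀ S₀ Θ t ≠ ⊤ := fun t ht =>
      ne_top_of_le_ne_top ENNReal.ofReal_ne_top (GG_le h₀ hΘ ht)
    obtain ⟨l, hl1, hl2⟩ := H15.fek_real (G := fun t => (GG P₀ S₀ Θ t).toReal) (C := 4 * KK κ)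
      (fun t _ => ENNReal.toReal_nonneg)
      (fun t ht => by
        have h := ENNReal.toReal_mono ENNReal.ofReal_ne_top (GG_le h₀ hΘ ht)
        rwa [ENNReal.toReal_ofReal (by positivity)] at h)
      (fun s t n h1 h2 => by
        rcases Nat.eq_zero_or_pos n with rfl | hn
        · simp
        have hn' : (0 : ℝ) < n := by exact_mod_cast hn
        have ht : 0 < t := lt_of_lt_of_le (by positivity) h2
        have h := ENNReal.toReal_mono (hfin t ht) (GG_super h₀ hΘ h1 h2)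
        rw [ENNReal.toReal_mul, ENNReal.toReal_pow, ENNReal.toReal_natCast] at h
        exact h)
    have hl0 : 0 ≤ l := by
      have h1 := hl1 1 one_pos
      have : 0 ≤ (GG P₀ S₀ Θ 1).toReal := ENNReal.toReal_nonneg
      simp only [one_pow, mul_one] at h1
      linarith
    have hsq : ∀ (lam : ℝ≥0) (c L : ℝ), c * (NNReal.sqrt lam * L) ^ 2 = lam * (c * L ^ 2) := by
      intro lam c L
      rw [mul_pow, ← NNReal.coe_pow, NNReal.sq_sqrt]
      ring
    refine ⟨l, hl0, ?_, ?_⟩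
    · intro Ω _ P _ S lam h hlam x L hL
      have hr : (0 : ℝ) < NNReal.sqrt lam := by
        have : 0 < NNReal.sqrt lam := NNReal.sqrt_pos.2 (pos_iff_ne_zero.2 hlam)
        exact_mod_cast this
      have h1 := hl1 (NNReal.sqrt lam * L) (by positivity)
      have h2 : GG P₀ S₀ Θ (NNReal.sqrt lam * L) ≤
          ENNReal.ofReal (l * (NNReal.sqrt lam * L) ^ 2) := by
        rw [← ENNReal.ofReal_toReal (hfin _ (mul_pos hr hL))]
        exact ENNReal.ofReal_le_ofReal h1
      have h3 := lintegral_SC_eq h hlam h₀ hΘ x L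
      rw [hsq, ENNReal.ofReal_mul (by positivity), ENNReal.ofReal_coe_nnreal] at h2
      have h4 : (lam : ℝ≥0∞) * ∫⁻ ω, SC (sqr x L) Θ (S ω) ∂P ≤
          lam * ENNReal.ofReal (l * L ^ 2) := h3.trans_le h2
      exact (ENNReal.mul_le_mul_iff_right (by exact_mod_cast hlam) ENNReal.coe_ne_top).1 h4
    · intro η hη
      obtain ⟨K, hK0, hK2⟩ := hl2 η hη
      refine ⟨K ^ 2, by positivity, ?_⟩
      intro Ω _ P _ S lam h x L hL hKL
      have hlam : lam ≠ 0 := by
        rintro rfl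
        have : (0 : ℝ) < K ^ 2 := by positivity
        simp only [NNReal.coe_zero, zero_mul] at hKL
        linarith
      have hr : (0 : ℝ) < NNReal.sqrt lam := by
        have : 0 < NNReal.sqrt lam := NNReal.sqrt_pos.2 (pos_iff_ne_zero.2 hlam)
        exact_mod_cast this
      have hKr : K ≤ NNReal.sqrt lam * L := by
        have h1 : K ^ 2 ≤ (NNReal.sqrt lam * L) ^ 2 := by
          rw [mul_pow, ← NNReal.coe_pow, NNReal.sq_sqrt]
          exact hKL
        exact (pow_le_pow_iff_left₀ hK0.le (by positivity) two_ne_zero).1 h1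
      have h1 := hK2 _ hKr
      have h2 : ENNReal.ofReal ((l - η) * (NNReal.sqrt lam * L) ^ 2) ≤
          GG P₀ S₀ Θ (NNReal.sqrt lam * L) := by
        rw [← ENNReal.ofReal_toReal (hfin _ (mul_pos hr hL))]
        exact ENNReal.ofReal_le_ofReal h1
      have h3 := lintegral_SC_eq h hlam h₀ hΘ x L
      rw [hsq, ENNReal.ofReal_mul (by positivity), ENNReal.ofReal_coe_nnreal] at h2
      have h4 : (lam : ℝ≥0∞) * ENNReal.ofReal ((l - η) * L ^ 2) ≤
          lam * ∫⁻ ω, SC (sqr x L) Θ (S ω) ∂P := h2.trans_eq h3.symm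
      exact (ENNReal.mul_le_mul_iff_right (by exact_mod_cast hlam) ENNReal.coe_ne_top).1 h4
  · have hno : ∀ (Ω : Type u) [MeasurableSpace Ω] (P : Measure Ω)
      [IsProbabilityMeasure P] (S : Ω → Set Pt) (lam : ℝ≥0), IsColouredPoisson P S lam →
      lam ≠ 0 → False := fun Ω i P i' S lam h hlam =>
        hex ⟨Ω, i, P, i', _, sim_poisson h hlam 0⟩
    refine ⟨0, le_rfl, ?_, ?_⟩
    · intro Ω _ P _ S lam h hlam
      exact (hno Ω P S lam h hlam).elim
    · intro η hη
      refine ⟨1, one_pos, ?_⟩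
      intro Ω _ P _ S lam h x L hL hKL
      refine (hno Ω P S lam h ?_).elim
      rintro rfl
      simp only [NNReal.coe_zero, zero_mul] at hKL
      linarith

end Vale.Agent.P148.R2.H184
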