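import Vale.Agent.P148.R2.H184.L1

/-!
# Local loops and their classes (P148, module L1)
-/

open Set Metric Function
open scoped ENNReal

namespace Vale.Agent.P148.R2.H184

open H592

/-- The first two entries of the next dart of the strand. -/
def Nx (c : ℂ → Bool) (d d' : Dt) : Prop :=
  c d.1 ≠ c d.2.1 ∧ d'.1 = (if c d.2.2 = c d.1 then d.2.2 else d.1) ∧
    d'.2.1 = (if c d.2.2 = c d.1 then d.2.1 else d.2.2)

/-- Minority darts: they point to the minority vertex of their face. -/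
def Mn (c : ℂ → Bool) (d : Dt) : Prop := c d.1 ≠ c d.2.1 ∧ c d.2.2 = c d.1

/-- `f` is a closed strand of length `n`, all of whose faces are local in `Q`. -/
structure Lp (X Q : Set ℂ) (c : ℂ → Bool) (n : ℕ) (f : ℕ → Dt) : Prop where
  pos : 0 < n
  lf : ∀ i, LF X Q (f i)
  nx : ∀ i, Nx c (f i) (f (i + 1))
  per : ∀ i, f (i + n) = f i
  min : ∀ k, 0 < k → k < n → f k ≠ f 0

/-- The strand of `d` is a loop which is local in `Q`. -/
def InL (X Q : Set ℂ) (c : ℂ → Bool) (d : Dt) : Prop := ∃ n f, Lp X Q c n f ∧ f 0 = d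

/-- `d` and `e` are minority darts of the same class of a local loop. -/
def Rl (X Q : Set ℂ) (c : ℂ → Bool) (d e : Dt) : Prop :=
  Mn c d ∧ Mn c e ∧ ∃ n m f, Lp X Q c n f ∧ m < n ∧ f 0 = d ∧ f m = e ∧
    ∀ i j, 1 ≤ i → i ≤ m → m < j → j ≤ n → (f i).1 ≠ (f j).1

variable {X Q Q' : Set ℂ} {c : ℂ → Bool}

theorem Lp.mono {n : ℕ} {f : ℕ → Dt} (h : Lp X Q c n f) (hQ : Q ⊆ Q') : Lp X Q' c n f :=
  ⟨h.pos, fun i => (h.lf i).mono hQ, h.nx, h.per, h.min⟩

theorem InL.mono {d : Dt} (h : InL X Q c d) (hQ : Q ⊆ Q') : InL X Q' c d := by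
  obtain ⟨n, f, h1, h2⟩ := h
  exact ⟨n, f, h1.mono hQ, h2⟩

theorem Rl.mono {d e : Dt} (h : Rl X Q c d e) (hQ : Q ⊆ Q') : Rl X Q' c d e := by
  obtain ⟨h1, h2, n, m, f, h3, h4⟩ := h
  exact ⟨h1, h2, n, m, f, h3.mono hQ, h4⟩

theorem Rl.inL {d e : Dt} (h : Rl X Q c d e) : InL X Q c d := by
  obtain ⟨-, -, n, m, f, h3, -, h4, -⟩ := h
  exact ⟨n, f, h3, h4⟩

theorem InL.lf {d : Dt} (h : InL X Q c d) : LF X Q d := by
  obtain ⟨n, f, h1, rfl⟩ := h
  exact h1.lf 0

theorem Nx.det (h3 : Three X) {Q' : Set ℂ} {d a b : Dt} (h1 : Nx c d a) (h2 : Nx c d b)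
    (ha : LF X Q a) (hb : LF X Q' b) : a = b :=
  ha.unique h3 hb (h1.2.1.trans h2.2.1.symm) (h1.2.2.trans h2.2.2.symm)

theorem Lp.det (h3 : Three X) {n n' : ℕ} {f f' : ℕ → Dt} (h : Lp X Q c n f)
    (h' : Lp X Q' c n' f') {k : ℕ} (h0 : f k = f' 0) (i : ℕ) : f (k + i) = f' i := by
  induction i with
  | zero => exact h0
  | succ i ih =>
    have e1 := h.nx (k + i)
    have e2 := h'.nx i
    rw [ih] at e1
    exact e1.det h3 e2 (h.lf _) (h'.lf _)

theorem Lp.shift (h3 : Three X) {n : ℕ} {f : ℕ → Dt} (h : Lp X Q c n f) (m : ℕ) :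
    Lp X Q c n (fun i => f (i + m)) := by
  refine ⟨h.pos, fun i => h.lf _, fun i => ?_, fun i => ?_, fun k hk hkn he => ?_⟩
  · show Nx c (f (i + m)) (f (i + 1 + m))
    rw [show i + 1 + m = i + m + 1 by ring]
    exact h.nx _
  · show f (i + n + m) = f (i + m)
    rw [show i + n + m = i + m + n by ring]
    exact h.per _
  · simp only [Nat.zero_add] at he
    have hstep : ∀ j, f (k + m + j) = f (m + j) := by
      intro j
      induction j with
      | zero => exact he
      | succ j ih =>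
        have e1 := h.nx (k + m + j)
        have e2 := h.nx (m + j)
        rw [ih] at e1
        exact e1.det h3 e2 (h.lf _) (h.lf _)
    have hper : ∀ j i, f (i + j * n) = f i := by
      intro j
      induction j with
      | zero => intro i; simp
      | succ j ih => intro i; rw [show i + (j + 1) * n = (i + j * n) + n by ring, h.per, ih]
    have hmn : m ≤ m * n := Nat.le_mul_of_pos_right _ h.pos
    have := hstep (m * n - m)
    rw [show k + m + (m * n - m) = k + m * n by omega, show m + (m * n - m) = 0 + m * n by omega,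
      hper, hper] at this
    exact h.min k hk hkn this

theorem Lp.per_eq (h3 : Three X) {n n' : ℕ} {f f' : ℕ → Dt} (h : Lp X Q c n f)
    (h' : Lp X Q' c n' f') (h0 : f 0 = f' 0) : n = n' := by
  have e : ∀ i, f i = f' i := fun i => by
    have := h.det h3 h' (k := 0) h0 i
    rwa [Nat.zero_add] at this
  rcases lt_trichotomy n n' with hlt | heq | hgt
  · exact absurd (by rw [← e, ← e]; have := h.per 0; rwa [Nat.zero_add] at this)
      (h'.min n h.pos hlt)
  · exact heq
  · exact absurd (by rw [e, e]; have := h'.per 0; rwa [Nat.zero_add] at this)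
      (h.min n' h'.pos hgt)

/-- Classes do not depend on the window. -/
theorem Rl.local (h3 : Three X) {d e : Dt} (h : Rl X Q c d e) (hd : InL X Q' c d) :
    Rl X Q' c d e := by
  obtain ⟨h1, h2, n, m, f, hf, hm, h0, hme, hdis⟩ := h
  obtain ⟨n', f', hf', h0'⟩ := hd
  have e : ∀ i, f i = f' i := fun i => by
    have := hf.det h3 hf' (k := 0) (h0.trans h0'.symm) i
    rwa [Nat.zero_add] at this
  refine ⟨h1, h2, n, m, f, ⟨hf.pos, fun i => ?_, hf.nx, hf.per, hf.min⟩, hm, h0, hme, hdis⟩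
  rw [e]; exact hf'.lf i

theorem Rl_iff_of_inL (h3 : Three X) {d e : Dt} (hd : InL X Q c d) (hd' : InL X Q' c d) :
    Rl X Q c d e ↔ Rl X Q' c d e :=
  ⟨fun h => h.local h3 hd', fun h => h.local h3 hd⟩

theorem Rl.inL_right (h3 : Three X) {d e : Dt} (h : Rl X Q c d e) : InL X Q c e := by
  obtain ⟨h1, h2, n, m, f, hf, hm, h0, hme, hdis⟩ := h
  exact ⟨n, _, hf.shift h3 m, by simpa using hme⟩

theorem InL.of_rl (h3 : Three X) {d e : Dt} (h : Rl X Q c d e) (he : InL X Q' c d) :
    InL X Q' c e := (h.local h3 he).inL_right h3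

theorem Rl.refl {d : Dt} (h : InL X Q c d) (hm : Mn c d) : Rl X Q c d d := by
  obtain ⟨n, f, hf, h0⟩ := h
  exact ⟨hm, hm, n, 0, f, hf, hf.pos, h0, h0, fun i j h1 h2 => by omega⟩

theorem Rl.symm (h3 : Three X) {d e : Dt} (h : Rl X Q c d e) : Rl X Q c e d := by
  obtain ⟨h1, h2, n, m, f, hf, hm, h0, hme, hdis⟩ := h
  rcases Nat.eq_zero_or_pos m with rfl | hm0
  · rw [h0] at hme; subst hme
    exact ⟨h1, h1, n, 0, f, hf, hm, h0, h0, hdis⟩
  · refine ⟨h2, h1, n, n - m, _, hf.shift h3 m, by omega, by simpa using hme, ?_, ?_⟩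
    · show f (n - m + m) = d
      rw [Nat.sub_add_cancel hm.le]
      have := hf.per 0
      rw [Nat.zero_add] at this
      rw [this, h0]
    · intro i j a1 a2 a3 a4
      show (f (i + m)).1 ≠ (f (j + m)).1
      have e : f (j + m) = f (j + m - n) := by
        rw [← hf.per (j + m - n)]; congr 1; omega
      rw [e]
      exact (hdis (j + m - n) (i + m) (by omega) (by omega) (by omega) (by omega)).symm

theorem Rl.trans (h3 : Three X) {d e g : Dt} (h : Rl X Q c d e) (h' : Rl X Q c e g) :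
    Rl X Q c d g := by
  obtain ⟨h1, h2, n, m, f, hf, hm, h0, hme, hdis⟩ := h
  obtain ⟨-, h2', n', m', f', hf', hm', h0', hme', hdis'⟩ := h'
  have hsh := hf.shift h3 m
  have hn : n = n' := hsh.per_eq h3 hf' (by simpa using hme.trans h0'.symm)
  subst hn
  have e : ∀ i, f (i + m) = f' i := fun i => by
    have := hsh.det h3 hf' (k := 0) (by simpa using hme.trans h0'.symm) i
    rwa [Nat.zero_add] at this
  have hg : f (m' + m) = g := by rw [e]; exact hme'
  have key : ∀ i j, 1 ≤ i → i ≤ m' → m' < j → j ≤ n → (f (i + m)).1 ≠ (f (j + m)).1 := by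
    intro i j a1 a2 a3 a4
    rw [e, e]
    exact hdis' i j a1 a2 a3 a4
  by_cases hlt : m' + m < n
  · refine ⟨h1, h2', n, m' + m, f, hf, hlt, h0, hg, ?_⟩
    intro i j a1 a2 a3 a4
    by_cases hi : i ≤ m
    · exact hdis i j a1 hi (by omega) a4
    · have := key (i - m) (j - m) (by omega) (by omega) (by omega) (by omega)
      rwa [Nat.sub_add_cancel (by omega), Nat.sub_add_cancel (by omega)] at this
  · refine ⟨h1, h2', n, m' + m - n, f, hf, by omega, h0, ?_, ?_⟩
    · rw [← hg, ← hf.per (m' + m - n)]; congr 1; omega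
    · intro i j a1 a2 a3 a4
      by_cases hj : j ≤ m
      · have := key (i + n - m) (j + n - m) (by omega) (by omega) (by omega) (by omega)
        rwa [Nat.sub_add_cancel (by omega), Nat.sub_add_cancel (by omega), hf.per, hf.per] at this
      · exact hdis i j a1 (by omega) (by omega) a4

/-- The darts of the class of `d`. -/
def cl (X Q : Set ℂ) (c : ℂ → Bool) (d : Dt) : Set Dt := {e | Rl X Q c d e}

theorem cl_finite (h3 : Three X) (d : Dt) : (cl X Q c d).Finite := by
  by_cases h : (cl X Q c d).Nonempty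
  · obtain ⟨e, h1, h2, n, m, f, hf, hm, h0, hme, hdis⟩ := h
    refine ((Set.finite_Iio n).image f).subset ?_
    rintro g ⟨-, -, n', m', f', hf', hm', h0', hme', -⟩
    have e1 : n = n' := hf.per_eq h3 hf' (h0.trans h0'.symm)
    have e2 := hf.det h3 hf' (k := 0) (h0.trans h0'.symm) m'
    rw [Nat.zero_add] at e2
    exact ⟨m', by rw [e1]; exact hm', e2.trans hme'⟩
  · rw [Set.not_nonempty_iff_eq_empty] at h
    rw [h]; exact Set.finite_empty

theorem cl_eq (h3 : Three X) {d e : Dt} (h : Rl X Q c d e) : cl X Q c d = cl X Q c e := by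
  ext g
  exact ⟨fun hg => (h.symm h3).trans h3 hg, fun hg => h.trans h3 hg⟩

/-- The value of the class of `d` on the weight `Θ`. -/
noncomputable def W (X Q : Set ℂ) (c : ℂ → Bool) (Θ : Dt → ℂ) (d : Dt) : ℂ :=
  ∑ᶠ e ∈ cl X Q c d, Θ e

/-- The energy of the class of `d`, per dart. -/
noncomputable def gg (X Q : Set ℂ) (c : ℂ → Bool) (Θ : Dt → ℂ) (d : Dt) : ℝ :=
  ‖W X Q c Θ d‖ ^ 2 / (cl X Q c d).ncard

/-- The energy of the local loops. -/
noncomputable def SQ (X Q : Set ℂ) (c : ℂ → Bool) (Θ : Dt → ℂ) : ℝ≥0∞ :=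
  ∑' d : Dt, ENNReal.ofReal (gg X Q c Θ d)

open Classical in
/-- The energy of the loops which are local in `Q` but in none of the `Q' i`. -/
noncomputable def MQ {ι : Type*} (X Q : Set ℂ) (Q' : ι → Set ℂ) (c : ℂ → Bool) (Θ : Dt → ℂ) :
    ℝ≥0∞ :=
  ∑' d : Dt, if ∃ i, InL X (Q' i) c d then 0 else ENNReal.ofReal (gg X Q c Θ d)

theorem cl_empty {d : Dt} (h : ¬ InL X Q c d) : cl X Q c d = ∅ := by
  ext e
  simp only [cl, mem_ofPred_eq, mem_empty_iff_false, iff_false]
  exact fun he => h he.inL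

theorem gg_zero (Θ : Dt → ℂ) {d : Dt} (h : ¬ InL X Q c d) : gg X Q c Θ d = 0 := by
  unfold gg
  rw [cl_empty h]
  simp

theorem gg_nonneg (Θ : Dt → ℂ) (d : Dt) : 0 ≤ gg X Q c Θ d := by
  unfold gg; positivity

theorem cl_local (h3 : Three X) {d : Dt} (h : InL X Q c d) (h' : InL X Q' c d) :
    cl X Q c d = cl X Q' c d := by
  ext e
  exact Rl_iff_of_inL h3 h h'

theorem gg_local (h3 : Three X) (Θ : Dt → ℂ) {d : Dt} (h : InL X Q c d) (h' : InL X Q' c d) :
    gg X Q c Θ d = gg X Q' c Θ d := by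
  unfold gg W
  rw [cl_local h3 h h']

/-- **Superadditivity**, with the remainder. -/
theorem SQ_eq {ι : Type*} (h3 : Three X) (Q' : ι → Set ℂ) (hQ : ∀ i, Q' i ⊆ Q)
    (hd : Pairwise fun i j => Disjoint (Q' i) (Q' j)) (Θ : Dt → ℂ) :
    SQ X Q c Θ = MQ X Q Q' c Θ + ∑' i, SQ X (Q' i) c Θ := by
  classical
  unfold SQ MQ
  rw [ENNReal.tsum_comm, ← ENNReal.tsum_add]
  refine tsum_congr fun d => ?_
  by_cases h : ∃ i, InL X (Q' i) c d
  · rw [if_pos h, zero_add]
    obtain ⟨i, hi⟩ := h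
    rw [tsum_eq_single i]
    · rw [gg_local h3 Θ (hi.mono (hQ i)) hi]
    · intro j hj
      rw [gg_zero, ENNReal.ofReal_zero]
      intro hj'
      have := hd hj
      exact Set.disjoint_left.1 this hj'.lf.mem.1 hi.lf.mem.1
  · rw [if_neg h]
    push Not at h
    have : ∀ i, ENNReal.ofReal (gg X (Q' i) c Θ d) = 0 := fun i => by
      rw [gg_zero Θ (h i), ENNReal.ofReal_zero]
    simp [this]

theorem gg_class (h3 : Three X) (Θ : Dt → ℂ) {d e : Dt} (h : Rl X Q c d e) :
    gg X Q c Θ e = gg X Q c Θ d := by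
  unfold gg W
  rw [cl_eq h3 h]

/-- **One class** is bounded by the remainder. -/
theorem class_le_MQ {ι : Type*} (h3 : Three X) (Q' : ι → Set ℂ) (Θ : Dt → ℂ) {d : Dt}
    (hd : ∀ i, ¬ InL X (Q' i) c d) :
    ENNReal.ofReal (‖W X Q c Θ d‖ ^ 2) ≤ MQ X Q Q' c Θ := by
  classical
  have hfin := cl_finite (Q := Q) (c := c) h3 d
  by_cases hne : (cl X Q c d).Nonempty
  · have hk : 0 < (cl X Q c d).ncard := (Set.ncard_pos hfin).2 hne
    calc ENNReal.ofReal (‖W X Q c Θ d‖ ^ 2)
        = ∑ e ∈ hfin.toFinset, ENNReal.ofReal (gg X Q c Θ e) := by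
          have : ∀ e ∈ hfin.toFinset, ENNReal.ofReal (gg X Q c Θ e) =
              ENNReal.ofReal (gg X Q c Θ d) := by
            intro e he
            rw [hfin.mem_toFinset] at he
            rw [gg_class h3 Θ he]
          rw [Finset.sum_congr rfl this, Finset.sum_const, ← Set.ncard_eq_toFinset_card _ hfin,
            nsmul_eq_mul, ← ENNReal.ofReal_natCast, ← ENNReal.ofReal_mul (Nat.cast_nonneg _)]
          congr 1
          unfold gg
          have : ((cl X Q c d).ncard : ℝ) ≠ 0 := by exact_mod_cast hk.ne'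
          field_simp
      _ = ∑ e ∈ hfin.toFinset, (if ∃ i, InL X (Q' i) c e then 0 else
            ENNReal.ofReal (gg X Q c Θ e)) := by
          refine Finset.sum_congr rfl fun e he => ?_
          rw [hfin.mem_toFinset] at he
          rw [if_neg]
          rintro ⟨i, hi⟩
          exact hd i (InL.of_rl h3 ((show Rl X Q c d e from he).symm h3) hi)
      _ ≤ MQ X Q Q' c Θ := ENNReal.sum_le_tsum _
  · rw [Set.not_nonempty_iff_eq_empty] at hne
    unfold W
    rw [hne]
    simp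

end Vale.Agent.P148.R2.H184
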