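import Vale.Agent.P148.R2.H184.L2

/-!
# Local loops in a finite sphere triangulation, energy bound (P148, module L1)
-/

open Set Metric Function ComplexConjugate
open scoped ENNReal

namespace Vale.Agent.P148.R2.H184

open H592

section abs

variable {V D : Type*} (T : H258.Tri V D)

open Classical in
/-- Number of darts in the class of `d`. -/
noncomputable def ncl [Fintype D] (σ : V → Bool) (d : D) : ℝ :=
  ∑ e, if T.Rel σ e d then (1 : ℝ) else 0

open Classical in
/-- The pair sum is a sum of squares. -/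
theorem pair_sum [Fintype D] (σ : V → Bool) (Θ : D → ℂ) :
    ∑ d, ∑ e, (if T.Rel σ d e then Θ d * conj (Θ e) else 0) =
      ((∑ d, ‖T.cls σ d Θ‖ ^ 2 / ncl T σ d : ℝ) : ℂ) := by
  set W : D → ℂ := fun d => T.cls σ d Θ with hW
  set n : D → ℝ := fun d => ncl T σ d with hn
  have hWc : ∀ d e, T.Rel σ d e → W d = W e := by
    intro d e hde
    simp only [hW, H258.Tri.cls]
    apply Finset.sum_congr rfl
    intro f _
    have : T.Rel σ f d ↔ T.Rel σ f e :=
      ⟨fun h => T.rel_trans h hde, fun h => T.rel_trans h (T.rel_symm hde)⟩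
    simp only [this]
  have hnc : ∀ d e, T.Rel σ d e → n d = n e := by
    intro d e hde
    simp only [hn, ncl]
    apply Finset.sum_congr rfl
    intro f _
    have : T.Rel σ f d ↔ T.Rel σ f e :=
      ⟨fun h => T.rel_trans h hde, fun h => T.rel_trans h (T.rel_symm hde)⟩
    simp only [this]
  have hnpos : ∀ d e, T.Rel σ d e → 0 < n d := by
    intro d e hde
    have h1 : T.Rel σ d d := T.rel_refl hde.1
    have : (1 : ℝ) ≤ n d := by
      simp only [hn, ncl]
      calc (1 : ℝ) = (if T.Rel σ d d then (1 : ℝ) else 0) := by rw [if_pos h1]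
        _ ≤ _ := Finset.single_le_sum (f := fun e => if T.Rel σ e d then (1 : ℝ) else 0)
            (fun e _ => by split_ifs <;> norm_num) (Finset.mem_univ d)
    linarith
  have a1 : ∀ d, ((‖W d‖ ^ 2 / n d : ℝ) : ℂ) =
      ∑ e, (if T.Rel σ e d then Θ e * conj (W e) / (n e : ℂ) else 0) := by
    intro d
    have : ((‖W d‖ ^ 2 : ℝ) : ℂ) = W d * conj (W d) := by
      rw [Complex.mul_conj, Complex.normSq_eq_norm_sq]
    rw [Complex.ofReal_div, this]
    have e1 : W d = ∑ e, if T.Rel σ e d then Θ e else 0 := rfl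
    conv_lhs => rw [show W d * conj (W d) / (n d : ℂ) = W d * (conj (W d) / (n d : ℂ)) by ring]
    conv_lhs => arg 1; rw [e1]
    rw [Finset.sum_mul]
    apply Finset.sum_congr rfl
    intro e _
    split_ifs with hh
    · rw [hWc e d hh, hnc e d hh]; ring
    · ring
  rw [Complex.ofReal_sum, Finset.sum_congr rfl (fun d _ => a1 d)]
  conv_rhs => rw [Finset.sum_comm]
  apply Finset.sum_congr rfl
  intro d _
  by_cases hd : T.Rel σ d d
  · have hnz : (n d : ℂ) ≠ 0 := by exact_mod_cast (hnpos d d hd).ne'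
    have b1 : ∑ e, (if T.Rel σ d e then Θ d * conj (W d) / (n d : ℂ) else 0) =
        (∑ e, if T.Rel σ e d then (1 : ℂ) else 0) * (Θ d * conj (W d) / (n d : ℂ)) := by
      rw [Finset.sum_mul]
      apply Finset.sum_congr rfl
      intro e _
      by_cases hh : T.Rel σ d e
      · simp [hh, T.rel_symm hh]
      · have : ¬ T.Rel σ e d := fun h => hh (T.rel_symm h)
        simp [hh, this]
    have b2 : (∑ e, if T.Rel σ e d then (1 : ℂ) else 0) = (n d : ℂ) := by
      simp only [hn, ncl]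
      push_cast
      apply Finset.sum_congr rfl
      intro e _
      split_ifs <;> simp
    rw [b1, b2, mul_div_assoc', mul_comm (n d : ℂ), mul_div_assoc, div_self hnz, mul_one]
    have : conj (W d) = ∑ e, if T.Rel σ d e then conj (Θ e) else 0 := by
      simp only [hW, H258.Tri.cls]
      rw [map_sum]
      apply Finset.sum_congr rfl
      intro e _
      by_cases hh : T.Rel σ d e
      · simp [hh, T.rel_symm hh]
      · have : ¬ T.Rel σ e d := fun h => hh (T.rel_symm h)
        simp [hh, this]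
    rw [this, Finset.mul_sum]
    apply Finset.sum_congr rfl
    intro e _
    split_ifs <;> simp
  · have : ∀ e, ¬ T.Rel σ d e := fun e h => hd (T.rel_refl h.1)
    simp [this]

theorem ncl_nonneg [Fintype D] (σ : V → Bool) (d : D) : 0 ≤ ncl T σ d := by
  classical
  exact Finset.sum_nonneg fun e _ => by split_ifs <;> norm_num

end abs

/-! ### The bridge -/

/-- The dart of the plane of a dart of the triangulation. -/
def dt {X : Set ℂ} {b : ZMod 3 → ℂ} (q : Fc X b × ZMod 3) : Dt := (tail q, head q, vc q.1 q.2)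

section bridge

variable {X : Set ℂ} {b : ZMod 3 → ℂ} (h : HullTri X b) {V : Type*} (π : ℂ → V) (hπ : Fib X π)

include h in
theorem dt_injective : Injective (dt (X := X) (b := b)) := by
  intro q r hqr
  exact h.th_inj (congrArg Prod.fst hqr) (congrArg (fun d : Dt => d.2.1) hqr)

theorem dt_next (q : Fc X b × ZMod 3) : dt (q.1, q.2 + 1) = rt (dt q) := by
  unfold dt rt
  rw [HullTri.tail_next, HullTri.head_next]
  rfl

include h in
theorem exists_dt {Q : Set ℂ} {d : Dt} (hd : LF X Q d) : ∃ q : Fc X b × ZMod 3, dt q = d := by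
  obtain ⟨q, h0, h1, h2⟩ := h.exists_face_of_Tl (Or.inl hd.face : Tl X b d.1 d.2.1 d.2.2)
  exact ⟨q, Prod.ext h0 (Prod.ext h1 h2)⟩

/-- The colours of the plane. -/
def pc (σ : V → Bool) (z : ℂ) : Bool := σ (π z)

theorem src_eq (q : Fc X b × ZMod 3) : (h.tri258 π hπ).src q = π (dt q).1 := rfl

theorem tgt_eq (q : Fc X b × ZMod 3) : (h.tri258 π hπ).tgt q = π (dt q).2.1 := by
  show π (tail (h.rv q)) = π (head q)
  rw [h.tail_rv]

theorem apex_eq (q : Fc X b × ZMod 3) : (h.tri258 π hπ).apex q = π (dt q).2.2 := by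
  show π (tail ((q.1, q.2 + 1 + 1) : Fc X b × ZMod 3)) = π (vc q.1 q.2)
  have : ((q.1, q.2 + 1 + 1) : Fc X b × ZMod 3) = (q.1, q.2 + 2) := by
    congr 1
    generalize q.2 = j
    revert j; decide
  rw [this, HullTri.tail_next2]

theorem bi_iff (σ : V → Bool) (q : Fc X b × ZMod 3) :
    (h.tri258 π hπ).Bi σ q ↔ pc π σ (dt q).1 ≠ pc π σ (dt q).2.1 := by
  unfold H258.Tri.Bi pc
  rw [src_eq, tgt_eq]

theorem mi_iff (σ : V → Bool) (q : Fc X b × ZMod 3) :
    (h.tri258 π hπ).Mi σ q ↔ Mn (pc π σ) (dt q) := by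
  unfold H258.Tri.Mi Mn pc
  rw [src_eq, tgt_eq, apex_eq]

theorem nx_st {σ : V → Bool} {q : Fc X b × ZMod 3} (hq : (h.tri258 π hπ).Bi σ q) :
    Nx (pc π σ) (dt q) (dt ((h.tri258 π hπ).st σ q)) := by
  have hb := (bi_iff h π hπ σ q).1 hq
  have e2 : ((q.1, q.2 + 1 + 1) : Fc X b × ZMod 3) = (q.1, q.2 + 2) := by
    congr 1
    generalize q.2 = j
    revert j; decide
  refine ⟨hb, ?_, ?_⟩
  · by_cases hm : (h.tri258 π hπ).Mi σ q
    · rw [(h.tri258 π hπ).st_mi hm]
      have hm' := (mi_iff h π hπ σ q).1 hm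
      rw [if_pos hm'.2]
      show tail (h.rv (q.1, q.2 + 1)) = vc q.1 q.2
      rw [h.tail_rv, HullTri.head_next]
    · rw [(h.tri258 π hπ).st_nmi hq hm]
      have hm' : ¬ pc π σ (dt q).2.2 = pc π σ (dt q).1 := fun hh =>
        hm ((mi_iff h π hπ σ q).2 ⟨hb, hh⟩)
      rw [if_neg hm']
      show tail (h.rv (q.1, q.2 + 1 + 1)) = tail q
      rw [h.tail_rv, e2, HullTri.head_next2]
  · by_cases hm : (h.tri258 π hπ).Mi σ q
    · rw [(h.tri258 π hπ).st_mi hm]
      have hm' := (mi_iff h π hπ σ q).1 hm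
      rw [if_pos hm'.2]
      show head (h.rv (q.1, q.2 + 1)) = head q
      rw [h.head_rv, HullTri.tail_next]
    · rw [(h.tri258 π hπ).st_nmi hq hm]
      have hm' : ¬ pc π σ (dt q).2.2 = pc π σ (dt q).1 := fun hh =>
        hm ((mi_iff h π hπ σ q).2 ⟨hb, hh⟩)
      rw [if_neg hm']
      show head (h.rv (q.1, q.2 + 1 + 1)) = vc q.1 q.2
      rw [h.head_rv, e2, HullTri.tail_next2]

variable {Q : Set ℂ}

/-- A local loop through `dt q` is the orbit of `q`. -/
theorem Lp.orbit {σ : V → Bool} {n : ℕ} {f : ℕ → Dt} (hf : Lp X Q (pc π σ) n f)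
    {q : Fc X b × ZMod 3} (h0 : f 0 = dt q) (i : ℕ) :
    f i = dt (((h.tri258 π hπ).st σ)^[i] q) := by
  have key : ∀ i, f i = dt (((h.tri258 π hπ).st σ)^[i] q) := by
    intro i
    induction i with
    | zero => exact h0
    | succ i ih =>
      set q' := ((h.tri258 π hπ).st σ)^[i] q with hq'
      have hn := hf.nx i
      have hb : (h.tri258 π hπ).Bi σ q' := by
        rw [bi_iff, ← ih]; exact hn.1
      have hs := nx_st h π hπ hb
      rw [iterate_succ', comp_apply, ← hq']
      rw [ih] at hn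
      set r := (h.tri258 π hπ).st σ q' with hr
      obtain ⟨s, hs'⟩ := exists_dt h (hf.lf (i + 1))
      rw [← hs'] at hn ⊢
      congr 1
      exact h.th_inj (hn.2.1.trans hs.2.1.symm) (hn.2.2.trans hs.2.2.symm)
  exact key i

theorem Lp.period [Finite V] {σ : V → Bool} {n : ℕ} {f : ℕ → Dt} (hf : Lp X Q (pc π σ) n f)
    {q : Fc X b × ZMod 3} (h0 : f 0 = dt q) :
    minimalPeriod ((h.tri258 π hπ).st σ) q = n := by
  have e : ∀ i, f i = dt (((h.tri258 π hπ).st σ)^[i] q) := hf.orbit h π hπ h0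
  have hinj := dt_injective h
  apply le_antisymm
  · apply IsPeriodicPt.minimalPeriod_le hf.pos
    have := hf.per 0
    rw [Nat.zero_add, e, e] at this
    exact hinj this
  · by_contra hlt
    push Not at hlt
    have hpos : 0 < minimalPeriod ((h.tri258 π hπ).st σ) q := by
      apply minimalPeriod_pos_of_mem_periodicPts
      refine ⟨n, hf.pos, ?_⟩
      have := hf.per 0
      rw [Nat.zero_add, e, e] at this
      exact hinj this
    refine hf.min _ hpos hlt ?_
    rw [e, e]
    congr 1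
    exact iterate_minimalPeriod

/-- Orbits with local faces are local loops. -/
theorem inL_of_orbit [Finite V] {σ : V → Bool} {q : Fc X b × ZMod 3}
    (hb : (h.tri258 π hπ).Bi σ q)
    (hl : ∀ i, LF X Q (dt (((h.tri258 π hπ).st σ)^[i] q))) :
    Lp X Q (pc π σ) (minimalPeriod ((h.tri258 π hπ).st σ) q)
      (fun i => dt (((h.tri258 π hπ).st σ)^[i] q)) := by
  have := h.finite_Fc
  have hinj := dt_injective h
  refine ⟨(h.tri258 π hπ).pos_period σ q, hl, fun i => ?_, fun i => ?_, fun k hk hkn he => ?_⟩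
  · have hb' : (h.tri258 π hπ).Bi σ (((h.tri258 π hπ).st σ)^[i] q) :=
      ((h.tri258 π hπ).bi_iter i).2 hb
    have := nx_st h π hπ hb'
    rw [iterate_succ', comp_apply]
    exact this
  · show dt _ = dt _
    rw [iterate_add_apply, iterate_minimalPeriod]
  · have := hinj he
    exact not_isPeriodicPt_of_pos_of_lt_minimalPeriod hk.ne' hkn this

theorem inL_iff [Finite V] {σ : V → Bool} {q : Fc X b × ZMod 3} :
    InL X Q (pc π σ) (dt q) ↔ (h.tri258 π hπ).Bi σ q ∧
      ∀ i, LF X Q (dt (((h.tri258 π hπ).st σ)^[i] q)) := by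
  constructor
  · rintro ⟨n, f, hf, h0⟩
    refine ⟨(bi_iff h π hπ σ q).2 (by rw [← h0]; exact (hf.nx 0).1), fun i => ?_⟩
    rw [← hf.orbit h π hπ h0 i]
    exact hf.lf i
  · rintro ⟨hb, hl⟩
    exact ⟨_, _, inL_of_orbit h π hπ hb hl, rfl⟩

/-- `π` does not glue the points of `Q`. -/
def Faith (X Q : Set ℂ) (π : ℂ → V) : Prop := ∀ x ∈ X, x ∈ Q → ∀ y ∈ X, π x = π y → x = y

/-- **The bridge.** -/
theorem rel_iff [Finite V] (hF : Faith X Q π) {σ : V → Bool} {q r : Fc X b × ZMod 3}
    (hq : InL X Q (pc π σ) (dt q)) :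
    (h.tri258 π hπ).Rel σ q r ↔ Rl X Q (pc π σ) (dt q) (dt r) := by
  have := h.finite_Fc
  have hinj := dt_injective h
  obtain ⟨hb, hl⟩ := (inL_iff h π hπ).1 hq
  have hsrc : ∀ i j, (h.tri258 π hπ).src (((h.tri258 π hπ).st σ)^[i] q) =
      (h.tri258 π hπ).src (((h.tri258 π hπ).st σ)^[j] q) ↔
      (dt (((h.tri258 π hπ).st σ)^[i] q)).1 = (dt (((h.tri258 π hπ).st σ)^[j] q)).1 := by
    intro i j
    rw [src_eq, src_eq]
    exact ⟨fun he => hF _ (hl i).1.1 (hl i).mem.1 _ (hl j).1.1 he, fun he => by rw [he]⟩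
  constructor
  · rintro ⟨h1, h2, m, hm, hmr, hdis⟩
    refine ⟨(mi_iff h π hπ σ q).1 h1, (mi_iff h π hπ σ r).1 h2, _, m, _,
      inL_of_orbit h π hπ hb hl, hm, rfl, by show dt _ = _; rw [hmr], ?_⟩
    intro i j a1 a2 a3 a4
    have := hdis i j a1 a2 a3 a4
    rwa [Ne, hsrc] at this
  · rintro ⟨h1, h2, n, m, f, hf, hm, h0, hmr, hdis⟩
    have hper := hf.period h π hπ h0
    have e : ∀ i, f i = dt (((h.tri258 π hπ).st σ)^[i] q) := hf.orbit h π hπ h0
    refine ⟨(mi_iff h π hπ σ q).2 h1, (mi_iff h π hπ σ r).2 h2, m, by rw [hper]; exact hm, ?_, ?_⟩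
    · apply hinj; rw [← e, hmr]
    · intro i j a1 a2 a3 a4
      rw [hper] at a4
      have := hdis i j a1 a2 a3 a4
      rw [e, e] at this
      rw [Ne, hsrc]; exact this

end bridge

end Vale.Agent.P148.R2.H184
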