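import Vale.Agent.P148.R2.H184.L3

/-!
# The energy bound for local loops (P148, module L1)
-/

open Set Metric Function ComplexConjugate
open scoped ENNReal

namespace Vale.Agent.P148.R2.H184

open H592

open Classical in
/-- The white noise energy of the local faces. -/
noncomputable def EQ (X Q : Set ℂ) (Θ : Dt → ℂ) : ℝ≥0∞ :=
  ∑' d : Dt, if LF X Q d then ENNReal.ofReal (‖Θ d‖ ^ 2) else 0

section energy

variable {X : Set ℂ} {b : ZMod 3 → ℂ} (h : HullTri X b) {V : Type*} (π : ℂ → V) (hπ : Fib X π)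

open Classical in
/-- The weight restricted to the local faces. -/
noncomputable def thQ (b : ZMod 3 → ℂ) (X Q : Set ℂ) (Θ : Dt → ℂ) (q : Fc X b × ZMod 3) : ℂ :=
  if LF X Q (dt q) then Θ (dt q) else 0

variable {Q : Set ℂ}

include h in
theorem cl_eq_image [Finite V] (hF : Faith X Q π) {σ : V → Bool} {q : Fc X b × ZMod 3}
    (hq : InL X Q (pc π σ) (dt q)) :
    cl X Q (pc π σ) (dt q) = dt '' {e | (h.tri258 π hπ).Rel σ e q} := by
  have := h.finite_Fc
  ext e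
  constructor
  · intro he
    have h3 := h.three
    have hl : LF X Q e := (Rl.inL_right h3 he).lf
    obtain ⟨r, rfl⟩ := exists_dt h hl
    refine ⟨r, ?_, rfl⟩
    exact (h.tri258 π hπ).rel_symm ((rel_iff h π hπ hF hq).2 he)
  · rintro ⟨r, hr, rfl⟩
    exact (rel_iff h π hπ hF hq).1 ((h.tri258 π hπ).rel_symm hr)

theorem cls_eq [Fintype (Fc X b × ZMod 3)] [Finite V] (hF : Faith X Q π) (Θ : Dt → ℂ)
    {σ : V → Bool} {q : Fc X b × ZMod 3} (hq : InL X Q (pc π σ) (dt q)) :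
    (h.tri258 π hπ).cls σ q (thQ b X Q Θ) = W X Q (pc π σ) Θ (dt q) := by
  classical
  unfold W
  rw [cl_eq_image h π hπ hF hq, finsum_mem_image (dt_injective h).injOn,
    finsum_eq_sum_of_fintype]
  unfold H258.Tri.cls
  refine Finset.sum_congr rfl fun e _ => ?_
  rw [finsum_eq_if]
  by_cases he : (h.tri258 π hπ).Rel σ e q
  · rw [if_pos he, if_pos (show e ∈ {e | (h.tri258 π hπ).Rel σ e q} from he)]
    have h1 : Rl X Q (pc π σ) (dt q) (dt e) :=
      (rel_iff h π hπ hF hq).1 ((h.tri258 π hπ).rel_symm he)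
    unfold thQ
    rw [if_pos (h1.inL_right h.three).lf]
  · rw [if_neg he, if_neg (show e ∉ {e | (h.tri258 π hπ).Rel σ e q} from he)]

theorem ncl_eq [Fintype (Fc X b × ZMod 3)] [Finite V] (hF : Faith X Q π)
    {σ : V → Bool} {q : Fc X b × ZMod 3} (hq : InL X Q (pc π σ) (dt q)) :
    ncl (h.tri258 π hπ) σ q = (cl X Q (pc π σ) (dt q)).ncard := by
  classical
  rw [cl_eq_image h π hπ hF hq, Set.ncard_image_of_injective _ (dt_injective h)]
  unfold ncl
  rw [Finset.sum_boole, ← Set.ncard_coe_finset]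
  congr 2
  ext e
  simp

/-- Sums over local darts are sums over the darts of the triangulation. -/
theorem tsum_dt [Fintype (Fc X b × ZMod 3)] (h : HullTri X b) {F : Dt → ℝ≥0∞}
    (hF : ∀ d, F d ≠ 0 → LF X Q d) : ∑' d, F d = ∑ q : Fc X b × ZMod 3, F (dt q) := by
  have hsup : Function.support F ⊆ Set.range (dt (X := X) (b := b)) := by
    intro d hd
    obtain ⟨q, hq⟩ := exists_dt h (hF d hd)
    exact ⟨q, hq⟩
  rw [← tsum_fintype (L := SummationFilter.unconditional _) (fun q => F (dt q)),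
    (dt_injective h).tsum_eq hsup]

theorem SQ_le [Fintype (Fc X b × ZMod 3)] [Finite V] (hF : Faith X Q π) (Θ : Dt → ℂ)
    (σ : V → Bool) : SQ X Q (pc π σ) Θ ≤ ENNReal.ofReal
      (∑ q, ‖(h.tri258 π hπ).cls σ q (thQ b X Q Θ)‖ ^ 2 / ncl (h.tri258 π hπ) σ q) := by
  classical
  have hnn : ∀ q, 0 ≤ ‖(h.tri258 π hπ).cls σ q (thQ b X Q Θ)‖ ^ 2 / ncl (h.tri258 π hπ) σ q :=
    fun q => div_nonneg (by positivity) (ncl_nonneg _ _ _)
  unfold SQ
  rw [tsum_dt (Q := Q) h, ENNReal.ofReal_sum_of_nonneg (fun q _ => hnn q)]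
  · refine Finset.sum_le_sum fun q _ => ?_
    by_cases hq : InL X Q (pc π σ) (dt q)
    · unfold gg
      rw [cls_eq h π hπ hF Θ hq, ncl_eq h π hπ hF hq]
    · rw [gg_zero Θ hq, ENNReal.ofReal_zero]
      exact zero_le
  · intro d hd
    by_contra hl
    apply hd
    rw [gg_zero Θ (fun hin => hl hin.lf), ENNReal.ofReal_zero]

include h hπ in
open Classical in
/-- **The energy bound**: average over all colourings. -/
theorem sum_SQ_le [Fintype V] (hF : Faith X Q π) {τ : ℂ} (hτ : τ ^ 2 + τ + 1 = 0)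
    {Θ : Dt → ℂ} (hΘ : ∀ d, Θ (rt d) = τ ^ 2 * Θ d) :
    4 * ∑ σ : V → Bool, SQ X Q (pc π σ) Θ ≤ 2 ^ Fintype.card V * EQ X Q Θ := by
  classical
  have := h.finite_Fc
  have : Fintype (Fc X b × ZMod 3) := Fintype.ofFinite _
  have hP := h.planar258 π hπ
  have hrot : ∀ q, thQ b X Q Θ ((h.tri258 π hπ).nxt q) = τ ^ 2 * thQ b X Q Θ q := by
    intro q
    show thQ b X Q Θ (q.1, q.2 + 1) = _
    unfold thQ
    rw [dt_next]
    simp only [LF_rt, hΘ]
    split_ifs <;> simp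
  have hg : ∀ q, ¬ (h.tri258 π hπ).Good q → thQ b X Q Θ q = 0 := by
    intro q hq
    unfold thQ
    rw [if_neg]
    intro hl
    apply hq
    obtain ⟨m1, m2, m3⟩ := hl.mem
    obtain ⟨n1, n2, n3⟩ := hl.ne
    refine ⟨?_, ?_, ?_⟩
    · rw [src_eq, tgt_eq]
      exact fun he => n1 (hF _ hl.1.1 m1 _ hl.1.2.1 he)
    · rw [tgt_eq, apex_eq]
      exact fun he => n2 (hF _ hl.1.2.1 m2 _ hl.1.2.2 he)
    · rw [apex_eq, src_eq]
      exact fun he => n3 (hF _ hl.1.2.2 m3 _ hl.1.1 he)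
  have en := (h.tri258 π hπ).energy hP hτ hrot hrot hg
  have hnn : ∀ σ, 0 ≤ ∑ q, ‖(h.tri258 π hπ).cls σ q (thQ b X Q Θ)‖ ^ 2 /
      ncl (h.tri258 π hπ) σ q :=
    fun σ => Finset.sum_nonneg fun q _ => div_nonneg (by positivity) (ncl_nonneg _ _ _)
  have key : (4 : ℝ) * ∑ σ : V → Bool, ∑ q, ‖(h.tri258 π hπ).cls σ q (thQ b X Q Θ)‖ ^ 2 /
      ncl (h.tri258 π hπ) σ q = 2 ^ Fintype.card V * ∑ q, ‖thQ b X Q Θ q‖ ^ 2 := by
    have e1 : ∀ σ : V → Bool, (∑ d, ∑ e, (if (h.tri258 π hπ).Rel σ d e then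
        thQ b X Q Θ d * conj (thQ b X Q Θ e) else 0)) =
        ((∑ q, ‖(h.tri258 π hπ).cls σ q (thQ b X Q Θ)‖ ^ 2 / ncl (h.tri258 π hπ) σ q : ℝ) : ℂ) :=
      fun σ => pair_sum _ σ _
    have e2 : ∀ q, thQ b X Q Θ q * conj (thQ b X Q Θ q) = ((‖thQ b X Q Θ q‖ ^ 2 : ℝ) : ℂ) := by
      intro q
      rw [Complex.mul_conj, Complex.normSq_eq_norm_sq]
    rw [Finset.sum_congr rfl (fun σ _ => e1 σ), Finset.sum_congr rfl (fun q _ => e2 q)] at en
    exact_mod_cast en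
  calc 4 * ∑ σ : V → Bool, SQ X Q (pc π σ) Θ
      ≤ 4 * ∑ σ : V → Bool, ENNReal.ofReal (∑ q, ‖(h.tri258 π hπ).cls σ q (thQ b X Q Θ)‖ ^ 2 /
          ncl (h.tri258 π hπ) σ q) := by
        gcongr with σ
        exact SQ_le h π hπ hF Θ σ
    _ = ENNReal.ofReal (4 * ∑ σ : V → Bool, ∑ q, ‖(h.tri258 π hπ).cls σ q (thQ b X Q Θ)‖ ^ 2 /
          ncl (h.tri258 π hπ) σ q) := by
        rw [ENNReal.ofReal_mul (by norm_num), ENNReal.ofReal_sum_of_nonneg (fun σ _ => hnn σ)]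
        norm_num
    _ = 2 ^ Fintype.card V * ∑ q : Fc X b × ZMod 3, ENNReal.ofReal (‖thQ b X Q Θ q‖ ^ 2) := by
        rw [key, ENNReal.ofReal_mul (by positivity),
          ENNReal.ofReal_sum_of_nonneg (fun q _ => by positivity), ENNReal.ofReal_pow (by norm_num)]
        norm_num
    _ = 2 ^ Fintype.card V * EQ X Q Θ := by
        congr 1
        unfold EQ
        rw [tsum_dt (Q := Q) h]
        · refine Finset.sum_congr rfl fun q _ => ?_
          unfold thQ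
          split_ifs <;> simp
        · intro d hd
          by_contra hl
          rw [if_neg hl] at hd
          exact hd rfl

end energy

end Vale.Agent.P148.R2.H184
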