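import Vale.Agent.P148.R2.H184.L4

/-!
# Transport of local loops; locality (P148, module L1)
-/

open Set Metric Function
open scoped ENNReal

namespace Vale.Agent.P148.R2.H184

open H592

/-- The induced map of darts. -/
def mp (φ : ℂ → ℂ) (d : Dt) : Dt := (φ d.1, φ d.2.1, φ d.2.2)

/-- `φ` and `ψ` exchange the local faces of `X` in `Q` and of `X'` in `Q'`, with colours. -/
structure Tr (φ ψ : ℂ → ℂ) (X Q X' Q' : Set ℂ) (c c' : ℂ → Bool) : Prop where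
  lf : ∀ d, LF X Q d → LF X' Q' (mp φ d)
  lf' : ∀ d, LF X' Q' d → LF X Q (mp ψ d)
  l : ∀ x ∈ X ∩ Q, ψ (φ x) = x
  r : ∀ x ∈ X' ∩ Q', φ (ψ x) = x
  col : ∀ x ∈ X ∩ Q, c' (φ x) = c x
  col' : ∀ x ∈ X' ∩ Q', c (ψ x) = c' x

variable {φ ψ : ℂ → ℂ} {X Q X' Q' : Set ℂ} {c c' : ℂ → Bool}

theorem Tr.symm (h : Tr φ ψ X Q X' Q' c c') : Tr ψ φ X' Q' X Q c' c :=
  ⟨h.lf', h.lf, h.r, h.l, h.col', h.col⟩

theorem LF.mem' {d : Dt} (h : LF X Q d) : d.1 ∈ X ∩ Q ∧ d.2.1 ∈ X ∩ Q ∧ d.2.2 ∈ X ∩ Q :=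
  ⟨⟨h.1.1, h.mem.1⟩, ⟨h.1.2.1, h.mem.2.1⟩, ⟨h.1.2.2, h.mem.2.2⟩⟩

theorem Tr.mp_mp (h : Tr φ ψ X Q X' Q' c c') {d : Dt} (hd : LF X Q d) : mp ψ (mp φ d) = d :=
  Prod.ext (h.l _ hd.mem'.1) (Prod.ext (h.l _ hd.mem'.2.1) (h.l _ hd.mem'.2.2))

theorem Tr.mp_inj (h : Tr φ ψ X Q X' Q' c c') {d e : Dt} (hd : LF X Q d) (he : LF X Q e)
    (hde : mp φ d = mp φ e) : d = e := by
  rw [← h.mp_mp hd, ← h.mp_mp he, hde]

theorem Tr.nx (h : Tr φ ψ X Q X' Q' c c') {d d' : Dt} (hd : LF X Q d) (hn : Nx c d d') :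
    Nx c' (mp φ d) (mp φ d') := by
  obtain ⟨h1, h2, h3⟩ := hn
  obtain ⟨m1, m2, m3⟩ := hd.mem'
  refine ⟨?_, ?_, ?_⟩
  · show c' (φ d.1) ≠ c' (φ d.2.1)
    rw [h.col _ m1, h.col _ m2]; exact h1
  · show φ d'.1 = if c' (φ d.2.2) = c' (φ d.1) then φ d.2.2 else φ d.1
    rw [h.col _ m1, h.col _ m3, h2]
    split_ifs <;> rfl
  · show φ d'.2.1 = if c' (φ d.2.2) = c' (φ d.1) then φ d.2.1 else φ d.2.2
    rw [h.col _ m1, h.col _ m3, h3]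
    split_ifs <;> rfl

theorem Tr.mn (h : Tr φ ψ X Q X' Q' c c') {d : Dt} (hd : LF X Q d) (hn : Mn c d) :
    Mn c' (mp φ d) := by
  obtain ⟨m1, m2, m3⟩ := hd.mem'
  refine ⟨?_, ?_⟩
  · show c' (φ d.1) ≠ c' (φ d.2.1)
    rw [h.col _ m1, h.col _ m2]; exact hn.1
  · show c' (φ d.2.2) = c' (φ d.1)
    rw [h.col _ m1, h.col _ m3]; exact hn.2

theorem Tr.lp (h : Tr φ ψ X Q X' Q' c c') {n : ℕ} {f : ℕ → Dt} (hf : Lp X Q c n f) :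
    Lp X' Q' c' n fun i => mp φ (f i) :=
  ⟨hf.pos, fun i => h.lf _ (hf.lf i), fun i => h.nx (hf.lf i) (hf.nx i),
    fun i => by show mp φ _ = mp φ _; rw [hf.per],
    fun k hk hkn he => hf.min k hk hkn (h.mp_inj (hf.lf _) (hf.lf _) he)⟩

theorem Tr.inL (h : Tr φ ψ X Q X' Q' c c') {d : Dt} (hd : InL X Q c d) :
    InL X' Q' c' (mp φ d) := by
  obtain ⟨n, f, hf, h0⟩ := hd
  exact ⟨n, _, h.lp hf, by show mp φ _ = _; rw [h0]⟩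

theorem Tr.rl (h : Tr φ ψ X Q X' Q' c c') {d e : Dt} (hd : Rl X Q c d e) :
    Rl X' Q' c' (mp φ d) (mp φ e) := by
  obtain ⟨h1, h2, n, m, f, hf, hm, h0, hme, hdis⟩ := hd
  refine ⟨h.mn (by rw [← h0]; exact hf.lf 0) h1, h.mn (by rw [← hme]; exact hf.lf m) h2, n, m, _,
    h.lp hf, hm, by show mp φ _ = _; rw [h0], by show mp φ _ = _; rw [hme], ?_⟩
  intro i j a1 a2 a3 a4 he
  apply hdis i j a1 a2 a3 a4
  have he' : φ (f i).1 = φ (f j).1 := he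
  rw [← h.l _ (hf.lf i).mem'.1, ← h.l _ (hf.lf j).mem'.1, he']

theorem cl_lf {d e : Dt} (he : e ∈ cl X Q c d) : LF X Q e := by
  obtain ⟨-, -, n, m, f, hf, -, -, hme, -⟩ := he
  rw [← hme]
  exact hf.lf m

theorem Tr.cl_image (h : Tr φ ψ X Q X' Q' c c') {d : Dt} (hd : LF X Q d) :
    cl X' Q' c' (mp φ d) = mp φ '' cl X Q c d := by
  ext e
  constructor
  · intro he
    have h1 : Rl X Q c (mp ψ (mp φ d)) (mp ψ e) := h.symm.rl he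
    rw [h.mp_mp hd] at h1
    exact ⟨_, h1, h.symm.mp_mp (cl_lf he)⟩
  · rintro ⟨g, hg, rfl⟩
    exact h.rl hg

theorem Tr.gg_eq (h : Tr φ ψ X Q X' Q' c c') (Θ : Dt → ℂ) {d : Dt}
    (hd : LF X Q d) : gg X' Q' c' Θ (mp φ d) = gg X Q c (fun e => Θ (mp φ e)) d := by
  have hinj : InjOn (mp φ) (cl X Q c d) := fun a ha b hb hab =>
    h.mp_inj (cl_lf ha) (cl_lf hb) hab
  unfold gg W
  rw [h.cl_image hd, finsum_mem_image hinj, hinj.ncard_image]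

theorem gg_ne_zero {Θ : Dt → ℂ} {d : Dt} (hd : ENNReal.ofReal (gg X Q c Θ d) ≠ 0) : InL X Q c d := by
  by_contra h
  rw [gg_zero Θ h, ENNReal.ofReal_zero] at hd
  exact hd rfl

/-- **Transport** of the energy. -/
theorem Tr.SQ_eq (h : Tr φ ψ X Q X' Q' c c') (Θ : Dt → ℂ) :
    SQ X' Q' c' Θ = SQ X Q c (fun e => Θ (mp φ e)) := by
  unfold SQ
  refine tsum_eq_tsum_of_ne_zero_bij
    (g := fun d => ENNReal.ofReal (gg X Q c (fun e => Θ (mp φ e)) d))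
    (fun d => mp φ d.1) ?_ ?_ ?_
  · rintro ⟨d, hd⟩ ⟨e, he⟩ hde
    exact Subtype.ext (h.mp_inj (gg_ne_zero hd).lf (gg_ne_zero he).lf hde)
  · intro d hd
    have hl := (gg_ne_zero hd).lf
    have hl' := h.lf' _ hl
    have e1 : mp φ (mp ψ d) = d := h.symm.mp_mp hl
    refine ⟨⟨mp ψ d, ?_⟩, e1⟩
    rw [mem_support, ← h.gg_eq Θ hl', e1]
    exact hd
  · rintro ⟨d, hd⟩
    show ENNReal.ofReal _ = ENNReal.ofReal _
    rw [h.gg_eq Θ (gg_ne_zero hd).lf]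

theorem Tr.EQ_eq (h : Tr φ ψ X Q X' Q' c c') (Θ : Dt → ℂ) :
    EQ X' Q' Θ = EQ X Q (fun e => Θ (mp φ e)) := by
  classical
  unfold EQ
  have key : ∀ {Y R : Set ℂ} {Ψ : Dt → ℂ} {d : Dt},
      (if LF Y R d then ENNReal.ofReal (‖Ψ d‖ ^ 2) else 0) ≠ 0 → LF Y R d := by
    intro Y R Ψ d hd
    by_contra hl
    rw [if_neg hl] at hd
    exact hd rfl
  refine tsum_eq_tsum_of_ne_zero_bij
    (g := fun d => if LF X Q d then ENNReal.ofReal (‖Θ (mp φ d)‖ ^ 2) else 0)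
    (fun d => mp φ d.1) ?_ ?_ ?_
  · rintro ⟨d, hd⟩ ⟨e, he⟩ hde
    exact Subtype.ext (h.mp_inj (key (Ψ := fun d => Θ (mp φ d)) hd)
      (key (Ψ := fun d => Θ (mp φ d)) he) hde)
  · intro d hd
    have hl : LF X' Q' d := key (Ψ := Θ) hd
    have hl' := h.lf' _ hl
    have e1 : mp φ (mp ψ d) = d := h.symm.mp_mp hl
    refine ⟨⟨mp ψ d, ?_⟩, e1⟩
    rw [mem_support, if_pos hl', e1]
    rw [mem_support, if_pos hl] at hd
    exact hd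
  · rintro ⟨d, hd⟩
    have hl : LF X Q d := key (Ψ := fun d => Θ (mp φ d)) hd
    show (if LF X' Q' (mp φ d) then ENNReal.ofReal (‖Θ (mp φ d)‖ ^ 2) else 0) = _
    rw [if_pos hl, if_pos (h.lf _ hl)]

/-- **Locality.** -/
theorem Tr.local (hX : X ∩ Q = X' ∩ Q) (hc : ∀ x ∈ X ∩ Q, c x = c' x) :
    Tr id id X Q X' Q c c' where
  lf _ hd := hd.congr hX
  lf' _ hd := hd.congr hX.symm
  l _ _ := rfl
  r _ _ := rfl
  col x hx := (hc x hx).symm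
  col' x hx := hc x (hX ▸ hx)

theorem mp_id (d : Dt) : mp id d = d := rfl

theorem SQ_congr (hX : X ∩ Q = X' ∩ Q)
    (hc : ∀ x ∈ X ∩ Q, c x = c' x) (Θ : Dt → ℂ) : SQ X Q c Θ = SQ X' Q c' Θ :=
  ((Tr.local hX hc).SQ_eq Θ).symm

theorem EQ_congr (hX : X ∩ Q = X' ∩ Q) (Θ : Dt → ℂ) : EQ X Q Θ = EQ X' Q Θ :=
  ((Tr.local (c := fun _ => true) (c' := fun _ => true) hX fun _ _ => rfl).EQ_eq Θ).symm

end Vale.Agent.P148.R2.H184
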