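import Vale.Agent.P148.R2.H184.L6
import Vale.Agent.P148.R2.H592.Gen2
import Vale.Agent.P148.R2.H592.Contr
import Vale.Agent.P148.R2.H729.Q9

/-!
# The mean energy of the local loops (P148, module L1)
-/

open MeasureTheory Set Metric Topology Filter ProbabilityTheory
open scoped ENNReal NNReal

namespace Vale.Agent.P148.R2.H184

open H592 _root_.P148 _root_.P148.H729

theorem bfar_notMem {ρ : ℝ} (hρ : 0 < ρ) {Q : Set ℂ} (hQ : Q ⊆ ball 0 (ρ / 2)) (j : ZMod 3) :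
    bfar ρ j ∉ Q := by
  intro h
  have h1 : ‖bfar ρ j‖ < ρ / 2 := by simpa using hQ h
  have := bfar_inside hρ h1 j
  have e : cr (bfar ρ j) (bfar ρ (j + 1)) (bfar ρ j) = 0 := by unfold cr; ring
  rw [e] at this
  exact lt_irrefl _ this

theorem XU_inter {ρ : ℝ} (hρ : 0 < ρ) {Q : Set ℂ} (hQ : Q ⊆ ball 0 (ρ / 2)) (T : Set Pt) :
    XU T Q (bfar ρ) ∩ Q = pts T ∩ Q := by
  ext z
  constructor
  · rintro ⟨hz | ⟨j, rfl⟩, hzQ⟩
    · exact hz
    · exact absurd hzQ (bfar_notMem hρ hQ j)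
  · rintro ⟨h1, h2⟩
    exact ⟨Or.inl ⟨h1, h2⟩, h2⟩

open Classical in
theorem sum_subtype_pow {V : Type*} [Fintype V] (p : V → Prop)
    (G : ({v // p v} → Bool) → ℝ≥0∞) :
    (2 ^ Fintype.card {v // p v})⁻¹ * ∑ c : {v // p v} → Bool, G c =
      (2 ^ Fintype.card V)⁻¹ * ∑ σ : V → Bool, G (fun i => σ i.1) := by
  have h1 : ∑ σ : V → Bool, G (fun i => σ i.1) =
      ∑ q : ({v // p v} → Bool) × ({v // ¬ p v} → Bool), G q.1 :=
    Fintype.sum_equiv (Equiv.piEquivPiSubtypeProd p fun _ => Bool) _ _ fun σ => rfl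
  have h2 : ∑ q : ({v // p v} → Bool) × ({v // ¬ p v} → Bool), G q.1 =
      2 ^ Fintype.card {v // ¬ p v} * ∑ c : {v // p v} → Bool, G c := by
    rw [Fintype.sum_prod_type, Finset.mul_sum]
    refine Finset.sum_congr rfl fun c _ => ?_
    show ∑ _y : ({v // ¬ p v} → Bool), G c = _
    rw [Finset.sum_const, Finset.card_univ, Fintype.card_fun, Fintype.card_bool, nsmul_eq_mul]
    push_cast
    rfl
  have h3 : Fintype.card V = Fintype.card {v // p v} + Fintype.card {v // ¬ p v} := by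
    rw [Fintype.card_subtype_compl]
    have := Fintype.card_subtype_le p
    omega
  rw [h1, h2, h3, pow_add, ENNReal.mul_inv (by simp) (by simp), mul_assoc, ← mul_assoc _ (2 ^ _) _,
    ENNReal.inv_mul_cancel (by simp) (by simp), one_mul]

theorem arith {a E : ℝ≥0∞} {n : ℕ} (h : 4 * a ≤ 2 ^ n * E) : (2 ^ n)⁻¹ * a ≤ 4⁻¹ * E := by
  have h4 : (4 : ℝ≥0∞) ≠ 0 := by norm_num
  have h4' : (4 : ℝ≥0∞) ≠ ⊤ := by norm_num
  have h2 : (2 : ℝ≥0∞) ^ n ≠ 0 := by simp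
  have h2' : (2 : ℝ≥0∞) ^ n ≠ ⊤ := by simp
  calc (2 ^ n)⁻¹ * a = 4⁻¹ * ((2 ^ n)⁻¹ * (4 * a)) := by
        rw [mul_left_comm _ (4 : ℝ≥0∞), ← mul_assoc (4⁻¹ : ℝ≥0∞) 4, ENNReal.inv_mul_cancel h4 h4',
          one_mul]
    _ ≤ 4⁻¹ * ((2 ^ n)⁻¹ * (2 ^ n * E)) := by gcongr
    _ = 4⁻¹ * E := by
        rw [← mul_assoc ((2 ^ n)⁻¹ : ℝ≥0∞), ENNReal.inv_mul_cancel h2 h2', one_mul]

section
variable {Ω : Type*} [MeasurableSpace Ω] {P : Measure Ω} {S : Ω → Set Pt} {lam : ℝ≥0}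

/-- Quenched form: average over the colours in `Q`. -/
theorem avg_SC_le {T : Set Pt} {ρ : ℝ} (hT : Generic T (bfar ρ)) (hρ : 0 < ρ)
    {Q : Set ℂ} (hQ : Q ⊆ ball 0 (ρ / 2)) {τ : ℂ} (hτ : τ ^ 2 + τ + 1 = 0)
    {Θ : Dt → ℂ} (hΘ : ∀ d, Θ (rt d) = τ ^ 2 * Θ d) :
    ∃ (I : Type) (_ : Fintype I) (_ : DecidableEq I) (e : I → ℂ),
      Function.Injective e ∧ range e = pts T ∩ Q ∧
      (2 ^ Fintype.card I)⁻¹ * ∑ c : I → Bool, SC Q Θ (paint T Q e c) ≤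
        4⁻¹ * EQ (pts T) Q Θ := by
  classical
  have hH := hT.hullTri_ball hρ hQ
  set X := XU T Q (bfar ρ) with hX
  have hXQ : X ∩ Q = pts T ∩ Q := XU_inter hρ hQ T
  have hfinX : Finite X := hH.fin.to_subtype
  have : Fintype X := Fintype.ofFinite X
  let x₀ : X := ⟨bfar ρ 0, hH.mem 0⟩
  have hπ := fib_id X x₀
  have hidm : ∀ x (hx : x ∈ X), idmap X x₀ x = ⟨x, hx⟩ := by
    intro x hx
    unfold idmap
    rw [dif_pos hx]
  have hF : Faith X Q (idmap X x₀) := by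
    intro x hx hxQ y hy hxy
    rw [hidm x hx, hidm y hy] at hxy
    exact congrArg Subtype.val hxy
  have key := sum_SQ_le hH (idmap X x₀) hπ hF hτ hΘ
  have he : Function.Injective fun i : {v : X // (v : ℂ) ∈ Q} => (i.1 : ℂ) :=
    fun i j hij => Subtype.ext (Subtype.ext hij)
  have hr : range (fun i : {v : X // (v : ℂ) ∈ Q} => (i.1 : ℂ)) = pts T ∩ Q := by
    rw [← hXQ]
    ext z
    constructor
    · rintro ⟨i, rfl⟩
      exact ⟨i.1.2, i.2⟩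
    · rintro ⟨h1, h2⟩
      exact ⟨⟨⟨z, h1⟩, h2⟩, rfl⟩
  refine ⟨{v : X // (v : ℂ) ∈ Q}, inferInstance, inferInstance, fun i => (i.1 : ℂ), he, hr, ?_⟩
  refine le_of_eq_of_le (b := (2 ^ Fintype.card X)⁻¹ * ∑ σ : X → Bool,
    SC Q Θ (paint T Q (fun i : {v : X // (v : ℂ) ∈ Q} => (i.1 : ℂ)) fun i => σ i.1)) ?_ ?_
  · refine Eq.trans ?_ (Eq.trans (sum_subtype_pow (fun v : X => (v : ℂ) ∈ Q)
      (fun c => SC Q Θ (paint T Q (fun i : {v : X // (v : ℂ) ∈ Q} => (i.1 : ℂ)) c))) ?_)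
    all_goals (congr; exact Subsingleton.elim _ _)
  have h1 : ∀ σ : X → Bool, SC Q Θ (paint T Q (fun i : {v : X // (v : ℂ) ∈ Q} => (i.1 : ℂ))
      fun i => σ i.1) = SQ X Q (pc (idmap X x₀) σ) Θ := by
    intro σ
    rw [SC_eq]
    · unfold SG
      rw [pts_paint _ hr]
      refine SQ_congr hXQ.symm ?_ Θ
      intro x hx
      have hx' : x ∈ X ∩ Q := by rw [hXQ]; exact hx
      unfold pc col
      rw [hidm x hx'.1]
      rw [Bool.eq_iff_iff, decide_eq_true_eq, mem_paint_of_mem _ (q := (x, true)) hx.2]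
      constructor
      · rintro ⟨i, hi1, hi2⟩
        have : i.1 = ⟨x, hx'.1⟩ := Subtype.ext hi1
        rw [← this]; exact hi2
      · intro h
        exact ⟨⟨⟨x, hx'.1⟩, hx'.2⟩, rfl, h⟩
    · refine (finite_range fun i : {v : X // (v : ℂ) ∈ Q} => ((i.1 : ℂ), σ i.1)).subset ?_
      rintro q ⟨hq, hq'⟩
      obtain ⟨i, hi1, hi2⟩ := (mem_paint_of_mem _ hq'.1).1 hq
      exact ⟨i, Prod.ext hi1 hi2⟩
  simp_rw [h1]
  have hE : EQ X Q Θ = EQ (pts T) Q Θ := EQ_congr hXQ Θ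
  rw [hE] at key
  refine arith (n := Fintype.card X) (le_of_eq_of_le ?_ key)
  congr
  exact Subsingleton.elim _ _

/-- **Mean energy bound.** -/
theorem lintegral_SC_le [IsProbabilityMeasure P] (h : IsColouredPoisson P S lam) {Q : Set ℂ}
    (hQ : IsOpen Q) (hb : Bornology.IsBounded Q) {τ : ℂ} (hτ : τ ^ 2 + τ + 1 = 0)
    {Θ : Dt → ℂ} (hΘ : ∀ d, Θ (rt d) = τ ^ 2 * Θ d) (hm : Measurable Θ) :
    ∫⁻ ω, SC Q Θ (S ω) ∂P ≤ 4⁻¹ * ∫⁻ ω, EQ (pts (S ω)) Q Θ ∂P := by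
  obtain ⟨r, hr⟩ := hb.subset_ball 0
  set ρ : ℝ := 2 * max r 1 with hρ
  have hρ0 : 0 < ρ := by positivity
  have hQρ : Q ⊆ ball 0 (ρ / 2) := by
    refine hr.trans (ball_subset_ball ?_)
    rw [hρ]
    have := le_max_left r 1
    linarith
  rw [← lintegral_const_mul' _ _ (by norm_num)]
  refine lintegral_le_of_colourings h hQ.measurableSet hb (measurable_SC hQ hb hm) ?_
  filter_upwards [ae_generic h (bfar ρ)] with ω hω
  exact avg_SC_le hω hρ0 hQρ hτ hΘ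

end

end Vale.Agent.P148.R2.H184
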