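import Vale.Agent.P148.R2.H184.L7
import Vale.Agent.P148.R2.H291.Energy

/-!
# The energy of the local faces is at most `C |Q|` (P148, module L1)
-/

open MeasureTheory Set Metric Topology Filter ProbabilityTheory
open scoped ENNReal NNReal

namespace Vale.Agent.P148.R2.H184

open H592 _root_.P148 _root_.P148.H729

/-- The similarity `z ↦ r z + u`. -/
noncomputable def sim (r : ℝ) (u z : ℂ) : ℂ := (r : ℂ) * z + u

/-- Admissible weights on darts: rotating, translation invariant, homogeneous, measurable, at most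
a constant times the circumradius. -/
structure Wt (τ : ℂ) (κ : ℝ) (Θ : Dt → ℂ) : Prop where
  tau : τ ^ 2 + τ + 1 = 0
  rot : ∀ d, Θ (rt d) = τ ^ 2 * Θ d
  meas : Measurable Θ
  sim : ∀ (r : ℝ) (u : ℂ) (d : Dt), 0 < r → Θ (mp (sim r u) d) = r * Θ d
  pos : 0 < κ
  bd : ∀ d : Dt, 0 < cr d.1 d.2.1 d.2.2 → ‖Θ d‖ ≤ κ * dist (cc d) d.1

/-- The basic weight. -/
noncomputable def th (τ : ℂ) (d : Dt) : ℂ := d.2.1 + τ * d.2.2 + τ ^ 2 * d.1

theorem wt_th {τ : ℂ} (hτ : τ ^ 2 + τ + 1 = 0) : Wt τ 4 (th τ) where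
  tau := hτ
  rot d := by
    have h3 := H258.Tri.tau_pow_three hτ
    unfold th rt
    linear_combination (-(d.2.2) - τ * d.1) * h3
  meas := by unfold th; fun_prop
  sim r u d _ := by
    unfold th mp sim
    linear_combination u * hτ
  pos := by norm_num
  bd d hd := by
    have h1 := dist_cc1 hd.ne'
    have h2 := dist_cc2 hd.ne'
    have hn : ‖τ‖ = 1 := by
      have := congrArg norm (H258.Tri.tau_pow_three hτ)
      rw [norm_pow, norm_one] at this
      exact (pow_eq_one_iff_of_nonneg (norm_nonneg _) (by norm_num)).1 this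
    have e : th τ d = (d.2.1 - cc d) + τ * (d.2.2 - cc d) + τ ^ 2 * (d.1 - cc d) := by
      unfold th
      linear_combination cc d * hτ
    rw [e]
    refine (norm_add₃_le).trans ?_
    rw [norm_mul, norm_mul, norm_pow, hn, one_pow, one_mul, one_mul, ← dist_eq_norm,
      ← dist_eq_norm, ← dist_eq_norm, dist_comm d.2.1, dist_comm d.2.2, dist_comm d.1, ← h1, ← h2]
    have := dist_nonneg (x := cc d) (y := d.1)
    linarith

/-- The energy of the local faces is bounded by the energy of the Voronoi vertices. -/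
theorem EQ_le {X Q : Set ℂ} (h3 : Three X) (hst : ∀ z, ∃ h, 0 < h ∧ H291.Stab X z h) {x : ℂ}
    {r : ℝ} (hQ : Q ⊆ closedBall x r) {τ : ℂ} {κ : ℝ} {Θ : Dt → ℂ} (hΘ : Wt τ κ Θ) :
    EQ X Q Θ ≤ 27 * ENNReal.ofReal (κ ^ 2) * H291.en 2 X x r := by
  classical
  -- the data of a local face
  have hc : ∀ d : Dt, LF X Q d → H291.VV X (cc d) ∧ dist (cc d) x ≤ r := by
    intro d hd
    obtain ⟨m1, m2, m3⟩ := hd.mem_vcell
    refine ⟨⟨d.1, d.2.1, d.2.2, hd.1.1, hd.1.2.1, hd.1.2.2, hd.ne.1, hd.ne.2.1, hd.ne.2.2.symm,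
      m1, m2, m3⟩, ?_⟩
    have : cc d ∈ Q := hd.2.2.1 (mem_closedBall_self dist_nonneg)
    exact mem_closedBall.1 (hQ this)
  let VT := {z : ℂ // H291.VV X z ∧ dist z x ≤ r}
  -- three points for each Voronoi vertex
  have hp : ∀ z : VT, ∃ p : Fin 3 → ℂ, ∀ v ∈ X, (z : ℂ) ∈ vcell X v → ∃ i, p i = v := by
    rintro ⟨z, ⟨a, b, c, ha, hb, hc', hab, hbc, hac, za, zb, zc⟩, -⟩
    refine ⟨![a, b, c], fun v hv hzv => ?_⟩
    rcases h3 z a b c v ha hb hc' hv za zb zc hzv hab hbc hac.symm with h | h | h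
    · exact ⟨0, h.symm⟩
    · exact ⟨1, h.symm⟩
    · exact ⟨2, h.symm⟩
  choose p hp using hp
  let g : VT × (Fin 3 × Fin 3 × Fin 3) → Dt := fun q => (p q.1 q.2.1, p q.1 q.2.2.1, p q.1 q.2.2.2)
  have hg : ∀ d : {d : Dt // LF X Q d}, ∃ q : VT × (Fin 3 × Fin 3 × Fin 3),
      (q.1 : ℂ) = cc d.1 ∧ g q = d.1 := by
    rintro ⟨d, hd⟩
    obtain ⟨m1, m2, m3⟩ := hd.mem_vcell
    obtain ⟨i, hi⟩ := hp ⟨cc d, hc d hd⟩ d.1 hd.1.1 m1
    obtain ⟨j, hj⟩ := hp ⟨cc d, hc d hd⟩ d.2.1 hd.1.2.1 m2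
    obtain ⟨k, hk⟩ := hp ⟨cc d, hc d hd⟩ d.2.2 hd.1.2.2 m3
    exact ⟨(⟨cc d, hc d hd⟩, (i, j, k)), rfl, Prod.ext hi (Prod.ext hj hk)⟩
  choose q hq1 hq2 using hg
  have hqinj : Function.Injective q := by
    intro d e hde
    apply Subtype.ext
    rw [← hq2, ← hq2, hde]
  let H : VT × (Fin 3 × Fin 3 × Fin 3) → ℝ≥0∞ := fun s =>
    ENNReal.ofReal (κ ^ 2) * ENNReal.ofReal (H291.loc X s.1 ^ 2)
  calc EQ X Q Θ = ∑' d : {d : Dt // LF X Q d}, ENNReal.ofReal (‖Θ d.1‖ ^ 2) := by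
        unfold EQ
        rw [show (fun d : Dt => if LF X Q d then ENNReal.ofReal (‖Θ d‖ ^ 2) else 0) =
          {d | LF X Q d}.indicator (fun d => ENNReal.ofReal (‖Θ d‖ ^ 2)) by
            funext d
            rw [indicator_apply]
            rfl]
        rw [← tsum_subtype]
        rfl
    _ ≤ ∑' d : {d : Dt // LF X Q d}, H (q d) := by
        refine ENNReal.tsum_le_tsum fun d => ?_
        show _ ≤ ENNReal.ofReal (κ ^ 2) * ENNReal.ofReal (H291.loc X (q d).1 ^ 2)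
        rw [hq1, ← ENNReal.ofReal_mul (by positivity), ← mul_pow]
        refine ENNReal.ofReal_le_ofReal (pow_le_pow_left₀ (norm_nonneg _) ?_ 2)
        refine (hΘ.bd d.1 d.2.2.1).trans ?_
        have h1 : dist (cc d.1) d.1.1 ≤ H291.loc X (cc d.1) / 8 :=
          H291.dist_le_loc (hst _) d.2.mem_vcell.1
        have h2 := H291.loc_nonneg X (cc d.1)
        have := hΘ.pos
        exact mul_le_mul_of_nonneg_left (h1.trans (by linarith)) this.le
    _ ≤ ∑' s, H s := ENNReal.tsum_comp_le_tsum_of_injective hqinj H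
    _ = 27 * ENNReal.ofReal (κ ^ 2) * H291.en 2 X x r := by
        rw [ENNReal.tsum_prod']
        have : ∀ z : VT, ∑' t : Fin 3 × Fin 3 × Fin 3, H (z, t) =
            27 * ENNReal.ofReal (κ ^ 2) * ENNReal.ofReal (H291.loc X z ^ 2) := by
          intro z
          rw [tsum_fintype]
          show ∑ _t : Fin 3 × Fin 3 × Fin 3,
            ENNReal.ofReal (κ ^ 2) * ENNReal.ofReal (H291.loc X z ^ 2) = _
          rw [Finset.sum_const, Finset.card_univ]
          simp only [Fintype.card_prod, Fintype.card_fin, nsmul_eq_mul]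
          norm_num [mul_assoc]
        simp_rw [this]
        rw [ENNReal.tsum_mul_left]
        rfl

section
variable {Ω : Type*} [MeasurableSpace Ω] {P : Measure Ω} {S : Ω → Set Pt} {lam : ℝ≥0}

theorem ae_three [IsProbabilityMeasure P] (h : IsColouredPoisson P S lam) :
    ∀ᵐ ω ∂P, Three (pts (S ω)) := by
  filter_upwards [ae_generic h (bfar 1)] with ω hω
  exact three_of_conc subset_union_left hω.2

/-- The constant. -/
noncomputable def KK (κ : ℝ) : ℝ := 27 * κ ^ 2 * (25 * H291.CC 2 3)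

theorem KK_nonneg (κ : ℝ) : 0 ≤ KK κ := by
  unfold KK
  have := H291.CC_nonneg 2 3
  positivity

theorem lintegral_EQ_le [IsProbabilityMeasure P] (h : IsColouredPoisson P S lam) {a : ℝ}
    (ha : 0 < a) (hla : lam * a ^ 2 = 1) {x : ℂ} {r : ℝ} (hr : a ≤ r) {Q : Set ℂ}
    (hQ : Q ⊆ closedBall x r) {τ : ℂ} {κ : ℝ} {Θ : Dt → ℂ} (hΘ : Wt τ κ Θ) :
    ∫⁻ ω, EQ (pts (S ω)) Q Θ ∂P ≤ ENNReal.ofReal (KK κ * r ^ 2) := by
  have h27 : (27 * ENNReal.ofReal (κ ^ 2) : ℝ≥0∞) ≠ ⊤ :=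
    ENNReal.mul_ne_top (by norm_num) ENNReal.ofReal_ne_top
  calc ∫⁻ ω, EQ (pts (S ω)) Q Θ ∂P
      ≤ ∫⁻ ω, 27 * ENNReal.ofReal (κ ^ 2) * H291.enMaj S a 2 x r ω ∂P := by
        refine lintegral_mono_ae ?_
        filter_upwards [ae_three h, H291.ae_levels h ha hla, H291.ae_en_le h ha hla]
          with ω h3 hlev hen
        have hst : ∀ z, ∃ s, 0 < s ∧ H291.Stab (pts (S ω)) z s := by
          intro z
          obtain ⟨k, hk1, hk2⟩ := hlev (H291.rd a z)
          have hk1' : (1 : ℝ) ≤ k := by exact_mod_cast hk1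
          have hka : 0 < k * a := by positivity
          refine ⟨3 / 4 * (k * a), by positivity, hk2.stab hka ?_⟩
          exact (H291.dist_gp_rd ha z).trans (le_mul_of_one_le_left ha.le hk1')
        refine (EQ_le h3 hst hQ hΘ).trans ?_
        gcongr
        exact hen 2 x r
    _ = 27 * ENNReal.ofReal (κ ^ 2) * ∫⁻ ω, H291.enMaj S a 2 x r ω ∂P :=
        lintegral_const_mul' _ _ h27
    _ ≤ 27 * ENNReal.ofReal (κ ^ 2) * ENNReal.ofReal (25 * H291.CC 2 3 * r ^ 2) := by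
        gcongr
        exact H291.lint_enMaj_two h ha hla x hr
    _ = ENNReal.ofReal (KK κ * r ^ 2) := by
        have : (27 : ℝ≥0∞) = ENNReal.ofReal 27 := by norm_num
        have := H291.CC_nonneg 2 3
        rw [‹(27 : ℝ≥0∞) = ENNReal.ofReal 27›, ← ENNReal.ofReal_mul (by norm_num),
          ← ENNReal.ofReal_mul (by positivity)]
        congr 1
        unfold KK
        ring

end

end Vale.Agent.P148.R2.H184
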