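import Vale.Agent.P148.R2.H184.L8
import Vale.Agent.P148.R2.H729.Q5

/-!
# Similarities (P148, module L1)
-/

open MeasureTheory Set Metric Topology Filter ProbabilityTheory
open scoped ENNReal NNReal

namespace Vale.Agent.P148.R2.H184

open H592 _root_.P148 _root_.P148.H729

section sim

variable {r : ℝ} (hr : 0 < r) (u : ℂ)
include hr

theorem sim_sim (z : ℂ) : sim r⁻¹ (-(u / r)) (sim r u z) = z := by
  have : (r : ℂ) ≠ 0 := by exact_mod_cast hr.ne'
  unfold sim
  push_cast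
  field_simp
  ring

theorem sim_sim' (z : ℂ) : sim r u (sim r⁻¹ (-(u / r)) z) = z := by
  have : (r : ℂ) ≠ 0 := by exact_mod_cast hr.ne'
  unfold sim
  push_cast
  field_simp
  ring

theorem dist_sim (z w : ℂ) : dist (sim r u z) (sim r u w) = r * dist z w := by
  unfold sim
  rw [dist_add_right, dist_eq_norm, ← mul_sub, norm_mul, Complex.norm_real,
    Real.norm_of_nonneg hr.le, dist_eq_norm]

omit hr in
theorem cr_sim (a b c : ℂ) : cr (sim r u a) (sim r u b) (sim r u c) = r ^ 2 * cr a b c := by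
  unfold cr sim
  simp only [Complex.add_re, Complex.add_im, Complex.mul_re, Complex.mul_im, Complex.ofReal_re,
    Complex.ofReal_im, zero_mul, sub_zero, add_zero]
  ring

theorem cc_sim {d : Dt} (h : cr d.1 d.2.1 d.2.2 ≠ 0) : cc (mp (sim r u) d) = sim r u (cc d) := by
  symm
  apply cc_unique
  · show cr (sim r u d.1) (sim r u d.2.1) (sim r u d.2.2) ≠ 0
    rw [cr_sim]
    exact mul_ne_zero (by positivity) h
  · show dist (sim r u (cc d)) (sim r u d.1) = dist (sim r u (cc d)) (sim r u d.2.1)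
    rw [dist_sim hr, dist_sim hr, dist_cc1 h]
  · show dist (sim r u (cc d)) (sim r u d.1) = dist (sim r u (cc d)) (sim r u d.2.2)
    rw [dist_sim hr, dist_sim hr, dist_cc2 h]

theorem LF_sim {X Q : Set ℂ} {d : Dt} (h : LF X Q d) :
    LF (sim r u '' X) (sim r u '' Q) (mp (sim r u) d) := by
  have hcc := cc_sim hr u h.2.1.ne'
  have hd : dist (cc (mp (sim r u) d)) (mp (sim r u) d).1 = r * dist (cc d) d.1 := by
    rw [hcc]
    exact dist_sim hr u _ _
  refine ⟨⟨⟨_, h.1.1, rfl⟩, ⟨_, h.1.2.1, rfl⟩, ⟨_, h.1.2.2, rfl⟩⟩, ?_, ?_, ?_⟩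
  · show 0 < cr (sim r u d.1) (sim r u d.2.1) (sim r u d.2.2)
    rw [cr_sim]
    have := h.2.1
    positivity
  · rw [hd, hcc]
    intro y hy
    refine ⟨sim r⁻¹ (-(u / r)) y, h.2.2.1 ?_, sim_sim' hr u y⟩
    rw [mem_closedBall] at hy ⊢
    rw [← sim_sim' hr u y, dist_sim hr] at hy
    exact le_of_mul_le_mul_left hy hr
  · rw [hd, hcc]
    rintro _ ⟨x, hx, rfl⟩
    rw [dist_sim hr]
    exact mul_le_mul_of_nonneg_left (h.2.2.2 x hx) hr.le

theorem image_sim_sim (X : Set ℂ) : sim r⁻¹ (-(u / r)) '' (sim r u '' X) = X := by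
  rw [image_image]
  simp only [sim_sim hr u, image_id']

/-- Transport by a similarity. -/
theorem tr_sim (X Q : Set ℂ) {c c' : ℂ → Bool} (hc : ∀ z ∈ X ∩ Q, c' (sim r u z) = c z) :
    Tr (sim r u) (sim r⁻¹ (-(u / r))) X Q (sim r u '' X) (sim r u '' Q) c c' where
  lf _ hd := LF_sim hr u hd
  lf' d hd := by
    have := LF_sim (inv_pos.2 hr) (-(u / r)) hd
    rwa [image_sim_sim hr, image_sim_sim hr] at this
  l x _ := sim_sim hr u x
  r x _ := sim_sim' hr u x
  col := hc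
  col' := by
    rintro _ ⟨⟨x, hx, rfl⟩, ⟨y, hy, hyx⟩⟩
    have : y = x := by rw [← sim_sim hr u y, hyx, sim_sim hr u]
    subst this
    rw [sim_sim hr u, hc _ ⟨hx, hy⟩]

end sim

theorem gg_mul (X Q : Set ℂ) (c : ℂ → Bool) (Θ : Dt → ℂ) (r : ℝ) (d : Dt) :
    gg X Q c (fun e => r * Θ e) d = r ^ 2 * gg X Q c Θ d := by
  have h1 : W X Q c (fun e => r * Θ e) d = r * W X Q c Θ d := by
    unfold W
    simp_rw [← smul_eq_mul]
    rw [smul_finsum]
    refine finsum_congr fun e => ?_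
    rw [smul_finsum]
  unfold gg
  rw [h1, norm_mul, Complex.norm_real, mul_pow, Real.norm_eq_abs, sq_abs]
  ring

theorem SQ_mul (X Q : Set ℂ) (c : ℂ → Bool) (Θ : Dt → ℂ) (r : ℝ) :
    SQ X Q c (fun e => r * Θ e) = ENNReal.ofReal (r ^ 2) * SQ X Q c Θ := by
  unfold SQ
  rw [← ENNReal.tsum_mul_left]
  refine tsum_congr fun d => ?_
  rw [gg_mul, ENNReal.ofReal_mul (by positivity)]

/-- Similarities of coloured points. -/
noncomputable def simP (r : ℝ) (u : ℂ) (q : Pt) : Pt := (sim r u q.1, q.2)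

theorem pts_simP (r : ℝ) (u : ℂ) (T : Set Pt) : pts (simP r u '' T) = sim r u '' pts T := by
  unfold pts
  rw [image_image, image_image]
  rfl

theorem col_simP {r : ℝ} (hr : 0 < r) (u : ℂ) (T : Set Pt) (z : ℂ) :
    col (simP r u '' T) (sim r u z) = col T z := by
  classical
  unfold col
  rw [Bool.eq_iff_iff, decide_eq_true_eq, decide_eq_true_eq]
  constructor
  · rintro ⟨q, hq, hqz⟩
    have h1 : sim r u q.1 = sim r u z := congrArg Prod.fst hqz
    have h2 : q.2 = true := congrArg Prod.snd hqz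
    have h3 : q.1 = z := by rw [← sim_sim hr u q.1, h1, sim_sim hr u]
    have : q = (z, true) := Prod.ext h3 h2
    rwa [this] at hq
  · intro h
    exact ⟨(z, true), h, rfl⟩

/-- **Equivariance** of the energy. -/
theorem SG_sim {r : ℝ} (hr : 0 < r) (u : ℂ) (Q : Set ℂ) {τ : ℂ} {κ : ℝ} {Θ : Dt → ℂ}
    (hΘ : Wt τ κ Θ) (T : Set Pt) :
    SG (sim r u '' Q) Θ (simP r u '' T) = ENNReal.ofReal (r ^ 2) * SG Q Θ T := by
  unfold SG
  rw [pts_simP, (tr_sim hr u (pts T) Q (c := col T) (c' := col (simP r u '' T))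
    fun z _ => col_simP hr u T z).SQ_eq Θ]
  simp_rw [hΘ.sim r u _ hr]
  rw [SQ_mul]

theorem SC_sim {r : ℝ} (hr : 0 < r) (u : ℂ) (Q : Set ℂ) {τ : ℂ} {κ : ℝ} {Θ : Dt → ℂ}
    (hΘ : Wt τ κ Θ) {T : Set Pt} (hT : (T ∩ Q ×ˢ univ).Finite) :
    SC (sim r u '' Q) Θ (simP r u '' T) = ENNReal.ofReal (r ^ 2) * SC Q Θ T := by
  rw [SC_eq Θ hT, SC_eq, SG_sim hr u Q hΘ]
  refine (hT.image (simP r u)).subset ?_
  rintro _ ⟨⟨q, hq, rfl⟩, ⟨⟨y, hy, hyq⟩, -⟩⟩
  refine ⟨q, ⟨hq, ?_, mem_univ _⟩, rfl⟩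
  have : q.1 = y := by
    have h1 : sim r u y = sim r u q.1 := hyq
    rw [← sim_sim hr u q.1, ← h1, sim_sim hr u]
  rw [this]; exact hy

/-! ### squares -/

/-- The open square with lower left corner `x` and side `t`. -/
def sqr (x : ℂ) (t : ℝ) : Set ℂ :=
  {z | (x.re < z.re ∧ z.re < x.re + t) ∧ (x.im < z.im ∧ z.im < x.im + t)}

theorem isOpen_sqr (x : ℂ) (t : ℝ) : IsOpen (sqr x t) := by
  have e : sqr x t = Complex.re ⁻¹' Ioo x.re (x.re + t) ∩ Complex.im ⁻¹' Ioo x.im (x.im + t) := by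
    ext z
    simp [sqr]
  rw [e]
  exact (isOpen_Ioo.preimage Complex.continuous_re).inter
    (isOpen_Ioo.preimage Complex.continuous_im)

theorem sqr_subset_closedBall (x : ℂ) (t : ℝ) : sqr x t ⊆ closedBall x (2 * t) := by
  intro z hz
  rw [mem_closedBall, dist_eq_norm]
  refine (Complex.norm_le_abs_re_add_abs_im _).trans ?_
  rw [Complex.sub_re, Complex.sub_im, abs_of_pos (by linarith [hz.1.1]),
    abs_of_pos (by linarith [hz.2.1])]
  linarith [hz.1.2, hz.2.2]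

theorem isBounded_sqr (x : ℂ) (t : ℝ) : Bornology.IsBounded (sqr x t) :=
  isBounded_closedBall.subset (sqr_subset_closedBall x t)

theorem sim_image_sqr {r : ℝ} (hr : 0 < r) (u x : ℂ) (t : ℝ) :
    sim r u '' sqr x t = sqr (sim r u x) (r * t) := by
  have key : ∀ z, z ∈ sqr x t ↔ sim r u z ∈ sqr (sim r u x) (r * t) := by
    intro z
    unfold sqr sim
    simp only [mem_ofPred_eq, Complex.add_re, Complex.add_im, Complex.mul_re, Complex.mul_im,
      Complex.ofReal_re, Complex.ofReal_im, zero_mul, sub_zero, add_zero]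
    constructor
    · rintro ⟨⟨h1, h2⟩, h3, h4⟩
      refine ⟨⟨by nlinarith, by nlinarith⟩, by nlinarith, by nlinarith⟩
    · rintro ⟨⟨h1, h2⟩, h3, h4⟩
      refine ⟨⟨?_, ?_⟩, ?_, ?_⟩
      · exact lt_of_mul_lt_mul_left (a := r) (by linarith) hr.le
      · exact lt_of_mul_lt_mul_left (a := r) (by linarith) hr.le
      · exact lt_of_mul_lt_mul_left (a := r) (by linarith) hr.le
      · exact lt_of_mul_lt_mul_left (a := r) (by linarith) hr.le
  ext z
  constructor
  · rintro ⟨y, hy, rfl⟩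
    exact (key y).1 hy
  · intro hz
    refine ⟨sim r⁻¹ (-(u / r)) z, ?_, sim_sim' hr u z⟩
    rw [key, sim_sim' hr u]
    exact hz

/-- The subsquare with index `(i, j)` of the subdivision into squares of side `s`. -/
def sub (x : ℂ) (s : ℝ) (i j : ℕ) : Set ℂ := sqr (x + ⟨i * s, j * s⟩) s

theorem sub_subset {x : ℂ} {s t : ℝ} (hs : 0 < s) {n : ℕ} (hn : n * s ≤ t) {i j : ℕ} (hi : i < n)
    (hj : j < n) : sub x s i j ⊆ sqr x t := by
  intro z hz
  unfold sub sqr at *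
  simp only [mem_ofPred_eq, Complex.add_re, Complex.add_im] at hz ⊢
  have hi' : (i : ℝ) + 1 ≤ n := by exact_mod_cast hi
  have hj' : (j : ℝ) + 1 ≤ n := by exact_mod_cast hj
  have h1 : 0 ≤ (i : ℝ) * s := by positivity
  have h2 : 0 ≤ (j : ℝ) * s := by positivity
  have h3 : ((i : ℝ) + 1) * s ≤ n * s := mul_le_mul_of_nonneg_right hi' hs.le
  have h4 : ((j : ℝ) + 1) * s ≤ n * s := mul_le_mul_of_nonneg_right hj' hs.le
  refine ⟨⟨by linarith [hz.1.1], by linarith [hz.1.2]⟩, by linarith [hz.2.1], by linarith [hz.2.2]⟩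

theorem sub_disjoint {x : ℂ} {s : ℝ} (hs : 0 < s) {i j i' j' : ℕ} (h : (i, j) ≠ (i', j')) :
    Disjoint (sub x s i j) (sub x s i' j') := by
  rw [Set.disjoint_left]
  intro z hz hz'
  unfold sub sqr at *
  simp only [mem_ofPred_eq, Complex.add_re, Complex.add_im] at hz hz'
  apply h
  have key : ∀ (a y : ℝ) (k l : ℕ), a + k * s < y → y < a + k * s + s → a + l * s < y →
      y < a + l * s + s → k = l := by
    intro a y k l h1 h2 h3 h4
    rcases lt_trichotomy k l with hlt | heq | hgt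
    · have : (k : ℝ) + 1 ≤ l := by exact_mod_cast hlt
      have := mul_le_mul_of_nonneg_right this hs.le
      linarith
    · exact heq
    · have : (l : ℝ) + 1 ≤ k := by exact_mod_cast hgt
      have := mul_le_mul_of_nonneg_right this hs.le
      linarith
  exact Prod.ext (key _ _ _ _ hz.1.1 hz.1.2 hz'.1.1 hz'.1.2)
    (key _ _ _ _ hz.2.1 hz.2.2 hz'.2.1 hz'.2.2)

end Vale.Agent.P148.R2.H184
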