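import Vale.Agent.P148.R2.H184.L10
import Vale.Agent.P148.R2.H871.CW2
import Vale.Agent.P148.R2.H203.T2
import Vale.Agent.P148.R2.H910.Om0

/-!
# P148, row PC, part 1 (quenched): the classes of world 0 which do not pass through `O` are plane
classes, their energy is at most `MQ`.
-/

open Set Metric Function
open scoped ENNReal

namespace Vale.Agent.P148.R2.H184

open H592 H203

variable {X : Set ℂ} {b : ZMod 3 → ℂ} {V1 : Type*}

/-- `π1` contracts the frozen set `{x | π1 x = O}` only; the colouring `σ1` of the contracted world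
is the plane colouring `w` at the free vertices, and the frozen neighbours of free vertices have
the colour of `O`. -/
structure PWorld (X : Set ℂ) (π1 : ℂ → V1) (O : V1) (w : ℂ → Bool) (σ1 : V1 → Bool) : Prop where
  inj : ∀ x ∈ X, π1 x ≠ O → ∀ y ∈ X, π1 x = π1 y → x = y
  free : ∀ x ∈ X, π1 x ≠ O → σ1 (π1 x) = w x
  bdry : ∀ x y, nbr X x y → π1 x ≠ O → π1 y = O → w y = σ1 O

theorem idmap_eq {x₀ : X} {x : ℂ} (hx : x ∈ X) : idmap X x₀ x = ⟨x, hx⟩ := by
  unfold idmap
  rw [dif_pos hx]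

theorem Nx.congr {c c' : ℂ → Bool} {X Q : Set ℂ} (hc : ∀ x ∈ X ∩ Q, c x = c' x) {d : Dt}
    (h : InL X Q c d) : InL X Q c' d := by
  have h1 : Tr id id X Q X Q c c' := Tr.local rfl hc
  exact h1.inL h

theorem Rl.congr {c c' : ℂ → Bool} {X Q : Set ℂ} (hc : ∀ x ∈ X ∩ Q, c x = c' x) {d e : Dt}
    (h : Rl X Q c d e) : Rl X Q c' d e := by
  have h1 : Tr id id X Q X Q c c' := Tr.local rfl hc
  exact h1.rl h

section

variable (h : HullTri X b) {π1 : ℂ → V1} (hπ1 : Fib X π1) {O : V1} {w : ℂ → Bool} {σ1 : V1 → Bool}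

/-- The world of helper871. -/
theorem PWorld.world (hW : PWorld X π1 O w σ1) (x₀ : X) :
    H871.World (h.tri258 (idmap X x₀) (fib_id X x₀)) (h.tri258 π1 hπ1) (fun v : X => π1 v)
      (fun v : X => w v) σ1 {v : X | π1 v = O} (σ1 O) where
  contr := ⟨fun _ => rfl, fun _ => rfl, fun d => by
    show π1 (tail d) = π1 (idmap X x₀ (tail d) : X)
    rw [idmap_eq (h.nbr_th d).1]⟩
  inj u v hu huv := Subtype.ext (hW.inj _ u.2 hu _ v.2 huv)
  free v hv := hW.free _ v.2 hv
  frozen v hv := by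
    show σ1 (π1 v) = σ1 O
    rw [show π1 v = O from hv]
  bdry d hd hd' := by
    have e1 : (h.tri258 (idmap X x₀) (fib_id X x₀)).src d = (⟨tail d, (h.nbr_th d).1⟩ : X) :=
      idmap_eq _
    have e2 : (h.tri258 (idmap X x₀) (fib_id X x₀)).tgt d = (⟨head d, (h.nbr_th d).2.1⟩ : X) := by
      show idmap X x₀ (tail (h.rv d)) = _
      rw [h.tail_rv]
      exact idmap_eq _
    rw [e1] at hd
    rw [e2] at hd' ⊢
    exact hW.bdry _ _ (h.nbr_th d) hd hd'

variable {Q' : Set ℂ}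

theorem src_idmap (x₀ : X) (d : Fc X b × ZMod 3) :
    (((h.tri258 (idmap X x₀) (fib_id X x₀)).src d : X) : ℂ) = (dt d).1 := by
  have e1 : (h.tri258 (idmap X x₀) (fib_id X x₀)).src d = (⟨tail d, (h.nbr_th d).1⟩ : X) :=
    idmap_eq _
  rw [e1]; rfl

theorem tgt_idmap (x₀ : X) (d : Fc X b × ZMod 3) :
    (((h.tri258 (idmap X x₀) (fib_id X x₀)).tgt d : X) : ℂ) = (dt d).2.1 := by
  have e2 : (h.tri258 (idmap X x₀) (fib_id X x₀)).tgt d = (⟨head d, (h.nbr_th d).2.1⟩ : X) := by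
    show idmap X x₀ (tail (h.rv d)) = _
    rw [h.tail_rv]
    exact idmap_eq _
  rw [e2]; rfl

theorem apex_idmap (x₀ : X) (d : Fc X b × ZMod 3) :
    (((h.tri258 (idmap X x₀) (fib_id X x₀)).apex d : X) : ℂ) = (dt d).2.2 := by
  have hm : vc d.1 d.2 ∈ X := by
    have := (h.nbr_th ((d.1, d.2 + 1) : Fc X b × ZMod 3)).2.1
    rwa [HullTri.head_next] at this
  have e : (h.tri258 (idmap X x₀) (fib_id X x₀)).apex d = (⟨vc d.1 d.2, hm⟩ : X) := by
    rw [apex_eq]
    exact idmap_eq hm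
  rw [e]; rfl

/-- The strands of the free faces are local loops, the classes which avoid `O` are plane classes. -/
theorem PWorld.rel_iff (hW : PWorld X π1 O w σ1)
    (hloc : ∀ q : Fc X b × ZMod 3, (π1 (dt q).1 ≠ O ∨ π1 (dt q).2.1 ≠ O) → LF X Q' (dt q))
    {q : Fc X b × ZMod 3} (hm : (h.tri258 π1 hπ1).Mi σ1 q)
    (hav : ∀ f, (h.tri258 π1 hπ1).Rel σ1 q f → (h.tri258 π1 hπ1).src f ≠ O) :
    InL X Q' w (dt q) ∧ ∀ r, (h.tri258 π1 hπ1).Rel σ1 q r ↔ Rl X Q' w (dt q) (dt r) := by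
  have hfin := h.finite_Fc
  have : Finite X := h.fin.to_subtype
  let x₀ : X := ⟨b 0, h.mem 0⟩
  set T := h.tri258 (idmap X x₀) (fib_id X x₀) with hT
  set T1 := h.tri258 π1 hπ1 with hT1
  have hwd := hW.world h hπ1 x₀
  have hrefl : T1.Rel σ1 q q := T1.rel_refl hm
  have hq : T.src q ∉ {v : X | π1 v = O} := by
    have := hav q hrefl
    show ¬ π1 (T.src q : X) = O
    rw [src_idmap]
    exact this
  have hmT : T.Mi (fun v : X => w v) q := (hwd.mi_iff (Or.inl hq)).1 hm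
  have hlfq : LF X Q' (dt q) := hloc q (Or.inl (hav q hrefl))
  have hnd : T.apex q ≠ T.src q := by
    intro he
    have := congrArg Subtype.val he
    rw [apex_idmap, src_idmap] at this
    exact hlfq.ne.2.2 this
  have key : ∀ r, T1.Rel σ1 q r ↔ T.Rel (fun v : X => w v) q r := fun r =>
    hwd.rel_of_avoid (h.planar258 _ _) (h.planar258 _ _) hmT hnd hq (fun f hf hfB => by
      have h1 := hav f hf
      have h2 : π1 (T.src f : X) = O := hfB
      rw [src_idmap] at h2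
      exact h1 h2)
  -- the plane loop
  have hins : H871.Ins T (fun v : X => w v) {v : X | π1 v = O} (σ1 O) q :=
    hwd.ins_of_bi (Or.inl hq)
  have hlf : ∀ i, LF X Q' (dt ((T.st (fun v : X => w v))^[i] q)) := by
    intro i
    have h1 := (hwd.ins_iter hmT.bi hins i).or ((T.bi_iter i).2 hmT.bi)
    apply hloc
    rcases h1 with h1 | h1
    · left
      intro h2
      apply h1
      show π1 _ = O
      rw [src_idmap]; exact h2
    · right
      intro h2
      apply h1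
      show π1 _ = O
      rw [tgt_idmap]; exact h2
  have hcol : ∀ x ∈ X ∩ Q', pc (idmap X x₀) (fun v : X => w v) x = w x := by
    intro x hx
    unfold pc
    rw [idmap_eq hx.1]
  have hF : Faith X Q' (idmap X x₀) := by
    intro x hx _ y hy hxy
    rw [idmap_eq hx, idmap_eq hy] at hxy
    exact congrArg Subtype.val hxy
  have hin : InL X Q' (pc (idmap X x₀) (fun v : X => w v)) (dt q) :=
    (inL_iff h _ (fib_id X x₀)).2 ⟨hmT.bi, hlf⟩
  refine ⟨Nx.congr hcol hin, fun r => ?_⟩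
  rw [key, H184.rel_iff h _ (fib_id X x₀) hF hin]
  exact ⟨fun hr => hr.congr hcol, fun hr => hr.congr fun x hx => (hcol x hx).symm⟩

/-- Members of a class which avoids `O` are good faces of the contracted world. -/
theorem PWorld.good (hW : PWorld X π1 O w σ1)
    (hloc : ∀ q : Fc X b × ZMod 3, (π1 (dt q).1 ≠ O ∨ π1 (dt q).2.1 ≠ O) → LF X Q' (dt q))
    {q : Fc X b × ZMod 3} (hm : (h.tri258 π1 hπ1).Mi σ1 q)
    (hq : (h.tri258 π1 hπ1).src q ≠ O) : (h.tri258 π1 hπ1).Good q := by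
  have hlf : LF X Q' (dt q) := hloc q (Or.inl hq)
  refine ⟨fun he => hm.1 (by rw [he]), fun he => hm.1 (by rw [he, hm.2]), fun he => ?_⟩
  rw [apex_eq, src_eq] at he
  have hq' : π1 (dt q).1 ≠ O := hq
  exact hlf.ne.2.2 (hW.inj _ hlf.1.1 hq' _ hlf.1.2.2 he.symm).symm

/-- **PC, quenched.** `Ψ` is any weight which is `Θ` on the good faces with free tail. -/
theorem PWorld.tot_le [Finite V1] [Fintype (Fc X b × ZMod 3)] (hW : PWorld X π1 O w σ1)
    (hloc : ∀ q : Fc X b × ZMod 3, (π1 (dt q).1 ≠ O ∨ π1 (dt q).2.1 ≠ O) → LF X Q' (dt q))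
    {ι : Type*} (Qi : ι → Set ℂ) {N : Fc X b × ZMod 3 → Prop}
    (hN : Sat (h.tri258 π1 hπ1) σ1 N)
    (hNi : ∀ d, N d → ¬ H910.Thr (h.tri258 π1 hπ1) O σ1 d → (h.tri258 π1 hπ1).Mi σ1 d →
      ∀ i, ¬ InL X (Qi i) w (dt d))
    (Θ : Dt → ℂ) {Ψ : Fc X b × ZMod 3 → ℂ}
    (hΨ : ∀ q, (h.tri258 π1 hπ1).Good q → π1 (dt q).1 ≠ O → Ψ q = Θ (dt q)) :
    ENNReal.ofReal (tot (h.tri258 π1 hπ1) σ1
      (rs (fun d => N d ∧ ¬ H910.Thr (h.tri258 π1 hπ1) O σ1 d) Ψ)) ≤
      MQ X Q' Qi w Θ := by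
  classical
  set T1 := h.tri258 π1 hπ1 with hT1
  have hS : Sat T1 σ1 (fun d => N d ∧ ¬ H910.Thr T1 O σ1 d) := fun d e hr hd =>
    ⟨hN d e hr hd.1, (H910.thr_sat T1 O σ1).not d e hr hd.2⟩
  rw [tot_eq]
  have hnn : ∀ q, 0 ≤ ‖T1.cls σ1 q (rs (fun d => N d ∧ ¬ H910.Thr T1 O σ1 d) Ψ)‖ ^ 2 /
      H203.ncl T1 σ1 q :=
    fun q => div_nonneg (by positivity) (H203.ncl_nonneg _ _ _)
  rw [ENNReal.ofReal_sum_of_nonneg (fun q _ => hnn q)]
  unfold MQ
  have hterm : ∀ q : Fc X b × ZMod 3, ENNReal.ofReal (‖T1.cls σ1 q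
      (rs (fun d => N d ∧ ¬ H910.Thr T1 O σ1 d) Ψ)‖ ^ 2 / H203.ncl T1 σ1 q) ≤
      if ∃ i, InL X (Qi i) w (dt q) then 0 else ENNReal.ofReal (gg X Q' w Θ (dt q)) := by
    intro q
    by_cases hq : N q ∧ ¬ H910.Thr T1 O σ1 q
    · by_cases hm : T1.Mi σ1 q
      · have hav : ∀ f, T1.Rel σ1 q f → T1.src f ≠ O := fun f hf he => hq.2 ⟨f, hf, he⟩
        obtain ⟨hin, hrel⟩ := hW.rel_iff h hπ1 hloc hm hav
        rw [if_neg (fun hi => hNi q hq.1 hq.2 hm hi.choose hi.choose_spec)]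
        have himg : cl X Q' w (dt q) = dt '' {e | T1.Rel σ1 q e} := by
          ext e
          constructor
          · intro he
            obtain ⟨r, rfl⟩ := exists_dt h (cl_lf he)
            exact ⟨r, (hrel r).2 he, rfl⟩
          · rintro ⟨r, hr, rfl⟩
            exact (hrel r).1 hr
        have e1 : T1.cls σ1 q (rs (fun d => N d ∧ ¬ H910.Thr T1 O σ1 d) Ψ) =
            W X Q' w Θ (dt q) := by
          rw [hS.cls_rs _ hq]
          unfold W
          rw [himg, finsum_mem_image (dt_injective h).injOn, finsum_eq_sum_of_fintype]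
          unfold H258.Tri.cls
          refine Finset.sum_congr rfl fun e _ => ?_
          rw [finsum_eq_if]
          by_cases he : T1.Rel σ1 e q
          · have he' : T1.Rel σ1 q e := T1.rel_symm he
            rw [if_pos he, if_pos (show e ∈ {e | T1.Rel σ1 q e} from he')]
            exact hΨ e (hW.good h hπ1 hloc he.1 (hav e he')) (hav e he')
          · have he' : ¬ T1.Rel σ1 q e := fun h' => he (T1.rel_symm h')
            rw [if_neg he, if_neg (show e ∉ {e | T1.Rel σ1 q e} from he')]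
        have e2 : H203.ncl T1 σ1 q = (cl X Q' w (dt q)).ncard := by
          rw [himg, Set.ncard_image_of_injective _ (dt_injective h)]
          unfold H203.ncl
          rw [Finset.sum_boole, ← Set.ncard_coe_finset]
          congr 2
          ext e
          simp only [Finset.coe_filter, Finset.mem_univ, true_and, mem_ofPred_eq]
          exact ⟨fun h' => T1.rel_symm h', fun h' => T1.rel_symm h'⟩
        unfold gg
        rw [e1, e2]
      · have : T1.cls σ1 q (rs (fun d => N d ∧ ¬ H910.Thr T1 O σ1 d) Ψ) = 0 := by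
          unfold H258.Tri.cls
          apply Finset.sum_eq_zero
          intro e _
          rw [if_neg]
          exact fun hr => hm hr.2.1
        rw [this]
        simp
    · rw [hS.cls_rs' _ hq]
      simp
  calc ∑ q, _ ≤ ∑ q : Fc X b × ZMod 3, (if ∃ i, InL X (Qi i) w (dt q) then 0 else
        ENNReal.ofReal (gg X Q' w Θ (dt q))) := Finset.sum_le_sum fun q _ => hterm q
    _ = ∑' q : Fc X b × ZMod 3, (if ∃ i, InL X (Qi i) w (dt q) then 0 else
        ENNReal.ofReal (gg X Q' w Θ (dt q))) := (tsum_fintype _).symm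
    _ ≤ _ := ENNReal.tsum_comp_le_tsum_of_injective (dt_injective h)
        (fun d => if ∃ i, InL X (Qi i) w d then 0 else ENNReal.ofReal (gg X Q' w Θ d))

end

end Vale.Agent.P148.R2.H184
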