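import Vale.Agent.P148.R2.H184.L10
import Vale.Agent.P148.R2.H910.Om0

/-!
# Resampling (P148, row PC): averages over the colourings of a world and over recolourings
-/

open MeasureTheory Set Metric Topology Filter ProbabilityTheory
open scoped ENNReal NNReal symmDiff

namespace Vale.Agent.P148.R2.H184

open H592 _root_.P148 _root_.P148.H729

/-! ### resampling of a stopping set -/

theorem flipOn_flipOn (W W' : Set ℂ) (q : Pt) : flipOn W' (flipOn W q) = flipOn (W ∆ W') q := by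
  classical
  unfold flipOn
  refine Prod.ext rfl ?_
  by_cases h : q.1 ∈ W <;> by_cases h' : q.1 ∈ W' <;> simp [Set.mem_symmDiff, h, h']

theorem flipOn_image_image (W W' : Set ℂ) (S : Set Pt) :
    flipOn W' '' (flipOn W '' S) = flipOn (W ∆ W') '' S := by
  rw [image_image]
  exact image_congr fun q _ => flipOn_flipOn W W' q

theorem pts_flipOn (W : Set ℂ) (S : Set Pt) : pts (flipOn W '' S) = pts S := by
  unfold pts
  rw [image_image]
  rfl

theorem oneCol_flipOn {S : Set Pt} (h : OneCol S) (W : Set ℂ) : OneCol (flipOn W '' S) := by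
  classical
  rintro z ⟨⟨p, hp, hp'⟩, ⟨q, hq, hq'⟩⟩
  have hp1 : p.1 = z := congrArg Prod.fst hp'
  have hq1 : q.1 = z := congrArg Prod.fst hq'
  have hp2 : (if p.1 ∈ W then !p.2 else p.2) = true := congrArg Prod.snd hp'
  have hq2 : (if q.1 ∈ W then !q.2 else q.2) = false := congrArg Prod.snd hq'
  have e : p.2 = q.2 := h.eq (z := z) (by rw [← hp1]; exact hp) (by rw [← hq1]; exact hq)
  rw [hp1, e] at hp2
  rw [hq1] at hq2
  rw [hp2] at hq2
  simp at hq2

theorem sum_resample {α : Type*} [DecidableEq α] (U : Finset α) (f : Finset α → Finset α)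
    (hfU : ∀ W ⊆ U, f W ⊆ U) (hf : ∀ W ⊆ U, ∀ W' ⊆ f W, f (W ∆ W') = f W)
    (g : Finset α → ℝ≥0∞) :
    ∑ W ∈ U.powerset, (2 ^ (f W).card)⁻¹ * ∑ W' ∈ (f W).powerset, g (W ∆ W') =
      ∑ W ∈ U.powerset, g W := by
  have h1 : ∀ W ∈ U.powerset, (2 ^ (f W).card : ℝ≥0∞)⁻¹ * ∑ W' ∈ (f W).powerset, g (W ∆ W') =
      ∑ W' ∈ (f W).powerset, (2 ^ (f W).card : ℝ≥0∞)⁻¹ * g (W ∆ W') := fun W _ => by
    rw [Finset.mul_sum]
  have h2 : ∀ W ∈ U.powerset, g W =
      ∑ W' ∈ (f W).powerset, (2 ^ (f W).card : ℝ≥0∞)⁻¹ * g W := fun W _ => by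
    rw [Finset.sum_const, Finset.card_powerset, nsmul_eq_mul]
    push_cast
    rw [← mul_assoc, ENNReal.mul_inv_cancel (by simp) (by simp), one_mul]
  rw [Finset.sum_congr rfl h1, Finset.sum_congr rfl h2, Finset.sum_sigma', Finset.sum_sigma']
  have key : ∀ a : (_ : Finset α) × Finset α, a ∈ U.powerset.sigma (fun W => (f W).powerset) →
      (⟨a.1 ∆ a.2, a.2⟩ : (_ : Finset α) × Finset α) ∈
        U.powerset.sigma (fun W => (f W).powerset) := by
    rintro ⟨W, W'⟩ ha
    rw [Finset.mem_sigma, Finset.mem_powerset, Finset.mem_powerset] at ha ⊢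
    obtain ⟨h3, h4⟩ := ha
    have h3' : W ⊆ U := h3
    have h4' : W' ⊆ f W := h4
    refine ⟨?_, ?_⟩
    · show W ∆ W' ⊆ U
      intro z hz
      rw [Finset.mem_symmDiff] at hz
      rcases hz with hz | hz
      · exact h3' hz.1
      · exact hfU W h3' (h4' hz.1)
    · show W' ⊆ f (W ∆ W')
      rw [hf W h3' W' h4']
      exact h4'
  refine Finset.sum_bij' (fun a _ => ⟨a.1 ∆ a.2, a.2⟩) (fun a _ => ⟨a.1 ∆ a.2, a.2⟩) key key ?_ ?_ ?_
  · rintro ⟨W, W'⟩ _
    simp
  · rintro ⟨W, W'⟩ _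
    simp
  · rintro ⟨W, W'⟩ ha
    rw [Finset.mem_sigma, Finset.mem_powerset, Finset.mem_powerset] at ha
    show (2 ^ (f W).card : ℝ≥0∞)⁻¹ * g (W ∆ W') = (2 ^ (f (W ∆ W')).card : ℝ≥0∞)⁻¹ * g (W ∆ W')
    rw [hf W ha.1 W' ha.2]

/-- **Resampling**: if the set `fr T` is not changed by recolourings inside itself, averaging over
the recolourings in `B` can be preceded by averaging over the recolourings in `fr T ⊆ B`. -/
theorem avg_avg {B : Set ℂ} {S : Set Pt} (hB : (pts S ∩ B).Finite) {fr : Set Pt → Set ℂ}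
    (h1 : ∀ W, W ⊆ pts S ∩ B → fr (flipOn W '' S) ⊆ B)
    (h2 : ∀ W, W ⊆ pts S ∩ B → ∀ W', W' ⊆ fr (flipOn W '' S) →
      fr (flipOn W' '' (flipOn W '' S)) = fr (flipOn W '' S))
    (G : Set Pt → ℝ≥0∞) :
    avg B (fun T => avg (fr T) G T) S = avg B G S := by
  classical
  have hfin : ∀ W : Finset ℂ, (W : Set ℂ) ⊆ pts S ∩ B →
      (pts S ∩ fr (flipOn (W : Set ℂ) '' S)).Finite := fun W hW =>
    hB.subset (inter_subset_inter_right _ (h1 _ hW))
  let f : Finset ℂ → Finset ℂ := fun W =>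
    if h : (pts S ∩ fr (flipOn (W : Set ℂ) '' S)).Finite then h.toFinset else ∅
  have hf : ∀ W : Finset ℂ, (W : Set ℂ) ⊆ pts S ∩ B →
      (f W : Set ℂ) = pts S ∩ fr (flipOn (W : Set ℂ) '' S) := by
    intro W hW
    simp only [f, dif_pos (hfin W hW), Finite.coe_toFinset]
  have hsub : ∀ W : Finset ℂ, W ⊆ hB.toFinset → (W : Set ℂ) ⊆ pts S ∩ B := fun W hW => by
    rw [← hB.coe_toFinset]
    exact Finset.coe_subset.2 hW
  have key := sum_resample hB.toFinset f (fun W hW => by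
      rw [← Finset.coe_subset, hf W (hsub W hW), hB.coe_toFinset]
      exact inter_subset_inter_right _ (h1 _ (hsub W hW)))
    (fun W hW W' hW' => by
      have e1 : (W' : Set ℂ) ⊆ fr (flipOn (W : Set ℂ) '' S) := by
        rw [← Finset.coe_subset, hf W (hsub W hW)] at hW'
        exact hW'.trans inter_subset_right
      have e2 : ((W ∆ W' : Finset ℂ) : Set ℂ) ⊆ pts S ∩ B := by
        intro z hz
        rw [Finset.mem_coe, Finset.mem_symmDiff] at hz
        rcases hz with hz | hz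
        · exact hsub W hW hz.1
        · have : z ∈ (f W : Set ℂ) := hW' hz.1
          rw [hf W (hsub W hW)] at this
          exact ⟨this.1, h1 _ (hsub W hW) this.2⟩
      rw [← Finset.coe_inj, hf _ e2, hf W (hsub W hW)]
      rw [Finset.coe_symmDiff, ← flipOn_image_image, h2 _ (hsub W hW) _ e1])
    (fun W => G (flipOn (W : Set ℂ) '' S))
  unfold avg
  congr 1
  rw [recolSum, dif_pos hB, recolSum, dif_pos hB, ← key]
  refine Finset.sum_congr rfl fun W hW => ?_
  rw [Finset.mem_powerset] at hW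
  have hW' := hsub W hW
  have e3 : pts (flipOn (W : Set ℂ) '' S) ∩ fr (flipOn (W : Set ℂ) '' S) = (f W : Set ℂ) := by
    rw [pts_flipOn, hf W hW']
  have hfin' : (pts (flipOn (W : Set ℂ) '' S) ∩ fr (flipOn (W : Set ℂ) '' S)).Finite := by
    rw [e3]; exact (f W).finite_toSet
  have e4 : hfin'.toFinset = f W := by
    rw [← Finset.coe_inj, hfin'.coe_toFinset, e3]
  rw [recolSum, dif_pos hfin', e4, e3, Set.ncard_coe_finset]
  congr 1
  refine Finset.sum_congr rfl fun W' _ => ?_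
  rw [flipOn_image_image, Finset.coe_symmDiff]

/-! ### recolourings -/

/-- `T` with the colours `c` on the points in `U`. -/
def rcl (U : Set ℂ) (c : ℂ → Bool) (T : Set Pt) : Set Pt :=
  {q | q ∈ T ∧ q.1 ∉ U} ∪ {q | (q.1 ∈ pts T ∧ q.1 ∈ U) ∧ q.2 = c q.1}

variable {U : Set ℂ} {c : ℂ → Bool} {T : Set Pt}

theorem paint_eq_rcl {I : Type*} {e : I → ℂ} (hr : range e = pts T ∩ U) :
    paint T U e (fun i => c (e i)) = rcl U c T := by
  ext q
  unfold paint rcl
  refine or_congr Iff.rfl ?_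
  constructor
  · rintro ⟨i, rfl⟩
    have : e i ∈ pts T ∩ U := hr ▸ mem_range_self i
    exact ⟨this, rfl⟩
  · rintro ⟨h1, h2⟩
    have : q.1 ∈ range e := by rw [hr]; exact h1
    obtain ⟨i, hi⟩ := this
    refine ⟨i, Prod.ext hi ?_⟩
    show c (e i) = q.2
    rw [h2, hi]

theorem pts_rcl (U : Set ℂ) (c : ℂ → Bool) (T : Set Pt) : pts (rcl U c T) = pts T := by
  classical
  ext z
  constructor
  · rintro ⟨q, hq | hq, rfl⟩
    · exact ⟨q, hq.1, rfl⟩
    · exact hq.1.1
  · intro hz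
    by_cases h : z ∈ U
    · exact ⟨(z, c z), Or.inr ⟨⟨hz, h⟩, rfl⟩, rfl⟩
    · obtain ⟨q, hq, rfl⟩ := hz
      exact ⟨q, Or.inl ⟨hq, h⟩, rfl⟩

theorem col_rcl {z : ℂ} (hz : z ∈ pts T) (hU : z ∈ U) : col (rcl U c T) z = c z := by
  classical
  unfold col
  rw [Bool.eq_iff_iff, decide_eq_true_eq]
  constructor
  · rintro (h | h)
    · exact absurd hU h.2
    · exact h.2.symm
  · intro h
    exact Or.inr ⟨⟨hz, hU⟩, h.symm⟩

theorem col_rcl' {z : ℂ} (hU : z ∉ U) : col (rcl U c T) z = col T z := by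
  classical
  unfold col
  rw [Bool.eq_iff_iff, decide_eq_true_eq, decide_eq_true_eq]
  constructor
  · rintro (h | h)
    · exact h.1
    · exact absurd h.1.2 hU
  · intro h
    exact Or.inl ⟨h, hU⟩

/-- A recolouring is a flip. -/
theorem rcl_eq_flipOn (hT : OneCol T) (U : Set ℂ) (c : ℂ → Bool) :
    rcl U c T = flipOn {z | (z ∈ pts T ∧ z ∈ U) ∧ col T z ≠ c z} '' T := by
  classical
  set W : Set ℂ := {z | (z ∈ pts T ∧ z ∈ U) ∧ col T z ≠ c z} with hW
  have hc : ∀ q ∈ T, col T q.1 = q.2 := by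
    intro q hq
    unfold col
    by_cases hq2 : q.2 = true
    · rw [hq2, decide_eq_true_eq, ← hq2]; exact hq
    · have hq3 : q.2 = false := by simpa using hq2
      rw [hq3, decide_eq_false_iff_not]
      intro h
      exact hT q.1 ⟨h, by rw [← hq3]; exact hq⟩
  ext q
  constructor
  · rintro (⟨h1, h2⟩ | ⟨⟨h1, h2⟩, h3⟩)
    · refine ⟨q, h1, ?_⟩
      unfold flipOn
      rw [if_neg (fun h => h2 h.1.2)]
    · obtain ⟨p, hp, hpq⟩ := h1
      refine ⟨p, hp, Prod.ext hpq ?_⟩
      have hcp := hc p hp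
      unfold flipOn
      by_cases hpW : p.1 ∈ W
      · rw [if_pos hpW, h3, ← hpq, ← hcp]
        have := hpW.2
        cases h4 : col T p.1 <;> cases h5 : c p.1 <;> simp_all
      · rw [if_neg hpW, h3, ← hpq, ← hcp]
        by_contra h4
        exact hpW ⟨⟨⟨p, hp, rfl⟩, by rw [hpq]; exact h2⟩, h4⟩
  · rintro ⟨p, hp, rfl⟩
    have hcp := hc p hp
    by_cases hpU : p.1 ∈ U
    · refine Or.inr ⟨⟨⟨p, hp, rfl⟩, hpU⟩, ?_⟩
      unfold flipOn
      by_cases hpW : p.1 ∈ W
      · rw [if_pos hpW, ← hcp]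
        have := hpW.2
        cases h4 : col T p.1 <;> cases h5 : c p.1 <;> simp_all
      · rw [if_neg hpW, ← hcp]
        by_contra h4
        exact hpW ⟨⟨⟨p, hp, rfl⟩, hpU⟩, h4⟩
    · refine Or.inl ⟨?_, hpU⟩
      have : flipOn W p = p := by
        unfold flipOn
        rw [if_neg (fun h => hpU h.1.2)]
      rw [this]
      exact hp

/-! ### the colourings of a world -/

open Classical in
/-- The average over the colourings of a world with `O` black is an average over recolourings of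
the free points. -/
theorem avg_world {V : Type*} [Fintype V] {π : ℂ → V} {O : V} (hT : OneCol T)
    (hinj : ∀ x ∈ pts T ∩ U, ∀ y ∈ pts T ∩ U, π x = π y → x = y)
    (hsurj : ∀ v, v ≠ O → ∃ x ∈ pts T ∩ U, π x = v) (hO : ∀ x ∈ pts T ∩ U, π x ≠ O)
    (Φ : Set Pt → ℝ≥0∞) :
    (2 ^ Fintype.card V)⁻¹ * ∑ σ : V → Bool,
        (if σ O = true then Φ (rcl U (fun z => σ (π z)) T) else 0) = 2⁻¹ * avg U Φ T := by
  classical
  let e : {v : V // v ≠ O} → ℂ := fun i => (hsurj i.1 i.2).choose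
  have heU : ∀ i, e i ∈ pts T ∩ U := fun i => (hsurj i.1 i.2).choose_spec.1
  have hπe : ∀ i, π (e i) = i.1 := fun i => (hsurj i.1 i.2).choose_spec.2
  have he : Function.Injective e := by
    intro i j hij
    apply Subtype.ext
    rw [← hπe i, ← hπe j, hij]
  have hr : range e = pts T ∩ U := by
    ext z
    constructor
    · rintro ⟨i, rfl⟩
      exact heU i
    · intro hz
      refine ⟨⟨π z, hO z hz⟩, ?_⟩
      exact (hinj z hz _ (heU _) (hπe ⟨π z, hO z hz⟩).symm).symm
  rw [avg_eq_sum he hr hT]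
  have hcard : Fintype.card V = Fintype.card {v : V // v ≠ O} + 1 := by
    have := Fintype.card_subtype_compl (fun v : V => v = O)
    rw [Fintype.card_subtype_eq] at this
    have h1 : 0 < Fintype.card V := Fintype.card_pos_iff.2 ⟨O⟩
    have h2 : Fintype.card {v : V // v ≠ O} = Fintype.card V - 1 := this
    omega
  rw [← Finset.sum_filter]
  have hbij : ∑ σ ∈ (Finset.univ : Finset (V → Bool)).filter (fun σ => σ O = true),
      Φ (rcl U (fun z => σ (π z)) T) =
      ∑ c : {v : V // v ≠ O} → Bool, Φ (paint T U e c) := by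
    refine Finset.sum_bij' (fun σ _ => fun i => σ i.1)
      (fun c _ => fun v => if h : v ≠ O then c ⟨v, h⟩ else true) ?_ ?_ ?_ ?_ ?_
    · intro σ _
      exact Finset.mem_univ _
    · intro c _
      rw [Finset.mem_filter]
      exact ⟨Finset.mem_univ _, by simp⟩
    · intro σ hσ
      rw [Finset.mem_filter] at hσ
      funext v
      by_cases h : v ≠ O
      · simp [h]
      · push Not at h
        simp [h, hσ.2]
    · intro c _
      funext i
      simp [i.2]
    · intro σ _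
      rw [← paint_eq_rcl (c := fun z => σ (π z)) hr]
      congr 2
      funext i
      rw [hπe]
  rw [hbij, hcard, pow_succ, ENNReal.mul_inv (by simp) (by simp), mul_comm _ (2⁻¹ : ℝ≥0∞),
    mul_assoc]

open Classical in
/-- Bound of an average over the colourings of a world. -/
theorem world_avg_le {V : Type*} [Fintype V] {π : ℂ → V} {O : V} (hT : OneCol T)
    (hinj : ∀ x ∈ pts T ∩ U, ∀ y ∈ pts T ∩ U, π x = π y → x = y)
    (hsurj : ∀ v, v ≠ O → ∃ x ∈ pts T ∩ U, π x = v) (hO : ∀ x ∈ pts T ∩ U, π x ≠ O)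
    {F : (V → Bool) → ℝ≥0∞} (hneg : ∀ σ, F (H910.neg σ) = F σ) {Φ : Set Pt → ℝ≥0∞}
    (hle : ∀ σ, σ O = true → F σ ≤ Φ (rcl U (fun z => σ (π z)) T)) :
    (2 ^ Fintype.card V)⁻¹ * ∑ σ : V → Bool, F σ ≤ avg U Φ T := by
  rw [H910.sum_eq_two_mul O F hneg]
  have h1 : ∑ σ : V → Bool, (if σ O = true then F σ else 0) ≤ ∑ σ : V → Bool,
        (if σ O = true then Φ (rcl U (fun z => σ (π z)) T) else 0) := by
    refine Finset.sum_le_sum fun σ _ => ?_
    split_ifs with h
    · exact hle σ h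
    · exact le_rfl
  calc (2 ^ Fintype.card V)⁻¹ * (2 * ∑ σ : V → Bool, (if σ O = true then F σ else 0))
      ≤ (2 ^ Fintype.card V)⁻¹ * (2 * ∑ σ : V → Bool,
        (if σ O = true then Φ (rcl U (fun z => σ (π z)) T) else 0)) := by gcongr
    _ = 2 * ((2 ^ Fintype.card V)⁻¹ * ∑ σ : V → Bool,
        (if σ O = true then Φ (rcl U (fun z => σ (π z)) T) else 0)) := by ring
    _ = avg U Φ T := by
        rw [avg_world hT hinj hsurj hO Φ, ← mul_assoc, ENNReal.mul_inv_cancel (by norm_num)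
          (by norm_num), one_mul]

theorem avg_mul_left {U : Set ℂ} {D Φ : Set Pt → ℝ≥0∞} {T : Set Pt}
    (hD : ∀ W, W ⊆ pts T ∩ U → D (flipOn W '' T) = D T) :
    avg U (fun T' => D T' * Φ T') T = D T * avg U Φ T := by
  classical
  unfold avg recolSum
  split_ifs with h
  · rw [mul_left_comm]
    congr 1
    rw [Finset.mul_sum]
    refine Finset.sum_congr rfl fun W hW => ?_
    rw [Finset.mem_powerset] at hW
    show D (flipOn (W : Set ℂ) '' T) * _ = _
    rw [hD]
    rw [← h.coe_toFinset]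
    exact Finset.coe_subset.2 hW
  · simp

theorem avg_mono {U : Set ℂ} {F G : Set Pt → ℝ≥0∞} {T : Set Pt}
    (h : ∀ W, W ⊆ pts T ∩ U → F (flipOn W '' T) ≤ G (flipOn W '' T)) : avg U F T ≤ avg U G T := by
  classical
  unfold avg recolSum
  split_ifs with hf
  · gcongr with W hW
    rw [Finset.mem_powerset] at hW
    apply h
    rw [← hf.coe_toFinset]
    exact Finset.coe_subset.2 hW
  · exact le_rfl

end Vale.Agent.P148.R2.H184
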