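import Vale.Agent.P148.R2.H184.PC1
import Vale.Agent.P148.R2.H184.Res
import Vale.Agent.P148.R2.H910.Om2

/-!
# P148, row PC, part 2: averages over the colourings of world 0
-/

open MeasureTheory Set Metric Function
open scoped ENNReal NNReal

namespace Vale.Agent.P148.R2.H184

open H592 H203 _root_.P148 _root_.P148.H729

/-! ### `MQ` is local and measurable -/

section
variable {X X' Q : Set ℂ} {c c' : ℂ → Bool}

theorem gg_congr (hX : X ∩ Q = X' ∩ Q) (hc : ∀ x ∈ X ∩ Q, c x = c' x) (Θ : Dt → ℂ) (d : Dt) :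
    gg X Q c Θ d = gg X' Q c' Θ d := by
  by_cases h : LF X Q d
  · exact ((Tr.local hX hc).gg_eq Θ h).symm
  · rw [gg_zero Θ (fun hi => h hi.lf), gg_zero Θ (fun hi => h (hi.lf.congr hX.symm))]

theorem inL_congr (hX : X ∩ Q = X' ∩ Q) (hc : ∀ x ∈ X ∩ Q, c x = c' x) {d : Dt} :
    InL X Q c d ↔ InL X' Q c' d :=
  ⟨fun h => (Tr.local hX hc).inL h, fun h => (Tr.local hX hc).symm.inL h⟩

theorem MQ_congr {ι : Type*} {Qi : ι → Set ℂ} (hQi : ∀ i, Qi i ⊆ Q) (hX : X ∩ Q = X' ∩ Q)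
    (hc : ∀ x ∈ X ∩ Q, c x = c' x) (Θ : Dt → ℂ) : MQ X Q Qi c Θ = MQ X' Q Qi c' Θ := by
  classical
  unfold MQ
  refine tsum_congr fun d => ?_
  rw [gg_congr hX hc]
  have : ∀ i, InL X (Qi i) c d ↔ InL X' (Qi i) c' d := by
    intro i
    refine inL_congr ?_ (fun x hx => hc x ⟨hx.1, hQi i hx.2⟩)
    rw [← inter_eq_self_of_subset_right (hQi i), ← inter_assoc, hX, inter_assoc]
  simp only [this]

end

/-- A measurable version of the energy of the loops which are local in the square but in none of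
the subsquares. -/
noncomputable def MC (x : ℂ) (L : ℝ) (m : ℕ) (Θ : Dt → ℂ) (T : Set Pt) : ℝ≥0∞ :=
  SC (sqr x L) Θ T - ∑ ij : Fin m × Fin m, SC (sub x (L / m) ij.1 ij.2) Θ T

theorem measurable_MC (x : ℂ) (L : ℝ) (m : ℕ) {Θ : Dt → ℂ} (hΘ : Measurable Θ) :
    @Measurable _ _ voidSigma _ (MC x L m Θ) := by
  have h1 : @Measurable _ _ voidSigma _ fun T => SC (sqr x L) Θ T :=
    measurable_SC (isOpen_sqr _ _) (isBounded_sqr _ _) hΘ
  have h2 : @Measurable _ _ voidSigma _ fun T => ∑ ij : Fin m × Fin m,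
      SC (sub x (L / m) ij.1 ij.2) Θ T :=
    @Finset.measurable_fun_sum _ _ _ _ _ _ voidSigma _ _ fun ij _ =>
      measurable_SC (isOpen_sqr _ _) (isBounded_sqr _ _) hΘ
  exact @Measurable.sub _ _ _ _ voidSigma _ _ _ h1 h2

theorem SG_ne_top {Q : Set ℂ} (Θ : Dt → ℂ) {T : Set Pt} (hT : (T ∩ Q ×ˢ univ).Finite) :
    SG Q Θ T ≠ ⊤ := by
  rw [← SG_window]
  unfold SG SQ
  have hX : (pts (T ∩ Q ×ˢ univ)).Finite := hT.image _
  have hfin := finite_LF hX Q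
  rw [tsum_eq_sum (s := hfin.toFinset)]
  · exact ENNReal.sum_ne_top.2 fun d _ => ENNReal.ofReal_ne_top
  · intro d hd
    by_contra hne
    exact hd (hfin.mem_toFinset.2 (gg_ne_zero hne).lf)

theorem MQ_eq_MC {x : ℂ} {L : ℝ} (hL : 0 < L) {m : ℕ} (hm : 0 < m) (Θ : Dt → ℂ) {T : Set Pt}
    (hT : (T ∩ sqr x L ×ˢ univ).Finite) (h3 : Three (pts T)) :
    MQ (pts T) (sqr x L) (fun ij : Fin m × Fin m => sub x (L / m) ij.1 ij.2) (col T) Θ =
      MC x L m Θ T := by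
  have hm' : (0 : ℝ) < m := by exact_mod_cast hm
  have hs : 0 < L / m := by positivity
  have hn : (m : ℝ) * (L / m) ≤ L := by
    rw [mul_div_cancel₀]
    exact hm'.ne'
  have hsub : ∀ ij : Fin m × Fin m, sub x (L / m) ij.1 ij.2 ⊆ sqr x L := fun ij =>
    sub_subset hs hn ij.1.2 ij.2.2
  have hT' : ∀ ij : Fin m × Fin m, (T ∩ sub x (L / m) ij.1 ij.2 ×ˢ univ).Finite := fun ij =>
    hT.subset (inter_subset_inter_right _ (prod_mono (hsub ij) subset_rfl))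
  have hsplit : SG (sqr x L) Θ T =
      MQ (pts T) (sqr x L) (fun ij : Fin m × Fin m => sub x (L / m) ij.1 ij.2) (col T) Θ +
      ∑ ij : Fin m × Fin m, SG (sub x (L / m) ij.1 ij.2) Θ T := by
    unfold SG
    rw [SQ_eq h3 (fun ij : Fin m × Fin m => sub x (L / m) ij.1 ij.2) hsub ?_ Θ, tsum_fintype]
    rintro ⟨i, j⟩ ⟨i', j'⟩ hne
    refine sub_disjoint hs ?_
    intro he
    apply hne
    rw [Prod.mk.injEq] at he
    exact Prod.ext (Fin.ext he.1) (Fin.ext he.2)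
  unfold MC
  rw [SC_eq Θ hT, hsplit]
  have e1 : ∑ ij : Fin m × Fin m, SC (sub x (L / m) ij.1 ij.2) Θ T =
      ∑ ij : Fin m × Fin m, SG (sub x (L / m) ij.1 ij.2) Θ T :=
    Finset.sum_congr rfl fun ij _ => SC_eq Θ (hT' ij)
  rw [e1, ENNReal.add_sub_cancel_right]
  exact ENNReal.sum_ne_top.2 fun ij _ => SG_ne_top Θ (hT' ij)

/-! ### World 0 of a configuration -/

/-- `(X, π, O)` is world 0 of the configuration `T`: the points which are not contracted to `O`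
are points of `T`; the contracted neighbours of the free points are black in `T`. -/
structure W0 {V : Type*} (T : Set Pt) (X : Set ℂ) (π : ℂ → V) (O : V) : Prop where
  surj : ∀ v, v ≠ O → ∃ x ∈ X, π x = v
  inj : ∀ x ∈ X, π x ≠ O → ∀ y ∈ X, π x = π y → x = y
  sub : ∀ x ∈ X, π x ≠ O → x ∈ pts T
  bdry : ∀ x y, nbr X x y → π x ≠ O → π y = O → col T y = true

/-- The free points. -/
def Fr {V : Type*} (X : Set ℂ) (π : ℂ → V) (O : V) : Set ℂ := {x | x ∈ X ∧ π x ≠ O}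

section

variable {T : Set Pt} {X : Set ℂ} {b : ZMod 3 → ℂ} {V : Type*} {π : ℂ → V} {O : V}

theorem W0.pts_inter (hW : W0 T X π O) : pts T ∩ Fr X π O = Fr X π O :=
  inter_eq_self_of_subset_right fun x hx => hW.sub x hx.1 hx.2

theorem W0.pworld (hW : W0 T X π O) {σ : V → Bool} (hσ : σ O = true) :
    PWorld X π O (col (rcl (Fr X π O) (fun z => σ (π z)) T)) σ where
  inj := hW.inj
  free x hx hxO := by
    rw [col_rcl (U := Fr X π O) (hW.sub x hx hxO) ⟨hx, hxO⟩]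
  bdry x y hxy hx hy := by
    rw [col_rcl' (fun h => h.2 hy), hσ]
    exact hW.bdry x y hxy hx hy

variable (h : HullTri X b) (hπ : Fib X π) {Q' A : Set ℂ} [Fintype (Fc X b × ZMod 3)]

/-- **PC, quenched**, one colouring. -/
theorem PWorld.tot_NL_le [Finite V] {c : ℂ → Bool} {σ : V → Bool} (hW : PWorld X π O c σ)
    (hloc : ∀ q : Fc X b × ZMod 3, (π (dt q).1 ≠ O ∨ π (dt q).2.1 ≠ O) → LF X Q' (dt q))
    (hA : ∀ x ∈ X ∩ A, π x ≠ O) {ι : Type*} {Qi : ι → Set ℂ}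
    (hQA : ∀ i, Qi i ⊆ A ∨ Disjoint (Qi i) A) (Θ : Dt → ℂ) {Ψ : Fc X b × ZMod 3 → ℂ}
    (hΨ : ∀ q, (h.tri258 π hπ).Good q → π (dt q).1 ≠ O → Ψ q = Θ (dt q)) :
    ENNReal.ofReal (tot (h.tri258 π hπ) σ
      (rs (fun d => H910.NL h π hπ A σ d ∧ ¬ H910.Thr (h.tri258 π hπ) O σ d) Ψ)) ≤
      MQ X Q' Qi c Θ := by
  have := h.finite_Fc
  refine hW.tot_le h hπ hloc Qi (H910.nl_sat h π hπ A σ) ?_ Θ hΨ
  intro q hq hthr hm i hi
  obtain ⟨r, hr, hrA, hrn⟩ := hq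
  have hav : ∀ f, (h.tri258 π hπ).Rel σ q f → (h.tri258 π hπ).src f ≠ O :=
    fun f hf he => hthr ⟨f, hf, he⟩
  obtain ⟨-, hrel⟩ := hW.rel_iff h hπ hloc hm hav
  have h1 : Rl X Q' c (dt q) (dt r) := (hrel r).1 hr
  have h2 : InL X (Qi i) c (dt r) := InL.of_rl h.three h1 hi
  rcases hQA i with hsub | hdis
  · apply hrn
    refine Nx.congr ?_ (h2.mono hsub)
    intro x hx
    exact (hW.free x hx.1 (hA x hx)).symm
  · exact Set.disjoint_left.1 hdis h2.lf.mem.1 hrA.mem.1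

/-- The plane classes of world 0 which meet `A` and are not local in `A`. -/
def PCls (A : Set ℂ) (O : V) (σ : V → Bool) (d : Fc X b × ZMod 3) : Prop :=
  H910.NL h π hπ A σ d ∧ ¬ H910.Thr (h.tri258 π hπ) O σ d

omit [Fintype (Fc X b × ZMod 3)] in
theorem pCls_neg (A : Set ℂ) (O : V) (σ : V → Bool) :
    PCls h hπ A O (H910.neg σ) = PCls h hπ A O σ := by
  funext d
  unfold PCls
  rw [H910.nl_neg]
  unfold H910.Thr
  simp only [H910.rel_neg]

/-- **PC, quenched**: the mean energy of the plane classes of world 0 which meet `A` and are not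
local in `A` is at most the average over the recolourings of the free points of the energy of the
loops which are local in `Q'` but in none of the `Q i`. -/
theorem W0.En_le [Fintype V] (hW : W0 T X π O) (hT : OneCol T)
    (hloc : ∀ q : Fc X b × ZMod 3, (π (dt q).1 ≠ O ∨ π (dt q).2.1 ≠ O) → LF X Q' (dt q))
    (hXQ : X ∩ Q' = pts T ∩ Q')
    (hA : ∀ x ∈ X ∩ A, π x ≠ O) {ι : Type*} {Qi : ι → Set ℂ}
    (hQi : ∀ i, Qi i ⊆ Q') (hQA : ∀ i, Qi i ⊆ A ∨ Disjoint (Qi i) A) (Θ : Dt → ℂ)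
    {Ψ : Fc X b × ZMod 3 → ℂ}
    (hΨ : ∀ q, (h.tri258 π hπ).Good q → π (dt q).1 ≠ O → Ψ q = Θ (dt q)) :
    H910.En h π hπ (PCls h hπ A O) Ψ ≤
      avg (Fr X π O) (fun T' => MQ (pts T') Q' Qi (col T') Θ) T := by
  classical
  unfold H910.En
  refine world_avg_le (U := Fr X π O) (π := π) (O := O) hT ?_ ?_ ?_ ?_ ?_
  · intro x hx y hy hxy
    exact hW.inj x hx.2.1 hx.2.2 y hy.2.1 hxy
  · intro v hv
    obtain ⟨x, hx, hxv⟩ := hW.surj v hv
    have hx' : π x ≠ O := by rw [hxv]; exact hv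
    exact ⟨x, ⟨hW.sub x hx hx', hx, hx'⟩, hxv⟩
  · exact fun x hx => hx.2.2
  · intro σ
    rw [pCls_neg, H910.tot_neg]
  · intro σ hσ
    refine ((hW.pworld hσ).tot_NL_le h hπ hloc hA hQA Θ hΨ).trans (le_of_eq ?_)
    show MQ X Q' Qi _ Θ = MQ (pts (rcl (Fr X π O) (fun z => σ (π z)) T)) Q' Qi _ Θ
    rw [pts_rcl]
    exact MQ_congr hQi hXQ (fun _ _ => rfl) Θ

end

end Vale.Agent.P148.R2.H184
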