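import Vale.Agent.P148.R2.H184.PC2

/-!
# P148, row PC, part 3: expectation
-/

open MeasureTheory Set Metric Function ProbabilityTheory
open scoped ENNReal NNReal

namespace Vale.Agent.P148.R2.H184

open H592 H203 _root_.P148 _root_.P148.H729

universe u

/-- `sum_subtype_pow` for all instances. -/
theorem sum_subtype_pow' {V : Type*} [Fintype V] (p : V → Prop) [i1 : Fintype {v // p v}]
    [i2 : Fintype ({v // p v} → Bool)] [i3 : Fintype (V → Bool)]
    (G : ({v // p v} → Bool) → ℝ≥0∞) :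
    (2 ^ Fintype.card {v // p v})⁻¹ * ∑ c : {v // p v} → Bool, G c =
      (2 ^ Fintype.card V)⁻¹ * ∑ σ : V → Bool, G (fun i => σ i.1) := by
  have e1 : ∀ j : Fintype {v // p v}, @Fintype.card _ i1 = @Fintype.card _ j :=
    fun j => by rw [Subsingleton.elim i1 j]
  have e2 : ∀ j : Fintype ({v // p v} → Bool), @Finset.univ _ i2 = @Finset.univ _ j :=
    fun j => by rw [Subsingleton.elim i2 j]
  have e3 : ∀ j : Fintype (V → Bool), @Finset.univ _ i3 = @Finset.univ _ j :=
    fun j => by rw [Subsingleton.elim i3 j]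
  have h := sum_subtype_pow p G
  rw [← e1, ← e2, ← e3] at h
  exact h

theorem flipOn_empty (T : Set Pt) : flipOn ∅ '' T = T := by
  classical
  have : ∀ q : Pt, flipOn ∅ q = q := fun q => by
    unfold flipOn
    rw [if_neg (notMem_empty _)]
  rw [image_congr (fun q _ => this q), image_id']

theorem avg_empty (F : Set Pt → ℝ≥0∞) (T : Set Pt) : avg ∅ F T = F T := by
  classical
  unfold avg recolSum
  have : (pts T ∩ ∅).Finite := by rw [inter_empty]; exact finite_empty
  rw [dif_pos this]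
  have h0 : this.toFinset = ∅ := by
    rw [← Finset.coe_inj, this.coe_toFinset, inter_empty, Finset.coe_empty]
  rw [h0, Finset.powerset_empty, Finset.sum_singleton, inter_empty, Set.ncard_empty, pow_zero,
    inv_one, one_mul, Finset.coe_empty, flipOn_empty]

/-- **Quenched comparison.** `E T` is a mean over the colourings of the free points `fr T`, `D` is
a density which does not depend on them. -/
theorem avg_density_le {S : Set Pt} {W : Set ℂ} (hW : (pts S ∩ W).Finite)
    {D E Φ : Set Pt → ℝ≥0∞} {fr : Set Pt → Set ℂ}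
    (hfr : ∀ V, V ⊆ pts S ∩ W → D (flipOn V '' S) ≠ 0 → fr (flipOn V '' S) ⊆ W)
    (hinv : ∀ V, V ⊆ pts S ∩ W → D (flipOn V '' S) ≠ 0 → ∀ V', V' ⊆ fr (flipOn V '' S) →
      D (flipOn V' '' (flipOn V '' S)) = D (flipOn V '' S) ∧
      fr (flipOn V' '' (flipOn V '' S)) = fr (flipOn V '' S))
    (hE : ∀ V, V ⊆ pts S ∩ W → D (flipOn V '' S) ≠ 0 →
      E (flipOn V '' S) ≤ avg (fr (flipOn V '' S)) Φ (flipOn V '' S)) :
    avg W (fun T => D T * E T) S ≤ avg W (fun T => D T * Φ T) S := by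
  classical
  set fr' : Set Pt → Set ℂ := fun T => if D T = 0 then ∅ else fr T with hfr'
  have e0 : ∀ T, D T = 0 → fr' T = ∅ := fun T h => by simp only [hfr', if_pos h]
  have e1 : ∀ T, D T ≠ 0 → fr' T = fr T := fun T h => by simp only [hfr', if_neg h]
  rw [← avg_avg hW (fr := fr') (G := fun T => D T * Φ T)]
  · apply avg_mono
    intro V hV
    set T := flipOn V '' S with hT
    by_cases hD : D T = 0
    · show D T * E T ≤ _
      rw [hD, zero_mul]
      exact zero_le
    · rw [e1 T hD, avg_mul_left]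
      · show D T * E T ≤ _
        gcongr
        exact hE V hV hD
      · intro V' hV'
        exact (hinv V hV hD V' (hV'.trans inter_subset_right)).1
  · intro V hV
    by_cases hD : D (flipOn V '' S) = 0
    · rw [e0 _ hD]; exact empty_subset _
    · rw [e1 _ hD]; exact hfr V hV hD
  · intro V hV V' hV'
    by_cases hD : D (flipOn V '' S) = 0
    · rw [e0 _ hD] at hV' ⊢
      have : V' = ∅ := subset_empty_iff.1 hV'
      rw [this, flipOn_empty, e0 _ hD]
    · rw [e1 _ hD] at hV' ⊢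
      obtain ⟨h1, h2⟩ := hinv V hV hD V' hV'
      rw [e1 _ (by rw [h1]; exact hD), h2]

theorem pts_flip_window {S : Set Pt} {V Q : Set ℂ} (h : (S ∩ Q ×ˢ univ).Finite) :
    ((flipOn V '' S) ∩ Q ×ˢ univ).Finite := by
  refine (h.image (flipOn V)).subset ?_
  rintro _ ⟨⟨q, hq, rfl⟩, hq'⟩
  exact ⟨q, ⟨hq, hq'⟩, rfl⟩

section
variable {Ω : Type u} [MeasurableSpace Ω] {P : Measure Ω} {S : Ω → Set Pt} {lam : ℝ≥0}

/-- The mean of `MC` is small. -/
theorem lintegral_MC_le {τ : ℂ} {κ : ℝ} {Θ : Dt → ℂ} (hΘ : Wt τ κ Θ) {m : ℕ} (hm : 0 < m)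
    {η : ℝ} (hη : 0 < η) : ∃ K : ℝ, 0 < K ∧ ∀ (Ω : Type u) [MeasurableSpace Ω] (P : Measure Ω)
      [IsProbabilityMeasure P] (S : Ω → Set Pt) (lam : ℝ≥0), IsColouredPoisson P S lam →
      ∀ (x : ℂ) (L : ℝ), 0 < L → K ≤ lam * L ^ 2 →
      ∫⁻ ω, MC x L m Θ (S ω) ∂P ≤ ENNReal.ofReal (η * L ^ 2) := by
  obtain ⟨K, hK0, hK⟩ := main.{u} hΘ hm hη
  refine ⟨K, hK0, fun Ω _ P _ S lam hS x L hL hKL => ?_⟩
  refine le_trans (le_of_eq ?_) (hK Ω P S lam hS x L hL hKL)
  refine lintegral_congr_ae ?_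
  filter_upwards [ae_three hS] with ω h3
  exact (MQ_eq_MC hL hm Θ (finite_window hS (isBounded_sqr x L) ω) h3).symm

/-- The quenched average of the energy under a bounded density. -/
theorem lintegral_avg_MC [IsProbabilityMeasure P] (h : IsColouredPoisson P S lam) {W : Set ℂ}
    (hW : MeasurableSet W) (hb : Bornology.IsBounded W) {Θ : Dt → ℂ} (hΘ : Measurable Θ) (x : ℂ)
    (L : ℝ) (m : ℕ) :
    Measurable (fun ω => avg W (MC x L m Θ) (S ω)) ∧
    ∫⁻ ω, avg W (MC x L m Θ) (S ω) ∂P = ∫⁻ ω, MC x L m Θ (S ω) ∂P :=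
  ⟨measurable_avg h hW hb (measurable_MC x L m hΘ), lintegral_avg h hW hb (measurable_MC x L m hΘ)⟩

end

/-- **PC**, abstract form: the mean, under a bounded density which does not depend on the colours
of the free points, of a quantity which is at most the mean over the colours of the free points of
the energy of the loops which are local in the square but in none of the `m²` subsquares, tends
to `0`. -/
theorem ub_of_avg {τ : ℂ} {κ : ℝ} {Θ : Dt → ℂ} (hΘ : Wt τ κ Θ) {m : ℕ} (hm : 0 < m) (x : ℂ)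
    {L : ℝ} (hL : 0 < L) {Dm : ℝ≥0∞} (hDm : Dm ≠ ⊤) {η : ℝ} (hη : 0 < η) :
    ∃ K : ℝ, 0 < K ∧ ∀ (Ω : Type u) [MeasurableSpace Ω] (P : Measure Ω)
      [IsProbabilityMeasure P] (S : Ω → Set Pt) (lam : ℝ≥0), IsColouredPoisson P S lam →
      K ≤ lam → ∀ (W : Set ℂ), MeasurableSet W → Bornology.IsBounded W →
      ∀ (D E : Set Pt → ℝ≥0∞) (fr : Set Pt → Set ℂ),
      (∀ᵐ ω ∂P, ∀ V, V ⊆ pts (S ω) ∩ W → ∀ T, T = flipOn V '' (S ω) → D T ≠ 0 →
        D T ≤ Dm ∧ fr T ⊆ W ∧ (∀ V', V' ⊆ fr T → D (flipOn V' '' T) = D T ∧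
          fr (flipOn V' '' T) = fr T) ∧
        E T ≤ avg (fr T) (fun T' => MQ (pts T') (sqr x L)
          (fun ij : Fin m × Fin m => sub x (L / m) ij.1 ij.2) (col T') Θ) T) →
      ∃ g : Ω → ℝ≥0∞, Measurable g ∧ (∀ᵐ ω ∂P, avg W (fun T => D T * E T) (S ω) ≤ g ω) ∧
        ∫⁻ ω, g ω ∂P ≤ ENNReal.ofReal η := by
  classical
  set C : ℝ := Dm.toReal + 1 with hC
  have hC0 : 0 < C := by positivity
  have hDC : Dm ≤ ENNReal.ofReal C := by
    rw [← ENNReal.ofReal_toReal hDm]
    exact ENNReal.ofReal_le_ofReal (by rw [hC]; linarith)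
  obtain ⟨K, hK0, hK⟩ := lintegral_MC_le.{u} hΘ hm (η := η / (C * L ^ 2)) (by positivity)
  refine ⟨K / L ^ 2, by positivity, ?_⟩
  intro Ω _ P _ S lam hS hlam W hWm hWb D E fr hall
  obtain ⟨hgm, hgi⟩ := lintegral_avg_MC hS hWm hWb hΘ.meas x L m
  refine ⟨fun ω => ENNReal.ofReal C * avg W (MC x L m Θ) (S ω), hgm.const_mul _, ?_, ?_⟩
  · filter_upwards [hall, ae_three hS] with ω hω h3
    have hfin := finite_pts hS hWb ω
    have h1 := avg_density_le (S := S ω) (W := W) hfin (D := D) (E := E) (fr := fr)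
      (Φ := fun T' => MQ (pts T') (sqr x L)
          (fun ij : Fin m × Fin m => sub x (L / m) ij.1 ij.2) (col T') Θ)
      (fun V hV hD => (hω V hV _ rfl hD).2.1)
      (fun V hV hD V' hV' => (hω V hV _ rfl hD).2.2.1 V' hV')
      (fun V hV hD => (hω V hV _ rfl hD).2.2.2)
    refine h1.trans ?_
    have h2 : avg W (fun T => ENNReal.ofReal C * MC x L m Θ T) (S ω) =
        ENNReal.ofReal C * avg W (MC x L m Θ) (S ω) :=
      avg_mul_left (D := fun _ => ENNReal.ofReal C) (fun _ _ => rfl)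
    rw [← h2]
    apply avg_mono
    intro V hV
    show D (flipOn V '' S ω) * MQ (pts (flipOn V '' S ω)) _ _ _ _ ≤ _
    rw [MQ_eq_MC hL hm Θ (pts_flip_window (finite_window hS (isBounded_sqr x L) ω))
      (by rw [pts_flipOn]; exact h3)]
    by_cases hD : D (flipOn V '' S ω) = 0
    · rw [hD, zero_mul]; exact zero_le
    · gcongr
      exact (hω V hV _ rfl hD).1.trans hDC
  · rw [lintegral_const_mul _ hgm, hgi]
    have hKL : K ≤ lam * L ^ 2 := by
      rwa [div_le_iff₀ (by positivity)] at hlam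
    calc ENNReal.ofReal C * ∫⁻ ω, MC x L m Θ (S ω) ∂P
        ≤ ENNReal.ofReal C * ENNReal.ofReal (η / (C * L ^ 2) * L ^ 2) := by
          gcongr
          exact hK Ω P S lam hS x L hL hKL
      _ = ENNReal.ofReal η := by
          rw [← ENNReal.ofReal_mul hC0.le]
          congr 1
          field_simp

end Vale.Agent.P148.R2.H184
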