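import Vale.Agent.P148.R2.H184.PC3
import Vale.Agent.P148.R2.H400.Flip7

/-!
# P148, row FLIPA, annealed half: colourings which are fresh off a stopping set

`E T` is a set of explored points such that `W \ E T` is not changed by recolourings of the points
of `W \ E T`. A quantity which is at most the mean of `MQ` over the recolourings off `E T` has a
small mean under every bounded density.
-/

open MeasureTheory Set Metric Function ProbabilityTheory
open scoped ENNReal NNReal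

namespace Vale.Agent.P148.R2.H184

open H592 H203 _root_.P148 _root_.P148.H729

universe u

section

variable {X : Set ℂ} {T : Set Pt} {E Q W : Set ℂ}

/-- The colouring `col T` on `E`, `τ` elsewhere. -/
theorem pc_mixB (x₀ : X) (E : Set ℂ) (ω : ℂ → Bool) (τ : X → Bool) {x : ℂ} (hx : x ∈ X) :
    pc (idmap X x₀) (H400.mixB X E ω τ) x =
      (open Classical in if x ∈ E then ω x else τ ⟨x, hx⟩) := by
  classical
  unfold pc H400.mixB
  rw [idmap_eq hx]
  by_cases h : x ∈ E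
  · rw [if_pos h]
    exact H838.mix_mem (A := H400.vs X E) (show (⟨x, hx⟩ : X) ∈ H400.vs X E from h)
  · rw [if_neg h]
    exact H838.mix_not_mem (A := H400.vs X E) (show (⟨x, hx⟩ : X) ∉ H400.vs X E from h)

/-- **Mean over the fresh colours.** -/
theorem avg_mix [Fintype X] {ι : Type*} {Qi : ι → Set ℂ} (hQi : ∀ i, Qi i ⊆ Q)
    (hXQ : X ∩ Q = pts T ∩ Q) (hT : OneCol T) (x₀ : X) (hQW : Q ⊆ W)
    (hWX : pts T ∩ (W \ E) ⊆ X) (Θ : Dt → ℂ) :
    (open Classical in (2 ^ Fintype.card X)⁻¹ * ∑ τ : X → Bool,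
        MQ X Q Qi (pc (idmap X x₀) (H400.mixB X E (col T) τ)) Θ) =
      avg (W \ E) (fun T' => MQ (pts T') Q Qi (col T') Θ) T := by
  classical
  set p : X → Prop := fun v => (v : ℂ) ∈ pts T ∩ (W \ E) with hp
  let e : {v : X // p v} → ℂ := fun i => (i.1 : ℂ)
  have he : Function.Injective e := fun i j hij => Subtype.ext (Subtype.ext hij)
  have hr : range e = pts T ∩ (W \ E) := by
    ext z
    constructor
    · rintro ⟨i, rfl⟩
      exact i.2
    · intro hz
      exact ⟨⟨⟨z, hWX hz⟩, hz⟩, rfl⟩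
  rw [avg_eq_sum he hr hT]
  have h2 : ∀ τ : X → Bool, MQ X Q Qi (pc (idmap X x₀) (H400.mixB X E (col T) τ)) Θ =
      MQ (pts (paint T (W \ E) e fun i => τ i.1)) Q Qi
        (col (paint T (W \ E) e fun i => τ i.1)) Θ := by
    intro τ
    rw [pts_paint _ hr]
    refine MQ_congr hQi hXQ ?_ Θ
    intro x hx
    have hxT : x ∈ pts T := (hXQ.subset hx).1
    rw [pc_mixB x₀ E _ τ hx.1]
    by_cases hxE : x ∈ E
    · rw [if_pos hxE]
      unfold col
      rw [Bool.eq_iff_iff, decide_eq_true_eq, decide_eq_true_eq,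
        mem_paint_of_notMem _ hr (q := (x, true)) (fun h => h.2 hxE)]
    · rw [if_neg hxE]
      have hxW : x ∈ W \ E := ⟨hQW hx.2, hxE⟩
      unfold col
      rw [Bool.eq_iff_iff, decide_eq_true_eq, mem_paint_of_mem _ (q := (x, true)) hxW]
      constructor
      · intro h
        exact ⟨⟨⟨x, hx.1⟩, hxT, hxW⟩, rfl, h⟩
      · rintro ⟨i, hi1, hi2⟩
        have : i.1 = ⟨x, hx.1⟩ := Subtype.ext hi1
        rw [← this]
        exact hi2
  simp_rw [h2]
  exact (sum_subtype_pow' p (fun c => MQ (pts (paint T (W \ E) e c)) Q Qi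
    (col (paint T (W \ E) e c)) Θ)).symm

end

theorem avg_const_mul' {U : Set ℂ} (c : ℝ≥0∞) (F : Set Pt → ℝ≥0∞) (T : Set Pt) :
    avg U (fun T' => c * F T') T = c * avg U F T :=
  avg_mul_left (D := fun _ => c) (fun _ _ => rfl)

/-- **Stopping form**: `fr T` is not changed by recolourings inside `fr T`, `D` is any bounded
density (it may depend on the colours in `fr T`). -/
theorem ub_of_stop {τ : ℂ} {κ : ℝ} {Θ : Dt → ℂ} (hΘ : Wt τ κ Θ) {m : ℕ} (hm : 0 < m) (x : ℂ)
    {L : ℝ} (hL : 0 < L) {Dm : ℝ≥0∞} (hDm : Dm ≠ ⊤) {η : ℝ} (hη : 0 < η) :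
    ∃ K : ℝ, 0 < K ∧ ∀ (Ω : Type u) [MeasurableSpace Ω] (P : Measure Ω)
      [IsProbabilityMeasure P] (S : Ω → Set Pt) (lam : ℝ≥0), IsColouredPoisson P S lam →
      K ≤ lam → ∀ (W : Set ℂ), MeasurableSet W → Bornology.IsBounded W →
      ∀ (Y : Set Pt → ℝ≥0∞) (fr : Set Pt → Set ℂ),
      (∀ᵐ ω ∂P, ∀ V, V ⊆ pts (S ω) ∩ W → ∀ T, T = flipOn V '' (S ω) →
        fr T ⊆ W ∧ (∀ V', V' ⊆ fr T → fr (flipOn V' '' T) = fr T) ∧
        Y T ≤ Dm * avg (fr T) (fun T' => MQ (pts T') (sqr x L)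
          (fun ij : Fin m × Fin m => sub x (L / m) ij.1 ij.2) (col T') Θ) T) →
      ∃ g : Ω → ℝ≥0∞, Measurable g ∧ (∀ᵐ ω ∂P, avg W Y (S ω) ≤ g ω) ∧
        ∫⁻ ω, g ω ∂P ≤ ENNReal.ofReal η := by
  classical
  set C : ℝ := Dm.toReal + 1 with hC
  have hC0 : 0 < C := by positivity
  have hDC : Dm ≤ ENNReal.ofReal C := by
    rw [← ENNReal.ofReal_toReal hDm]
    exact ENNReal.ofReal_le_ofReal (by rw [hC]; linarith)
  obtain ⟨K, hK0, hK⟩ := lintegral_MC_le.{u} hΘ hm (η := η / (C * L ^ 2)) (by positivity)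
  refine ⟨K / L ^ 2, by positivity, ?_⟩
  intro Ω _ P _ S lam hS hlam W hWm hWb Y fr hall
  obtain ⟨hgm, hgi⟩ := lintegral_avg_MC hS hWm hWb hΘ.meas x L m
  refine ⟨fun ω => ENNReal.ofReal C * avg W (MC x L m Θ) (S ω), hgm.const_mul _, ?_, ?_⟩
  · filter_upwards [hall, ae_three hS] with ω hω h3
    have hfin := finite_pts hS hWb ω
    set Φ : Set Pt → ℝ≥0∞ := fun T' => MQ (pts T') (sqr x L)
          (fun ij : Fin m × Fin m => sub x (L / m) ij.1 ij.2) (col T') Θ with hΦ
    have h1 : avg W Y (S ω) ≤ avg W (fun T => ENNReal.ofReal C * avg (fr T) Φ T) (S ω) := by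
      apply avg_mono
      intro V hV
      refine (hω V hV _ rfl).2.2.trans ?_
      gcongr
    have h2 : avg W (fun T => avg (fr T) Φ T) (S ω) = avg W Φ (S ω) :=
      avg_avg hfin (fun V hV => (hω V hV _ rfl).1)
        (fun V hV V' hV' => (hω V hV _ rfl).2.1 V' hV') Φ
    have h4 : avg W Φ (S ω) ≤ avg W (MC x L m Θ) (S ω) := by
      apply avg_mono
      intro V hV
      show MQ (pts (flipOn V '' S ω)) _ _ _ _ ≤ _
      rw [MQ_eq_MC hL hm Θ (pts_flip_window (finite_window hS (isBounded_sqr x L) ω))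
        (by rw [pts_flipOn]; exact h3)]
    rw [avg_const_mul', h2] at h1
    exact h1.trans (by gcongr)
  · rw [lintegral_const_mul _ hgm, hgi]
    have hKL : K ≤ lam * L ^ 2 := by
      rwa [div_le_iff₀ (by positivity)] at hlam
    calc ENNReal.ofReal C * ∫⁻ ω, MC x L m Θ (S ω) ∂P
        ≤ ENNReal.ofReal C * ENNReal.ofReal (η / (C * L ^ 2) * L ^ 2) := by
          gcongr
          exact hK Ω P S lam hS x L hL hKL
      _ = ENNReal.ofReal η := by
          rw [← ENNReal.ofReal_mul hC0.le]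
          congr 1
          field_simp

end Vale.Agent.P148.R2.H184
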