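import Vale.Agent.P148.R2.H184.PC3

/-!
# P148: the quenched mean of `MQ` does not depend on the world
-/

open MeasureTheory Set Metric Function ProbabilityTheory
open scoped ENNReal NNReal

namespace Vale.Agent.P148.R2.H184

open H592 H203 _root_.P148 _root_.P148.H729

/-- **World independence** of the quenched mean of `MQ`: the mean over all the colourings of the
vertices of a world which does not glue the points of `Q` is the average over the recolourings of
the configuration in any window `W ⊇ Q`. -/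
theorem avg_MQ {X : Set ℂ} {T : Set Pt} {Q : Set ℂ} (hXQ : X ∩ Q = pts T ∩ Q) (hT : OneCol T)
    {V : Type*} [Fintype V] [DecidableEq V] {π : ℂ → V} (hF : Faith X Q π) {ι : Type*}
    {Qi : ι → Set ℂ} (hQi : ∀ i, Qi i ⊆ Q) (Θ : Dt → ℂ) :
    (2 ^ Fintype.card V)⁻¹ * ∑ σ : V → Bool, MQ X Q Qi (pc π σ) Θ =
      avg Q (fun T' => MQ (pts T') Q Qi (col T') Θ) T := by
  classical
  set p : V → Prop := fun v => ∃ x ∈ X ∩ Q, π x = v with hp
  let e : {v : V // p v} → ℂ := fun i => i.2.choose
  have heX : ∀ i, e i ∈ X ∩ Q := fun i => i.2.choose_spec.1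
  have hπe : ∀ i, π (e i) = i.1 := fun i => i.2.choose_spec.2
  have he : Function.Injective e := by
    intro i j hij
    apply Subtype.ext
    rw [← hπe i, ← hπe j, hij]
  have hr : range e = pts T ∩ Q := by
    rw [← hXQ]
    ext z
    constructor
    · rintro ⟨i, rfl⟩
      exact heX i
    · intro hz
      refine ⟨⟨π z, z, hz, rfl⟩, ?_⟩
      have h1 := hπe ⟨π z, z, hz, rfl⟩
      exact (hF z hz.1 hz.2 _ (heX _).1 h1.symm).symm
  rw [avg_eq_sum he hr hT]
  have h2 : ∀ σ : V → Bool, MQ X Q Qi (pc π σ) Θ =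
      MQ (pts (paint T Q e fun i => σ i.1)) Q Qi (col (paint T Q e fun i => σ i.1)) Θ := by
    intro σ
    rw [pts_paint _ hr]
    refine MQ_congr hQi hXQ ?_ Θ
    intro x hx
    unfold pc H184.col
    rw [Bool.eq_iff_iff, decide_eq_true_eq, mem_paint_of_mem _ (q := (x, true)) hx.2]
    constructor
    · intro h
      refine ⟨⟨π x, x, hx, rfl⟩, ?_, h⟩
      exact (hF x hx.1 hx.2 _ (heX _).1 (hπe ⟨π x, x, hx, rfl⟩).symm).symm
    · rintro ⟨i, hi1, hi2⟩
      have hi1' : e i = x := hi1
      have : π x = i.1 := by rw [← hi1', hπe]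
      rw [this]
      exact hi2
  simp_rw [h2]
  exact (sum_subtype_pow' p (fun c => MQ (pts (paint T Q e c)) Q Qi
    (col (paint T Q e c)) Θ)).symm

end Vale.Agent.P148.R2.H184
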