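import Vale.Agent.P148.R2.H184.PC5
import Vale.Agent.P148.R2.H566.Omega2

/-!
# P148, row PC, part 7: the row in terms of the scenes of helper566

`Ann s T fr Tc W C` is the annealed comparison: the mean over the scene of the average over the
recolourings of `Tc i` in `fr i` is at most `C` times the average over the recolourings of `T` in
`W`. `pc_scene` : the mean energy of the plane classes of the worlds of a scene tends to zero.
-/

open MeasureTheory Set Metric Function ProbabilityTheory Filter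
open scoped ENNReal NNReal

namespace Vale.Agent.P148.R2.H184

open H592 H203 H995 H990 H566 _root_.P148 _root_.P148.H729

universe u

section
variable {F F' : Set Pt → ℝ≥0∞} {c c' : ℝ≥0∞}

/-- Only configurations in which every point has one colour matter. -/
theorem evMean_mono_col (h : EvMean.{u} F c) (hF : ∀ T, OneCol T → F' T ≤ F T) (hc : c ≤ c') :
    EvMean.{u} F' c' := by
  obtain ⟨K, hK⟩ := h
  exact ⟨K, fun Ω _ P _ S lam hS hl =>
    (hK Ω P S lam hS hl).mono (Eventually.of_forall fun ω => hF _ (hS.oneColour ω)) hc⟩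

/-- Only configurations in which every point has one colour, and every point of the plane has
at most three nearest points, matter. -/
theorem evMean_mono_three (h : EvMean.{u} F c)
    (hF : ∀ T, OneCol T → Three (pts T) → F' T ≤ F T) (hc : c ≤ c') : EvMean.{u} F' c' := by
  obtain ⟨K, hK⟩ := h
  refine ⟨K, fun Ω _ P _ S lam hS hl => (hK Ω P S lam hS hl).mono ?_ hc⟩
  filter_upwards [ae_three hS] with ω h3
  exact hF _ (hS.oneColour ω) h3

end

/-- **The mean of `MQ`** over the recolourings in a bounded window tends to `0`. -/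
theorem evMean_avg_MQ {τ : ℂ} {κ : ℝ} {Θ : Dt → ℂ} (hΘ : Wt τ κ Θ) {m : ℕ} (hm : 0 < m) (x : ℂ)
    {L : ℝ} (hL : 0 < L) {W : Set ℂ} (hW : MeasurableSet W) (hb : Bornology.IsBounded W) :
    EvZero.{u} (fun T => avg W (fun T' => MQ (pts T') (sqr x L)
      (fun ij : Fin m × Fin m => sub x (L / m) ij.1 ij.2) (col T') Θ) T) := by
  intro ε hε
  obtain ⟨K, hK0, hK⟩ := lintegral_MC_le.{u} hΘ hm (η := ε / L ^ 2) (by positivity)
  refine ⟨K / L ^ 2, fun Ω _ P _ S lam hS hlam => ?_⟩
  obtain ⟨hgm, hgi⟩ := lintegral_avg_MC hS hW hb hΘ.meas x L m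
  refine ⟨fun ω => avg W (MC x L m Θ) (S ω), hgm, ?_, ?_⟩
  · filter_upwards [ae_three hS] with ω h3
    apply avg_mono
    intro V _
    show MQ (pts (flipOn V '' S ω)) _ _ _ _ ≤ _
    rw [MQ_eq_MC hL hm Θ (pts_flip_window (finite_window hS (isBounded_sqr x L) ω))
      (by rw [pts_flipOn]; exact h3)]
  · rw [hgi]
    have hKL : K ≤ lam * L ^ 2 := by
      rwa [div_le_iff₀ (by positivity)] at hlam
    refine (hK Ω P S lam hS x L hL hKL).trans (le_of_eq ?_)
    congr 1
    field_simp

/-- The average of a constant. -/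
theorem avg_const {U : Set ℂ} {T : Set Pt} (h : (pts T ∩ U).Finite) (c : ℝ≥0∞) :
    avg U (fun _ => c) T = c := by
  classical
  unfold avg recolSum
  rw [dif_pos h, Finset.sum_const, Finset.card_powerset, nsmul_eq_mul]
  have h1 : (pts T ∩ U).ncard = h.toFinset.card := Set.ncard_eq_toFinset_card _ h
  rw [h1]
  push_cast
  rw [← mul_assoc, ENNReal.inv_mul_cancel (by simp) (by simp), one_mul]

/-- The annealed comparison. -/
def Ann (s : Scene) (T : Set Pt) (fr : s.ι → Set ℂ) (Tc : s.ι → Set Pt) (W : Set ℂ)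
    (C : ℝ≥0∞) : Prop :=
  ∀ F : Set Pt → ℝ≥0∞, ∑ i, s.p i * avg (fr i) F (Tc i) ≤ C * avg W F T

/-- A quantity which is, in every world of the scene, at most `k` times the mean of `MQ` over the
fresh colours, has a small mean. -/
theorem evZero_of_ann {τ : ℂ} {κ : ℝ} {Θ : Dt → ℂ} (hΘ : Wt τ κ Θ) {m : ℕ} (hm : 0 < m) (x : ℂ)
    {L : ℝ} (hL : 0 < L) {W : Set ℂ} (hW : MeasurableSet W) (hb : Bornology.IsBounded W)
    {k C : ℝ≥0∞} (hk : k ≠ ⊤) (hC : C ≠ ⊤) (G : Set Pt → Prop) (sc : Set Pt → Scene)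
    (fr : ∀ T, (sc T).ι → Set ℂ) (Tc : ∀ T, (sc T).ι → Set Pt)
    (hann : ∀ T, G T → OneCol T → Ann (sc T) T (fr T) (Tc T) W C)
    (Y : ∀ T, (sc T).ι → ℝ≥0∞)
    (hY : ∀ T, G T → OneCol T → ∀ i, (sc T).p i ≠ 0 →
      Y T i ≤ k * avg (fr T i) (fun T' => MQ (pts T') (sqr x L)
        (fun ij : Fin m × Fin m => sub x (L / m) ij.1 ij.2) (col T') Θ) (Tc T i)) :
    EvZero.{u} (fun T => ⨆ _ : G T, ∑ i, (sc T).p i * Y T i) := by
  intro ε hε
  have h1 := (evMean_avg_MQ.{u} hΘ hm x hL hW hb).const_mul (k := k * C)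
    (ENNReal.mul_ne_top hk hC) ε hε
  refine evMean_mono_col h1 (fun T hT => iSup_le fun hG => ?_) le_rfl
  calc ∑ i, (sc T).p i * Y T i
      ≤ ∑ i, k * ((sc T).p i * avg (fr T i) (fun T' => MQ (pts T') (sqr x L)
        (fun ij : Fin m × Fin m => sub x (L / m) ij.1 ij.2) (col T') Θ) (Tc T i)) := by
        refine Finset.sum_le_sum fun i _ => ?_
        by_cases hp : (sc T).p i = 0
        · rw [hp, zero_mul]; exact zero_le
        · rw [mul_left_comm]
          gcongr
          exact hY T hG hT i hp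
    _ = k * ∑ i, (sc T).p i * avg (fr T i) (fun T' => MQ (pts T') (sqr x L)
        (fun ij : Fin m × Fin m => sub x (L / m) ij.1 ij.2) (col T') Θ) (Tc T i) := by
        rw [Finset.mul_sum]
    _ ≤ k * (C * avg W (fun T' => MQ (pts T') (sqr x L)
        (fun ij : Fin m × Fin m => sub x (L / m) ij.1 ij.2) (col T') Θ) T) := by
        gcongr
        exact hann T hG hT _
    _ = _ := by rw [mul_assoc]

/-- **Row PC** for scenes: the free sites are fresh off the explored set `E T i`. `Tc T i` are the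
configurations in which the points of `E T i` have their explored colours. -/
theorem pc_scene {κ₁ : Type} {τ : ℂ} {κ : ℝ} {Θ : Dt → ℂ} (hΘ : Wt τ κ Θ) {W : Set ℂ}
    (hW : MeasurableSet W) (hb : Bornology.IsBounded W) {C : ℝ≥0∞} (hC : C ≠ ⊤)
    (G : Set Pt → Prop) (sc : Set Pt → AScene κ₁) (E : ∀ T, (sc T).ι → Set ℂ)
    (Tc : ∀ T, (sc T).ι → Set Pt)
    (hann : ∀ T, G T → OneCol T → Ann (sc T).toScene T (fun i => W \ E T i) (Tc T) W C)
    (hpc : ∀ T, G T → OneCol T → ∀ i, (sc T).p i ≠ 0 →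
      (pts (Tc T i) ∩ W).Finite ∧ OneCol (Tc T i) ∧ PCW (Tc T i) ((sc T).w i) ∧
      {x | ((sc T).w i).Free x} ⊆ W \ E T i ∧
      ∀ x y, nbr ((sc T).w i).X x y → ((sc T).w i).Free x → y ∈ ((sc T).w i).B → y ∈ E T i) :
    EvZero.{u} (fun T => ⨆ _ : G T, (sc T).mn (sc T).pcl Θ) := by
  classical
  refine evZero_of_ann hΘ (m := 16) (by norm_num) ⟨-4, -4⟩ (L := 8) (by norm_num) hW hb
    ENNReal.one_ne_top hC G (fun T => (sc T).toScene) (fun T i => W \ E T i) Tc hann
    (fun T i => ((sc T).w i).En (PW ((sc T).w i) A0) (((sc T).w i).th Θ)) ?_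
  intro T hG hT i hp
  obtain ⟨hfin, h1, h2, h3, h4⟩ := hpc T hG hT i hp
  rw [one_mul]
  have hfin' : (pts (Tc T i) ∩ (W \ E T i)).Finite :=
    hfin.subset (inter_subset_inter_right _ sdiff_subset)
  set Φ : Set Pt → ℝ≥0∞ := fun T' => MQ (pts T') Q0 Qs (H184.col T') Θ with hΦ
  have h5 : avg (W \ E T i) (fun T' => avg {x | ((sc T).w i).Free x} Φ T') (Tc T i) =
      avg (W \ E T i) Φ (Tc T i) :=
    avg_avg (fr := fun _ => {x | ((sc T).w i).Free x}) hfin' (fun V _ => h3)
      (fun _ _ _ _ => rfl) Φ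
  have h6 : avg (W \ E T i) (fun _ => ((sc T).w i).En (PW ((sc T).w i) A0)
      (((sc T).w i).th Θ)) (Tc T i) ≤
      avg (W \ E T i) (fun T' => avg {x | ((sc T).w i).Free x} Φ T') (Tc T i) := by
    apply avg_mono
    intro V hV
    have hcol : ∀ y ∈ E T i, H184.col (flipOn V '' Tc T i) y = H184.col (Tc T i) y := by
      intro y hy
      have hyV : y ∉ V := fun h => (hV h).2.2 hy
      unfold H184.col
      rw [Bool.eq_iff_iff, decide_eq_true_eq, decide_eq_true_eq]
      constructor
      · rintro ⟨q, hq, hqy⟩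
        have e1 : q.1 = y := congrArg Prod.fst hqy
        have e2 : flipOn V q = q := by
          unfold flipOn
          rw [if_neg (by rw [e1]; exact hyV)]
        rw [← hqy, e2]
        exact hq
      · intro hq
        refine ⟨(y, true), hq, ?_⟩
        unfold flipOn
        rw [if_neg hyV]
    refine PCW.En_le ?_ (oneCol_flipOn h1 V) Θ fun q hg _ => th_eq Θ q hg
    exact {
      sub := fun x hx => by rw [pts_flipOn]; exact h2.sub x hx
      near := h2.near
      bdry := fun x y hxy hx hy => by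
        rw [hcol y (h4 x y hxy hx hy)]
        exact h2.bdry x y hxy hx hy
      win := by rw [pts_flipOn]; exact h2.win
      inner := h2.inner
      net := h2.net
      far := h2.far }
  have h7 : avg (W \ E T i) (fun _ => ((sc T).w i).En (PW ((sc T).w i) A0)
      (((sc T).w i).th Θ)) (Tc T i) =
      ((sc T).w i).En (PW ((sc T).w i) A0) (((sc T).w i).th Θ) := by
    exact avg_const hfin' _
  rw [← h7]
  exact h6.trans h5.le

end Vale.Agent.P148.R2.H184
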